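import Vale.Agent.P218DY.Defs
import Vale.Agent.P218.H313.A1

/-! # P218, block DY-I: the rescaled flow has integer multiplicities -/

open MeasureTheory Set Filter Topology Metric
open scoped ENNReal NNReal RealInnerProductSpace

namespace Vale.Agent.P218GE

open Vale.Agent.P214 (IntegralVarifold IsApproxTangent)
open Vale.Agent.P218 Vale.Agent.P218.H313 Vale.Agent.P218.H313.A1
open Vale.Agent.P218.H552 (MC BF NN yy JJ GG)
open Vale.Agent.P218DY (Intg)

variable {E : Type*} [NormedAddCommGroup E] [InnerProductSpace ℝ E] [FiniteDimensional ℝ E]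
  [MeasurableSpace E] [BorelSpace E] {m : ℕ}

lemma intg_of_varifold (V : IntegralVarifold m (univ : Set E)) : Intg m V.weight V.tangent := by
  have h1 : ∀ᵐ x ∂V.weight, x ∈ V.carrier := by
    have h2 : V.weight ≪ (μH[m] : Measure E).restrict V.carrier :=
      withDensity_absolutelyContinuous _ _
    exact h2.ae_le (ae_restrict_mem₀ V.carrier_meas)
  filter_upwards [h1, V.tangent_spec] with x hx1 hx2
  exact ⟨V.mult x, V.mult_pos x hx1, hx2⟩

lemma intg_dil {μ : Measure E} {T : E → Submodule ℝ E} (h : Intg m μ T) {lam : ℝ} (hl : 0 < lam)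
    (x₀ : E) : Intg m (dil m lam x₀ μ) fun y => T (xx lam x₀ y) := by
  refine ae_dil hl x₀ ?_
  filter_upwards [h] with x hx
  obtain ⟨q, hq, hT, hx⟩ := hx
  refine ⟨q, hq, ?_⟩
  rw [xx_yy hl]
  refine ⟨hT, fun f hf hfc => ?_⟩
  have h2 : Tendsto (fun r : ℝ => r / lam) (𝓝[>] 0) (𝓝[>] 0) := by
    apply tendsto_nhdsWithin_of_tendsto_nhds_of_eventually_within
    · have : Tendsto (fun r : ℝ => r / lam) (𝓝 0) (𝓝 (0 / lam)) :=
        (continuous_id.div_const lam).tendsto 0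
      rw [zero_div] at this
      exact this.mono_left nhdsWithin_le_nhds
    · filter_upwards [self_mem_nhdsWithin] with r hr
      exact div_pos hr hl
  refine ((hx f hf hfc).comp h2).congr' ?_
  filter_upwards [self_mem_nhdsWithin] with r hr0
  have hr0' : 0 < r := hr0
  rw [Function.comp_apply, integral_dil hl, div_pow]
  have e : ∀ x' : E, f ((r / lam)⁻¹ • (x' - x)) = f (r⁻¹ • (yy lam x₀ x' - yy lam x₀ x)) := by
    intro x'
    congr 1
    unfold yy
    rw [← smul_sub, sub_sub_sub_cancel_right, smul_smul]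
    congr 1
    field_simp
  simp only [e]
  field_simp

lemma exists_BF_intg {μ : ℝ → Measure E} (h : IsIntegralBrakkeFlow m μ) :
    ∃ T H, BF m μ T H ∧ (∀ᵐ t : ℝ, 0 ≤ t → Slice m (μ t) (T t) (H t)) ∧
      ∀ᵐ t : ℝ, 0 ≤ t → Intg m (μ t) (T t) := by
  obtain ⟨h1, V, H, h2, -, h3⟩ := h
  refine ⟨fun t => (V t).tangent, H, ⟨fun t ht => ?_, ?_, ?_⟩, ?_, ?_⟩
  · have := h1 t ht
    infer_instance
  · rw [ae_restrict_iff' measurableSet_Ici]
    filter_upwards [h2] with t ht ht0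
    obtain ⟨e1, e2⟩ := ht ht0
    rw [← e1]
    exact H552.mc_of_isMeanCurvature e2
  · intro φ hφ hφc hφ0 a b ha hab
    have h4 := h3 (fun p => φ p.1 p.2) hφ hφc (fun p => hφ0 _ _) a b ha hab
    have e : ∀ t, ∫ x, brakkeIntegrand (H t) (fun p : ℝ × E => φ p.1 p.2) t x ∂(μ t)
        = H552.brakkeRHS (μ t) (H t) φ t := by
      intro t
      unfold H552.brakkeRHS brakkeIntegrand
      congr 1
      ext x
      ring
    simp_rw [e] at h4
    exact h4
  · filter_upwards [h2] with t ht ht0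
    obtain ⟨e1, e2⟩ := ht ht0
    rw [← e1]
    exact slice_of_isMeanCurvature e2
  · filter_upwards [h2] with t ht ht0
    rw [← (ht ht0).1]
    exact intg_of_varifold (V t)

/-- DY-I -/
theorem exists_RF_intg {μ : ℝ → Measure E} (hμ : IsIntegralBrakkeFlow m μ) (h0 : μ 0 univ < ⊤)
    (x₀ : E) {t₀ : ℝ} (ht : 0 < t₀) :
    ∃ (T : ℝ → E → Submodule ℝ E) (H : ℝ → E → E) (s₀ : ℝ),
      RF m (fun s => H552.NN m μ x₀ t₀ (s / 2)) T H s₀ ∧
      ∀ᵐ s : ℝ, s₀ ≤ s → Intg m (H552.NN m μ x₀ t₀ (s / 2)) (T s) := by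
  obtain ⟨T, H, hB, hS, hI⟩ := exists_BF_intg hμ
  set s₀ : ℝ := Real.log (2 / t₀) with hs₀
  have hti : ∀ s, s₀ ≤ s → t₀ / 2 ≤ ti t₀ s := by
    intro s hs
    unfold ti
    have h1 : Real.exp (-s) ≤ t₀ / 2 := by
      have h2 : Real.exp (-s) ≤ Real.exp (-s₀) := Real.exp_le_exp.2 (by linarith)
      rw [hs₀, Real.exp_neg (Real.log (2 / t₀)), Real.exp_log (by positivity), inv_div] at h2
      exact h2
    linarith
  have htau : ∀ s, s₀ ≤ s → H552.tau0 t₀ ≤ s / 2 := by
    intro s hs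
    unfold H552.tau0
    have h1 : -Real.log t₀ ≤ s₀ := by
      rw [hs₀, Real.log_div (by norm_num) ht.ne']
      have := Real.log_nonneg (show (1 : ℝ) ≤ 2 by norm_num)
      linarith
    linarith
  refine ⟨fun s y => T (ti t₀ s) (xx (Real.exp (s / 2)) x₀ y),
    fun s y => (Real.exp (s / 2))⁻¹ • H (ti t₀ s) (xx (Real.exp (s / 2)) x₀ y), s₀, ?_, ?_⟩
  swap
  · filter_upwards [ae_time t₀ hI] with s hs hs0
    have h2 := intg_dil (hs (by linarith [hti s hs0])) (Real.exp_pos (s / 2)) x₀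
    rw [NN_half]
    exact h2
  constructor
  · intro s hs
    exact H552.NN_finite hB h0 x₀ ht (htau s hs)
  · refine ⟨√2 ^ m * ((√t₀)⁻¹ ^ m * (μ 0).real univ), fun s hs => ?_⟩
    have h1 := H552.gauss_bound hB h0 x₀ ht (k := 2) (by norm_num) (htau s hs)
    have e : ∀ y : E, Real.exp (-‖y‖ ^ 2 / (4 * 2)) = Real.exp (-‖y‖ ^ 2 / 8) := by
      intro y; norm_num
    simp only [e] at h1
    exact h1
  · refine ⟨_, fun s hs x r hr _ => ratio_bound hB h0 x₀ ht (hti s hs) x hr⟩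
  · filter_upwards [ae_time t₀ hS] with s hs hs0
    have h1 := hs (by linarith [hti s hs0])
    have h2 := slice_dil h1 (Real.exp_pos (s / 2)) x₀
    rw [NN_half]
    exact h2
  · intro f hf hfc hf0 a b ha hab
    have hmono := (ti_strictMono t₀).monotone hab
    obtain ⟨h1, h2⟩ := hB.weighted x₀ hf hfc hf0 (a := ti t₀ a) (b := ti t₀ b)
      (by linarith [hti a ha]) hmono (ti_lt _ _)
    have e1 : (fun s => LL (NN m μ x₀ t₀ (s / 2))
        (fun y => T (ti t₀ s) (xx (Real.exp (s / 2)) x₀ y))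
        (fun y => (Real.exp (s / 2))⁻¹ • H (ti t₀ s) (xx (Real.exp (s / 2)) x₀ y)) f)
        = fun s => Real.exp (-s) * GG m μ T H x₀ t₀ f (ti t₀ s) := by
      ext s; exact LL_dil x₀ t₀ s f
    have e2 : ∀ s, ∫ x, f x * rho x ∂(NN m μ x₀ t₀ (s / 2)) = JJ m μ x₀ t₀ f (ti t₀ s) := by
      intro s
      rw [← tim_half, H552.JJ_tim _ _ _ _ (Real.exp_pos _)]
      rfl
    refine ⟨?_, ?_⟩
    · rw [e1]; exact intervalIntegrable_time t₀ hab h1
    · rw [e2, e2, e1]
      rw [integral_time t₀ hab] at h2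
      exact h2

end Vale.Agent.P218GE
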