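import Vale.Agent.P264Z.Brouwer

/-! # P218, block DY-G: existence of the gauge, by the degree -/

open MeasureTheory Set Filter Topology Metric

namespace Vale.Agent.P218GE

variable {E : Type*} [NormedAddCommGroup E] [InnerProductSpace ℝ E] [FiniteDimensional ℝ E]
  [MeasurableSpace E] [BorelSpace E]
variable {P : Type*} [NormedAddCommGroup P] [NormedSpace ℝ P] [FiniteDimensional ℝ P]

omit [MeasurableSpace E] [BorelSpace E] in
lemma compact_of_ball {f : E → ℝ} {R : ℝ} (h : ∀ x, R < ‖x‖ → f x = 0) : HasCompactSupport f :=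
  HasCompactSupport.intro (isCompact_closedBall (0 : E) R) fun x hx => h x (by simpa using hx)

omit [InnerProductSpace ℝ E] [FiniteDimensional ℝ E] [MeasurableSpace E] [BorelSpace E]
  [NormedAddCommGroup E] in
lemma lin_expand (z : P →ₗ[ℝ] (E → ℝ)) (a : P) (x : E) :
    z a x = ∑ j, (Module.finBasis ℝ P).repr a j * z (Module.finBasis ℝ P j) x := by
  conv_lhs => rw [← (Module.finBasis ℝ P).sum_repr a, map_sum, Finset.sum_apply]
  simp only [map_smul, Pi.smul_apply, smul_eq_mul]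

lemma exists_repr_le : ∃ C : ℝ, 0 < C ∧ ∀ (a : P) j, |(Module.finBasis ℝ P).repr a j| ≤ C * ‖a‖ := by
  let e : P ≃L[ℝ] (Fin (Module.finrank ℝ P) → ℝ) :=
    (Module.finBasis ℝ P).equivFun.toContinuousLinearEquiv
  refine ⟨‖(e : P →L[ℝ] (Fin (Module.finrank ℝ P) → ℝ))‖ + 1, by positivity, fun a j => ?_⟩
  have h1 := (norm_le_pi_norm (e a) j).trans
    ((e : P →L[ℝ] (Fin (Module.finrank ℝ P) → ℝ)).le_opNorm a)
  have h2 : (e a) j = (Module.finBasis ℝ P).repr a j := rfl
  rw [h2, Real.norm_eq_abs] at h1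
  nlinarith [norm_nonneg a]

section one

variable {N : Measure E} [IsFiniteMeasureOnCompacts N] {z : P →ₗ[ℝ] (E → ℝ)} {R : ℝ}

omit [FiniteDimensional ℝ P] in
lemma intg_mul (hz : ∀ b, Continuous (z b)) (hzR : ∀ b x, R < ‖x‖ → z b x = 0) {g : E → ℝ}
    (hg : Continuous g) (b : P) : Integrable (fun x => g x * z b x) N :=
  (hg.mul (hz b)).integrable_of_hasCompactSupport (compact_of_ball (hzR b)).mul_left

lemma int_expand (hz : ∀ b, Continuous (z b)) (hzR : ∀ b x, R < ‖x‖ → z b x = 0) {g : E → ℝ}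
    (hg : Continuous g) (a : P) : ∫ x, g x * z a x ∂N
      = ∑ j, (Module.finBasis ℝ P).repr a j * ∫ x, g x * z (Module.finBasis ℝ P j) x ∂N := by
  simp_rw [← integral_const_mul]
  rw [← integral_finsetSum _ fun j _ => (intg_mul hz hzR hg _).const_mul _]
  congr 1
  ext x
  rw [lin_expand z a x, Finset.mul_sum]
  exact Finset.sum_congr rfl fun j _ => by ring

omit [FiniteDimensional ℝ P] in
lemma abs_int_le (hz : ∀ b, Continuous (z b)) (hzR : ∀ b x, R < ‖x‖ → z b x = 0) {g : E → ℝ}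
    {η : ℝ} (hg : ∀ x, ‖x‖ ≤ R → |g x| ≤ η) (b : P) :
    |∫ x, g x * z b x ∂N| ≤ η * ∫ x, |z b x| ∂N := by
  rw [← integral_const_mul, ← Real.norm_eq_abs]
  refine norm_integral_le_of_norm_le
    (((hz b).abs.integrable_of_hasCompactSupport (compact_of_ball (hzR b)).abs).const_mul _)
    (Eventually.of_forall fun x => ?_)
  rw [Real.norm_eq_abs, abs_mul]
  rcases le_or_gt ‖x‖ R with h | h
  · gcongr; exact hg x h
  · rw [hzR b x h]; simp

lemma bil_expand {V' : P →ₗ[ℝ] (E → ℝ)} (hV' : ∀ b, Continuous (V' b))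
    (hz : ∀ b, Continuous (z b)) (hzR : ∀ b x, R < ‖x‖ → z b x = 0) (a : P) :
    ∫ x, V' a x * z a x ∂N = ∑ j, ∑ k, (Module.finBasis ℝ P).repr a j *
      ((Module.finBasis ℝ P).repr a k *
        ∫ x, V' (Module.finBasis ℝ P k) x * z (Module.finBasis ℝ P j) x ∂N) := by
  rw [int_expand hz hzR (hV' a)]
  refine Finset.sum_congr rfl fun j _ => ?_
  rw [← Finset.mul_sum]
  congr 1
  simp_rw [← integral_const_mul]
  rw [← integral_finsetSum _ fun k _ => (intg_mul hz hzR (hV' _) _).const_mul _]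
  congr 1
  ext x
  rw [lin_expand V' a x, Finset.sum_mul]
  exact Finset.sum_congr rfl fun j _ => by ring

/-- one measure: positivity on a sphere gives a zero -/
lemma gauge_of_pos (hz : ∀ b, Continuous (z b)) (hzR : ∀ b x, R < ‖x‖ → z b x = 0)
    {V : P → E → ℝ} {ρ : ℝ} (hρ : 0 < ρ) (hV : ∀ a, ‖a‖ ≤ ρ → Continuous (V a))
    (hc : ∀ a₀, ‖a₀‖ ≤ ρ → ∀ ε : ℝ, 0 < ε → ∀ᶠ a in 𝓝 a₀, ∀ x, ‖x‖ ≤ R → |V a x - V a₀ x| ≤ ε)
    (hpos : ∀ a, ‖a‖ = ρ → 0 < ∫ x, V a x * z a x ∂N) :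
    ∃ a : P, ‖a‖ ≤ ρ ∧ ∀ b, ∫ x, V a x * z b x ∂N = 0 := by
  set bs := Module.finBasis ℝ P with hbs
  have hcont : ∀ b, ContinuousOn (fun a => ∫ x, V a x * z b x ∂N) (closedBall 0 ρ) := by
    intro b a₀ ha₀
    have ha₀' : ‖a₀‖ ≤ ρ := by simpa using ha₀
    rw [ContinuousWithinAt, Metric.tendsto_nhds]
    intro ε hε
    have hI : 0 ≤ ∫ x, |z b x| ∂N := integral_nonneg fun x => abs_nonneg _
    set I := ∫ x, |z b x| ∂N
    filter_upwards [nhdsWithin_le_nhds (hc a₀ ha₀' (ε / (2 * (I + 1))) (by positivity)),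
      self_mem_nhdsWithin] with a ha ha'
    rw [Real.dist_eq, ← integral_sub (intg_mul hz hzR (hV a (by simpa using ha')) b)
      (intg_mul hz hzR (hV a₀ ha₀') b)]
    simp_rw [← sub_mul]
    refine (abs_int_le hz hzR ha b).trans_lt ?_
    rw [div_mul_eq_mul_div, div_lt_iff₀ (by positivity)]
    nlinarith
  obtain ⟨a, ha, h0⟩ := P264Z.exists_zero_of_sphere hρ
    (f := fun a => ∑ j, (∫ x, V a x * z (bs j) x ∂N) • bs j)
    (continuousOn_finsetSum _ fun j _ => (hcont _).smul continuousOn_const) (fun a ha t ht h => by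
      have h1 : ∀ j, (1 - t) * bs.repr a j + t * ∫ x, V a x * z (bs j) x ∂N = 0 := fun j => by
        have := congrArg (fun v => bs.repr v j) h
        simpa [Finsupp.single_apply] using this
      have h2 : (1 - t) * ∑ j, bs.repr a j ^ 2 + t * ∫ x, V a x * z a x ∂N = 0 := by
        rw [int_expand hz hzR (hV a ha.le), Finset.mul_sum, Finset.mul_sum, ← Finset.sum_add_distrib]
        refine Finset.sum_eq_zero fun j _ => ?_
        have := h1 j
        rw [← hbs]
        linear_combination (bs.repr a j) * this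
      have h3 : 0 < ∑ j, bs.repr a j ^ 2 := by
        by_contra hcon
        have h4 := (Finset.sum_eq_zero_iff_of_nonneg fun j _ => sq_nonneg (bs.repr a j)).1
          (le_antisymm (not_lt.1 hcon) (Finset.sum_nonneg fun j _ => sq_nonneg _))
        have h5 : a = 0 := by
          rw [← bs.sum_repr a]
          exact Finset.sum_eq_zero fun j hj => by
            rw [pow_eq_zero_iff two_ne_zero |>.1 (h4 j hj), zero_smul]
        rw [h5, norm_zero] at ha
        exact hρ.ne ha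
      have h4 := hpos a ha
      rcases ht.1.eq_or_lt with h5 | h5
      · rw [← h5] at h2; linarith
      · nlinarith [mul_pos h5 h4, mul_nonneg (sub_nonneg.2 ht.2) h3.le])
  refine ⟨a, ha.le, fun b => ?_⟩
  rw [int_expand hz hzR (hV a ha.le)]
  refine Finset.sum_eq_zero fun j _ => ?_
  have := congrArg (fun v => bs.repr v j) h0
  rw [← hbs, show ∫ x, V a x * z (bs j) x ∂N = 0 by simpa [Finsupp.single_apply] using this,
    mul_zero]

end one

/-- DY-G, with continuity near `0` and differentiability at `0` -/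
theorem exists_gauge {ι : Type*} {l : Filter ι} {N : ι → Measure E} {κ : Measure E}
    [IsLocallyFiniteMeasure κ] (hN : ∀ᶠ i in l, IsFiniteMeasureOnCompacts (N i))
    (hlim : ∀ φ : E → ℝ, Continuous φ → HasCompactSupport φ →
      Tendsto (fun i => ∫ x, φ x ∂(N i)) l (𝓝 (∫ x, φ x ∂κ)))
    {V : ι → P → E → ℝ} {V' z : P →ₗ[ℝ] (E → ℝ)} {R : ℝ}
    (hV : ∀ᶠ p : ι × P in l ×ˢ 𝓝 0, Continuous (V p.1 p.2)) (hV' : ∀ b, Continuous (V' b))
    (hz : ∀ b, Continuous (z b)) (hzR : ∀ b x, R < ‖x‖ → z b x = 0)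
    (hcont : ∀ᶠ p : ι × P in l ×ˢ 𝓝 0, ∀ ε : ℝ, 0 < ε → ∀ᶠ a in 𝓝 p.2, ∀ x, ‖x‖ ≤ R →
      |V p.1 a x - V p.1 p.2 x| ≤ ε)
    (hdiff : ∀ ε : ℝ, 0 < ε → ∀ᶠ p : ι × P in l ×ˢ 𝓝 0, ∀ x, ‖x‖ ≤ R →
      |V p.1 p.2 x - V p.1 0 x - V' p.2 x| ≤ ε * ‖p.2‖)
    (hV0 : ∀ b, Tendsto (fun i => ∫ x, V i 0 x * z b x ∂(N i)) l (𝓝 0))
    (hpos : ∀ b, b ≠ 0 → 0 < ∫ x, V' b x * z b x ∂κ)
    {ε : ℝ} (hε : 0 < ε) :
    ∀ᶠ i in l, ∃ a : P, ‖a‖ ≤ ε ∧ ∀ b, ∫ x, V i a x * z b x ∂(N i) = 0 := by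
  set bs := Module.finBasis ℝ P with hbs
  obtain ⟨C, hC, hCb⟩ := exists_repr_le (P := P)
  rw [← hbs] at hCb
  -- coercivity of the limit form
  obtain ⟨c, hc, hcb⟩ : ∃ c : ℝ, 0 < c ∧ ∀ a : P, c * ‖a‖ ^ 2 ≤ ∫ x, V' a x * z a x ∂κ := by
    have hQ : Continuous fun a : P => ∫ x, V' a x * z a x ∂κ := by
      simp_rw [bil_expand hV' hz hzR]
      have : ∀ j, Continuous fun a : P => (Module.finBasis ℝ P).repr a j := fun j =>
        ((Module.finBasis ℝ P).coord j).continuous_of_finiteDimensional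
      fun_prop
    have hhom : ∀ (a : P) (s : ℝ), ∫ x, V' (s • a) x * z (s • a) x ∂κ
        = s ^ 2 * ∫ x, V' a x * z a x ∂κ := fun a s => by
      rw [← integral_const_mul]
      congr 1
      ext x
      simp only [map_smul, Pi.smul_apply, smul_eq_mul]
      ring
    rcases (sphere (0 : P) 1).eq_empty_or_nonempty with h0 | h0
    · refine ⟨1, one_pos, fun a => ?_⟩
      by_cases ha : a = 0
      · simp [ha]
      · have : ‖a‖⁻¹ • a ∈ sphere (0 : P) 1 := by
          simp [norm_smul, inv_mul_cancel₀ (norm_ne_zero_iff.2 ha)]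
        rw [h0] at this
        exact this.elim
    · obtain ⟨b, hb, hmin⟩ := (isCompact_sphere (0 : P) 1).exists_isMinOn h0 hQ.continuousOn
      have hb0 : b ≠ 0 := by rintro rfl; simp at hb
      refine ⟨_, hpos b hb0, fun a => ?_⟩
      by_cases ha : a = 0
      · simp [ha]
      · have hn : 0 < ‖a‖ := norm_pos_iff.2 ha
        have h1 : ‖a‖⁻¹ • a ∈ sphere (0 : P) 1 := by simp [norm_smul, inv_mul_cancel₀ hn.ne']
        have h2 : ∫ x, V' b x * z b x ∂κ ≤ ∫ x, V' (‖a‖⁻¹ • a) x * z (‖a‖⁻¹ • a) x ∂κ := hmin h1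
        rw [hhom, inv_pow, ← div_eq_inv_mul, le_div_iff₀ (by positivity)] at h2
        exact h2
  set D : ℝ := ∑ j, (∫ x, |z (bs j) x| ∂κ + 1) with hD
  have hD0 : 0 ≤ D := Finset.sum_nonneg fun j _ =>
    add_nonneg (integral_nonneg fun x => abs_nonneg _) zero_le_one
  obtain ⟨pa, hpa, pb, hpb, hab⟩ := eventually_prod_iff.1
    (hV.and (hcont.and (hdiff (c / (4 * (C * D + 1))) (by positivity))))
  obtain ⟨r, hr, hball⟩ := Metric.eventually_nhds_iff.1 hpb
  set ρ := min ε (r / 2) with hρ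
  have hρ0 : 0 < ρ := lt_min hε (half_pos hr)
  have hin : ∀ a : P, ‖a‖ ≤ ρ → dist a 0 < r := fun a ha => by
    rw [dist_zero_right]; linarith [min_le_right ε (r / 2)]
  have e1 : ∀ᶠ i in l, ∀ j, ∫ x, |z (bs j) x| ∂(N i) ≤ ∫ x, |z (bs j) x| ∂κ + 1 :=
    eventually_all.2 fun j => (hlim _ (hz _).abs (compact_of_ball (hzR _)).abs).eventually
      (eventually_le_nhds (by linarith))
  have e2 : Tendsto (fun i => ∑ j, |∫ x, V i 0 x * z (bs j) x ∂(N i)|) l (𝓝 0) := by
    simpa using tendsto_finsetSum (Finset.univ : Finset (Fin (Module.finrank ℝ P)))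
      fun j _ => (hV0 (bs j)).abs
  have e3 : Tendsto (fun i => ∑ j, ∑ k, |∫ x, V' (bs k) x * z (bs j) x ∂(N i)
      - ∫ x, V' (bs k) x * z (bs j) x ∂κ|) l (𝓝 0) := by
    have : (0 : ℝ) = ∑ j, ∑ k, |∫ x, V' (bs k) x * z (bs j) x ∂κ
      - ∫ x, V' (bs k) x * z (bs j) x ∂κ| := by simp
    rw [this]
    exact tendsto_finsetSum _ fun j _ => tendsto_finsetSum _ fun k _ =>
      ((hlim _ ((hV' _).mul (hz _)) (compact_of_ball (hzR _)).mul_left).sub_const _).abs
  filter_upwards [hpa, hN, e1, e2.eventually (eventually_le_nhds (by positivity : 0 < c * ρ / (4 * C))),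
    e3.eventually (eventually_le_nhds (by positivity : 0 < c / (4 * C ^ 2)))] with i hi0 hi h1 h2 h3
  have hV00 : Continuous (V i 0) := (hab hi0 hpb.self_of_nhds).1
  obtain ⟨a, ha, h⟩ := gauge_of_pos (N := N i) (V := V i) hz hzR hρ0
    (fun a ha => (hab hi0 (hball (hin a ha))).1)
    (fun a ha => (hab hi0 (hball (hin a ha))).2.1) fun a ha => by
      obtain ⟨hVa, -, hd⟩ := hab hi0 (hball (hin a ha.le))
      simp only at hVa hd
      have hg : Continuous fun x => V i a x - V i 0 x - V' a x := (hVa.sub hV00).sub (hV' a)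
      have s1 : ∫ x, V i a x * z a x ∂(N i) = ∫ x, (V i a x - V i 0 x - V' a x) * z a x ∂(N i)
          + ∫ x, V i 0 x * z a x ∂(N i) + ∫ x, V' a x * z a x ∂(N i) := by
        have i1 : Integrable (fun x => (V i a x - V i 0 x - V' a x) * z a x + V i 0 x * z a x) (N i) :=
          (intg_mul hz hzR hg a).add (intg_mul hz hzR hV00 a)
        rw [← integral_add (intg_mul hz hzR hg a) (intg_mul hz hzR hV00 a),
          ← integral_add i1 (intg_mul hz hzR (hV' a) a)]
        congr 1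
        ext x
        ring
      have s2 : |∫ x, (V i a x - V i 0 x - V' a x) * z a x ∂(N i)| ≤ c / 4 * ρ ^ 2 := by
        rw [int_expand hz hzR hg, ← hbs]
        refine (Finset.abs_sum_le_sum_abs _ _).trans ?_
        calc _ ≤ ∑ j, C * ρ * (c / (4 * (C * D + 1)) * ρ * (∫ x, |z (bs j) x| ∂κ + 1)) := by
              refine Finset.sum_le_sum fun j _ => ?_
              rw [abs_mul]
              refine mul_le_mul (ha ▸ hCb a j) ((abs_int_le hz hzR hd _).trans ?_) (abs_nonneg _)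
                (by positivity)
              rw [ha]
              gcongr
              exact h1 j
          _ = c / 4 * ρ ^ 2 * (C * D / (C * D + 1)) := by
              rw [← Finset.mul_sum, ← Finset.mul_sum, ← hD]; field_simp
          _ ≤ _ := mul_le_of_le_one_right (by positivity) (by
              rw [div_le_one (by positivity)]; linarith)
      have s3 : |∫ x, V i 0 x * z a x ∂(N i)| ≤ c / 4 * ρ ^ 2 := by
        rw [int_expand hz hzR hV00, ← hbs]
        refine (Finset.abs_sum_le_sum_abs _ _).trans ?_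
        calc _ ≤ ∑ j, C * ρ * |∫ x, V i 0 x * z (bs j) x ∂(N i)| := by
              refine Finset.sum_le_sum fun j _ => ?_
              rw [abs_mul]
              gcongr
              exact ha ▸ hCb a j
          _ ≤ C * ρ * (c * ρ / (4 * C)) := by rw [← Finset.mul_sum]; gcongr
          _ = _ := by field_simp
      have s4 : |∫ x, V' a x * z a x ∂(N i) - ∫ x, V' a x * z a x ∂κ| ≤ c / 4 * ρ ^ 2 := by
        rw [bil_expand hV' hz hzR, bil_expand hV' hz hzR, ← hbs, ← Finset.sum_sub_distrib]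
        refine (Finset.abs_sum_le_sum_abs _ _).trans ?_
        calc _ ≤ ∑ j, ∑ k, (C * ρ) ^ 2 * |∫ x, V' (bs k) x * z (bs j) x ∂(N i)
                - ∫ x, V' (bs k) x * z (bs j) x ∂κ| := by
              refine Finset.sum_le_sum fun j _ => ?_
              rw [← Finset.sum_sub_distrib]
              refine (Finset.abs_sum_le_sum_abs _ _).trans (Finset.sum_le_sum fun k _ => ?_)
              rw [← mul_sub, ← mul_sub, abs_mul, abs_mul, ← mul_assoc, sq]
              gcongr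
              · exact ha ▸ hCb a j
              · exact ha ▸ hCb a k
          _ ≤ (C * ρ) ^ 2 * (c / (4 * C ^ 2)) := by
              simp_rw [← Finset.mul_sum]; gcongr
          _ = _ := by field_simp
      have s5 := hcb a
      rw [ha] at s5
      rw [s1]
      have := mul_pos hc (pow_pos hρ0 2)
      linarith [neg_abs_le (∫ x, (V i a x - V i 0 x - V' a x) * z a x ∂(N i)),
        neg_abs_le (∫ x, V i 0 x * z a x ∂(N i)),
        neg_abs_le (∫ x, V' a x * z a x ∂(N i) - ∫ x, V' a x * z a x ∂κ)]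
  exact ⟨a, ha.trans (min_le_left _ _), h⟩

end Vale.Agent.P218GE
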