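import Vale.Agent.P218GE.FootD

/-! # P218, block GE: the signed distance family of a family of defining functions -/

open Set Filter Topology Metric
open scoped RealInnerProductSpace

set_option linter.unusedSectionVars false

namespace Vale.Agent.P218GE

section Trunc

lemma PB.of_compact {X F : Type} [NormedAddCommGroup X] [NormedSpace ℝ X] [NormedAddCommGroup F]
    [NormedSpace ℝ F] {n : ℕ} {ω : X → ℝ} {U K : Set X} {f : X → F} (hU : IsOpen U)
    (hω : ∀ z, 1 ≤ ω z) (hK : IsCompact K) (hUK : U ⊆ K) (hf : ∀ z ∈ K, ContDiffAt ℝ n f z) :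
    PB n ω U f := by
  refine ⟨hU, hω, fun z hz => (hf z (hUK hz)).contDiffWithinAt, fun i hi => ?_⟩
  have hc : ContinuousOn (iteratedFDeriv ℝ i f) K := fun z hz =>
    ((hf z hz).continuousAt_iteratedFDeriv (by exact_mod_cast hi)).continuousWithinAt
  obtain ⟨C, hC⟩ := hK.exists_bound_of_continuousOn hc
  exact Bd.of_bound (C := C) fun z hz => hC z (hUK hz)

/-- the bump function that is `1` on `[-b/2, b/2]` and `0` outside `(-b, b)` -/
noncomputable def bump {b : ℝ} (hb : 0 < b) : ContDiffBump (0 : ℝ) := ⟨b / 2, b, by linarith, by linarith⟩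

/-- the truncation: the identity on `[-b/2, b/2]`, and `± b` outside `(-b, b)` -/
noncomputable def trunc {b : ℝ} (hb : 0 < b) (t : ℝ) : ℝ :=
  bump hb t * t + (1 - bump hb t) * (b * Real.sign t)

variable {b : ℝ} (hb : 0 < b)

lemma trunc_small {t : ℝ} (ht : |t| ≤ b / 2) : trunc hb t = t := by
  have : bump hb t = 1 := (bump hb).one_of_mem_closedBall (by simpa [bump] using ht)
  rw [trunc, this]; ring

lemma trunc_big {t : ℝ} (ht : b ≤ |t|) : trunc hb t = b * Real.sign t := by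
  have : bump hb t = 0 := (bump hb).zero_of_le_dist (by simpa [bump] using ht)
  rw [trunc, this]; ring

lemma trunc_pos {t : ℝ} (ht : b / 2 ≤ t) : b / 2 ≤ trunc hb t ∧ trunc hb t ≤ b := by
  have h0 : 0 ≤ bump hb t := (bump hb).nonneg
  have h1 : bump hb t ≤ 1 := (bump hb).le_one
  rcases le_total t b with h | h
  · rw [trunc, Real.sign_of_pos (by linarith)]
    constructor <;> nlinarith
  · rw [trunc_big hb (h.trans (le_abs_self t)), Real.sign_of_pos (by linarith)]
    constructor <;> linarith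

lemma trunc_neg {t : ℝ} (ht : t ≤ -(b / 2)) : trunc hb t ≤ -(b / 2) ∧ -b ≤ trunc hb t := by
  have h0 : 0 ≤ bump hb t := (bump hb).nonneg
  have h1 : bump hb t ≤ 1 := (bump hb).le_one
  rcases le_total (-b) t with h | h
  · rw [trunc, Real.sign_of_neg (by linarith)]
    constructor <;> nlinarith
  · rw [trunc_big hb (by linarith [neg_abs_le t]), Real.sign_of_neg (by linarith)]
    constructor <;> linarith

lemma lt_of_abs_trunc_lt {t : ℝ} (ht : |trunc hb t| < b / 2) : |t| < b / 2 := by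
  by_contra h
  rw [abs_lt] at ht
  rcases le_abs.1 (not_lt.1 h) with h | h
  · linarith [(trunc_pos hb h).1]
  · linarith [(trunc_neg hb (t := t) (by linarith)).1]

lemma abs_trunc_le (t : ℝ) : |trunc hb t| ≤ b := by
  rcases le_total |t| (b / 2) with h | h
  · rw [trunc_small hb h]; linarith
  · rw [abs_le]
    rcases le_abs.1 h with h | h
    · constructor <;> linarith [trunc_pos hb h]
    · constructor <;> linarith [trunc_neg hb (t := t) (by linarith)]

lemma trunc_pos_iff {t : ℝ} : 0 < trunc hb t ↔ 0 < t := by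
  rcases le_total |t| (b / 2) with h | h
  · rw [trunc_small hb h]
  · rcases le_abs.1 h with h | h
    · exact ⟨fun _ => by linarith, fun _ => by linarith [trunc_pos hb h]⟩
    · have := trunc_neg hb (t := t) (by linarith)
      exact ⟨fun _ => by linarith, fun _ => by linarith⟩

lemma trunc_neg_iff {t : ℝ} : trunc hb t < 0 ↔ t < 0 := by
  rcases le_total |t| (b / 2) with h | h
  · rw [trunc_small hb h]
  · rcases le_abs.1 h with h | h
    · have := trunc_pos hb h
      exact ⟨fun _ => by linarith, fun _ => by linarith⟩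
    · have := trunc_neg hb (t := t) (by linarith)
      exact ⟨fun _ => by linarith, fun _ => by linarith⟩

lemma trunc_eq_zero {t : ℝ} : trunc hb t = 0 ↔ t = 0 := by
  have h1 := trunc_pos_iff hb (t := t)
  have h2 := trunc_neg_iff hb (t := t)
  constructor
  · intro h
    rcases lt_trichotomy t 0 with h' | h' | h'
    · linarith [h2.2 h']
    · exact h'
    · linarith [h1.2 h']
  · rintro rfl
    exact trunc_small hb (by simp; linarith)

lemma contDiff_trunc {k : ℕ∞} : ContDiff ℝ k (trunc hb) := by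
  have hβ : ContDiff ℝ k (bump hb) := (bump hb).contDiff
  refine contDiff_iff_contDiffAt.2 fun t => ?_
  rcases lt_trichotomy t 0 with h | rfl | h
  · refine ((hβ.mul contDiff_id).add (((contDiff_const (c := 1)).sub hβ).mul
      (contDiff_const (c := b * -1)))).contDiffAt.congr_of_eventuallyEq ?_
    filter_upwards [Iio_mem_nhds h] with s hs
    rw [trunc, Real.sign_of_neg hs]; rfl
  · refine contDiffAt_id.congr_of_eventuallyEq ?_
    filter_upwards [closedBall_mem_nhds (0 : ℝ) (half_pos hb)] with s hs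
    exact trunc_small hb (by simpa using hs)
  · refine ((hβ.mul contDiff_id).add (((contDiff_const (c := 1)).sub hβ).mul
      (contDiff_const (c := b * 1)))).contDiffAt.congr_of_eventuallyEq ?_
    filter_upwards [Ioi_mem_nhds h] with s hs
    rw [trunc, Real.sign_of_pos hs]; rfl

lemma pb_trunc (n : ℕ) : PB n (fun _ => 1) univ (trunc hb) := by
  have h1 : PB n (fun _ => 1) (ball (0 : ℝ) (2 * b)) (trunc hb) :=
    PB.of_compact isOpen_ball (fun _ => le_rfl) (isCompact_closedBall 0 (2 * b))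
      ball_subset_closedBall fun z _ => (contDiff_trunc hb (k := n)).contDiffAt
  have h2 : PB n (fun _ => 1) (Ioi b) (trunc hb) :=
    (PB.const isOpen_Ioi (fun _ => le_rfl) (b * 1)).congr fun t ht => by
      have : b < t := ht
      rw [trunc_big hb (this.le.trans (le_abs_self t)), Real.sign_of_pos (by linarith)]
  have h3 : PB n (fun _ => 1) (Iio (-b)) (trunc hb) :=
    (PB.const isOpen_Iio (fun _ => le_rfl) (b * -1)).congr fun t ht => by
      have : t < -b := ht
      rw [trunc_big hb (by linarith [neg_abs_le t]), Real.sign_of_neg (by linarith)]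
  refine ((h1.union h2).union h3).subset isOpen_univ fun t _ => ?_
  simp only [mem_union, mem_ball, dist_zero_right, Real.norm_eq_abs, mem_Ioi, mem_Iio, abs_lt]
  rcases lt_or_ge b t with h | h
  · exact Or.inl (Or.inr h)
  · rcases lt_or_ge t (-b) with h' | h'
    · exact Or.inr h'
    · exact Or.inl (Or.inl ⟨by linarith, by linarith⟩)

lemma PB.trunc {X : Type} [NormedAddCommGroup X] [NormedSpace ℝ X] {n : ℕ} {ω : X → ℝ}
    {U : Set X} {f : X → ℝ} (hf : PB n ω U f) : PB n ω U fun z => trunc hb (f z) :=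
  (pb_trunc hb n).comp hf (mapsTo_univ _ _) (Bd.const _)

end Trunc

variable {P E : Type} [NormedAddCommGroup P] [NormedSpace ℝ P] [FiniteDimensional ℝ P]
  [NormedAddCommGroup E] [InnerProductSpace ℝ E] [FiniteDimensional ℝ E]
variable {W : P × E → ℝ} {n : ℕ} {r δ c K : ℝ}

/-- A family `w (a, ·)`, `‖a‖ < r`, of signed distance functions with a uniform tube
`{|w| < δ}`; all derivatives of order `≤ k` in `(a, x)` grow at most polynomially. -/
structure SDFam (w : P × E → ℝ) (k : ℕ) (r δ C : ℝ) : Prop where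
  rpos : 0 < r
  δpos : 0 < δ
  cd : ContDiff ℝ k w
  pb : PB k om {z | ‖z.1‖ < r} w
  bdd : ∀ z, |w z| ≤ 2 * δ
  eik : ∀ z ∈ tube w r δ, ‖gx w z‖ = 1
  hess : ∀ z ∈ tube w r δ, ‖fderiv ℝ (gradient (sec w z.1)) z.2‖ ≤ C
  foot : ∀ z ∈ tube w r δ, w (z.1, z.2 - w z • gx w z) = 0 ∧
    fderiv ℝ w (z.1, z.2 - w z • gx w z) = fderiv ℝ w z

lemma DefFam.b_pos (h : DefFam W n r δ c K) : 0 < eps δ c K / (4 * K) := by
  have := h.eps_pos
  have := h.cpos.trans_le h.cK
  positivity

/-- the truncated signed distance -/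
noncomputable def DefFam.sd (h : DefFam W n r δ c K) (z : P × E) : ℝ :=
  if |W z| < eps δ c K then trunc h.b_pos (ht W (rad δ c K) z)
  else eps δ c K / (4 * K) * Real.sign (W z)

lemma DefFam.sign_ht (h : DefFam W n r δ c K) {z : P × E} (hz : z ∈ tube W r (eps δ c K)) :
    c / 2 * ht W (rad δ c K) z ^ 2 ≤ ht W (rad δ c K) z * W z ∧
      |W z| ≤ 2 * K * |ht W (rad δ c K) z| := by
  obtain ⟨h1, h2, h3⟩ := h.foot_spec hz
  have := (h.lev hz.1).sign_foot h1 h2
  rwa [show nor (sec W z.1) (foot W (rad δ c K) z).1 = nx W (z.1, (foot W (rad δ c K) z).1)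
    from rfl, ← h3] at this

lemma DefFam.sign_ht_eq (h : DefFam W n r δ c K) {z : P × E} (hz : z ∈ tube W r (eps δ c K)) :
    Real.sign (ht W (rad δ c K) z) = Real.sign (W z) := by
  obtain ⟨h1, h2⟩ := h.sign_ht hz
  have hc := h.cpos
  rcases lt_trichotomy (ht W (rad δ c K) z) 0 with h0 | h0 | h0
  · have : W z < 0 := by nlinarith [mul_pos hc (pow_pos (neg_pos.2 h0) 2)]
    rw [Real.sign_of_neg h0, Real.sign_of_neg this]
  · rw [h0, abs_zero, mul_zero] at h2
    rw [h0, abs_nonpos_iff.1 h2]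
  · have : 0 < W z := by nlinarith [mul_pos hc (pow_pos h0 2)]
    rw [Real.sign_of_pos h0, Real.sign_of_pos this]

lemma DefFam.sd_far (h : DefFam W n r δ c K) {z : P × E} (ha : ‖z.1‖ < r)
    (hz : eps δ c K / 2 < |W z|) : h.sd z = eps δ c K / (4 * K) * Real.sign (W z) := by
  unfold DefFam.sd
  split_ifs with h1
  · have hK := h.cpos.trans_le h.cK
    rw [trunc_big, h.sign_ht_eq ⟨ha, h1⟩]
    rw [div_le_iff₀ (by positivity)]
    linarith [(h.sign_ht ⟨ha, h1⟩).2]
  · rfl

lemma DefFam.pb_sd (h : DefFam W n r δ c K) : PB (n + 2) om {z | ‖z.1‖ < r} h.sd := by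
  have hε := h.eps_pos
  have hU : IsOpen {z : P × E | ‖z.1‖ < r} := isOpen_lt continuous_fst.norm continuous_const
  have h1 : PB (n + 2) om (tube W r (eps δ c K)) h.sd :=
    (h.pb_ht.trunc h.b_pos).congr fun z hz => if_pos hz.2
  have h2 : PB (n + 2) om ({z | ‖z.1‖ < r} ∩ W ⁻¹' Ioi (eps δ c K / 2)) h.sd :=
    (PB.const (h.cont.isOpen_inter_preimage hU isOpen_Ioi) one_le_om
      (eps δ c K / (4 * K) * 1)).congr fun z hz => by
      have : eps δ c K / 2 < W z := hz.2
      rw [h.sd_far hz.1 (this.trans_le (le_abs_self _)), Real.sign_of_pos (by linarith)]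
  have h3 : PB (n + 2) om ({z | ‖z.1‖ < r} ∩ W ⁻¹' Iio (-(eps δ c K / 2))) h.sd :=
    (PB.const (h.cont.isOpen_inter_preimage hU isOpen_Iio) one_le_om
      (eps δ c K / (4 * K) * -1)).congr fun z hz => by
      have : W z < -(eps δ c K / 2) := hz.2
      rw [h.sd_far hz.1 (by linarith [neg_abs_le (W z)]), Real.sign_of_neg (by linarith)]
  refine ((h1.union h2).union h3).subset hU fun z hz => ?_
  rcases lt_or_ge (eps δ c K / 2) (W z) with h4 | h4
  · exact Or.inl (Or.inr ⟨hz, h4⟩)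
  · rcases lt_or_ge (W z) (-(eps δ c K / 2)) with h' | h'
    · exact Or.inr ⟨hz, h'⟩
    · exact Or.inl (Or.inl ⟨hz, abs_lt.2 ⟨by linarith, by linarith⟩⟩)

lemma DefFam.abs_sd_le (h : DefFam W n r δ c K) (z : P × E) : |h.sd z| ≤ eps δ c K / (4 * K) := by
  unfold DefFam.sd
  split_ifs with h1
  · exact abs_trunc_le _ _
  · rw [abs_mul, abs_of_pos h.b_pos]
    refine mul_le_of_le_one_right h.b_pos.le ?_
    rcases Real.sign_apply_eq (W z) with h | h | h <;> rw [h] <;> simp

lemma DefFam.sign_sd (h : DefFam W n r δ c K) {z : P × E} (ha : ‖z.1‖ < r) :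
    Real.sign (h.sd z) = Real.sign (W z) := by
  have hb := h.b_pos
  unfold DefFam.sd
  split_ifs with h1
  · rw [← h.sign_ht_eq ⟨ha, h1⟩]
    rcases lt_trichotomy (ht W (rad δ c K) z) 0 with h0 | h0 | h0
    · rw [Real.sign_of_neg h0, Real.sign_of_neg ((trunc_neg_iff hb).2 h0)]
    · rw [h0, (trunc_eq_zero hb).2 rfl]
    · rw [Real.sign_of_pos h0, Real.sign_of_pos ((trunc_pos_iff hb).2 h0)]
  · rcases lt_trichotomy (W z) 0 with h0 | h0 | h0
    · rw [Real.sign_of_neg h0, Real.sign_of_neg (by linarith)]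
    · rw [h0, Real.sign_zero, mul_zero, Real.sign_zero]
    · rw [Real.sign_of_pos h0, Real.sign_of_pos (by linarith)]

lemma DefFam.tube_sd (h : DefFam W n r δ c K) {z : P × E}
    (hz : z ∈ tube h.sd r (eps δ c K / (4 * K) / 2)) :
    z ∈ tube W r (eps δ c K) ∧ h.sd =ᶠ[𝓝 z] ht W (rad δ c K) := by
  have hb := h.b_pos
  have hε := h.eps_pos
  have key : ∀ y ∈ tube h.sd r (eps δ c K / (4 * K) / 2),
      y ∈ tube W r (eps δ c K) ∧ h.sd y = ht W (rad δ c K) y := fun y hy => by
    have h2 := hy.2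
    unfold DefFam.sd at h2 ⊢
    split_ifs at h2 ⊢ with h1
    · exact ⟨⟨hy.1, h1⟩, trunc_small hb (lt_of_abs_trunc_lt hb h2).le⟩
    · exfalso
      have h3 : W y ≠ 0 := fun h0 => h1 (by rw [h0, abs_zero]; exact hε)
      rw [abs_mul, abs_of_pos hb] at h2
      rcases Real.sign_apply_eq_of_ne_zero _ h3 with h4 | h4 <;> rw [h4] at h2 <;> simp at h2 <;>
        linarith
  refine ⟨(key z hz).1, ?_⟩
  filter_upwards [(isOpen_tube h.pb_sd.cont _).mem_nhds hz] with y hy using (key y hy).2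

lemma gx_congr {f g : P × E → ℝ} {z : P × E} (h : f =ᶠ[𝓝 z] g) :
    gradient (sec f z.1) =ᶠ[𝓝 z.2] gradient (sec g z.1) := by
  have h1 : sec f z.1 =ᶠ[𝓝 z.2] sec g z.1 :=
    (continuous_const.prodMk continuous_id).continuousAt.tendsto.eventually h
  filter_upwards [h1.fderiv (𝕜 := ℝ)] with x hx
  rw [gradient, gradient, hx]

/-- a smooth map of the parameter space into the ball which is the identity on the half ball -/
lemma exists_retract {r : ℝ} (hr : 0 < r) : ∃ σ : P → P, ContDiff ℝ (⊤ : ℕ∞) σ ∧ (∀ a, ‖σ a‖ < r) ∧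
    ∀ a, ‖a‖ < r / 2 → σ a = a := by
  let β : ContDiffBump (0 : P) := ⟨r / 2, 3 * r / 4, by linarith, by linarith⟩
  refine ⟨fun a => β a • a, β.contDiff.smul contDiff_id, fun a => ?_, fun a ha => ?_⟩
  · change ‖β a • a‖ < r
    rcases lt_or_ge ‖a‖ (3 * r / 4) with h | h
    · rw [norm_smul, Real.norm_eq_abs, abs_of_nonneg β.nonneg]
      nlinarith [β.nonneg (x := a), β.le_one (x := a), norm_nonneg a]
    · rw [β.zero_of_le_dist (by simpa using h), zero_smul, norm_zero]; exact hr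
  · change β a • a = a
    rw [β.one_of_mem_closedBall (by simpa using ha.le), one_smul]

/-- **The signed distance family.** It has the same zero sets and signs as `W`; on the zero set its
derivative in `(a, x)` is the normalised derivative of `W`. -/
theorem DefFam.exists_sd (h : DefFam W n r δ c K) (hr : 0 < r) :
    ∃ (w : P × E → ℝ) (δ' : ℝ), SDFam w (n + 2) (r / 2) δ' (4 * K / c) ∧
      (∀ z : P × E, ‖z.1‖ < r / 2 → Real.sign (w z) = Real.sign (W z)) ∧
      (∀ z : P × E, ‖z.1‖ < r / 2 → (w z = 0 ↔ W z = 0)) ∧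
      ∀ z : P × E, ‖z.1‖ < r / 2 → W z = 0 → fderiv ℝ w z = ‖gx W z‖⁻¹ • fderiv ℝ W z := by
  obtain ⟨σ, hσ, hσr, hσe⟩ := exists_retract (P := P) hr
  have hb := h.b_pos
  have hU : IsOpen {z : P × E | ‖z.1‖ < r / 2} := isOpen_lt continuous_fst.norm continuous_const
  set w : P × E → ℝ := fun z => h.sd (σ z.1, z.2) with hw
  have he : ∀ z : P × E, ‖z.1‖ < r / 2 → w z = h.sd z := fun z hz => by rw [hw]; simp [hσe _ hz]
  have he' : ∀ z : P × E, ‖z.1‖ < r / 2 → w =ᶠ[𝓝 z] h.sd := fun z hz =>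
    eventually_of_mem (hU.mem_nhds hz) he
  have ht1 : ∀ z ∈ tube w (r / 2) (eps δ c K / (4 * K) / 2),
      z ∈ tube W r (eps δ c K) ∧ w =ᶠ[𝓝 z] ht W (rad δ c K) := fun z hz => by
    have := h.tube_sd (z := z) ⟨by linarith [hz.1], by rw [← he z hz.1]; exact hz.2⟩
    exact ⟨this.1, (he' z hz.1).trans this.2⟩
  have hsign : ∀ z : P × E, ‖z.1‖ < r / 2 → Real.sign (w z) = Real.sign (W z) := fun z hz => by
    rw [he z hz, h.sign_sd (by linarith)]
  have hzero : ∀ z : P × E, ‖z.1‖ < r / 2 → (w z = 0 ↔ W z = 0) := fun z hz => by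
    rw [← Real.sign_eq_zero_iff, hsign z hz, Real.sign_eq_zero_iff]
  have hgx : ∀ z ∈ tube w (r / 2) (eps δ c K / (4 * K) / 2),
      gx w z = nx W (fp W (rad δ c K) z) := fun z hz => by
    rw [← h.gx_ht (ht1 z hz).1]
    exact (gx_congr (ht1 z hz).2).eq_of_nhds
  have hfd : ∀ z ∈ tube w (r / 2) (eps δ c K / (4 * K) / 2), fderiv ℝ w z
      = ‖gx W (fp W (rad δ c K) z)‖⁻¹ • fderiv ℝ W (fp W (rad δ c K) z) := fun z hz => by
    rw [(ht1 z hz).2.fderiv_eq, h.fderiv_ht (ht1 z hz).1]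
  have hfix : ∀ z : P × E, ‖z.1‖ < r / 2 → W z = 0 → fp W (rad δ c K) z = z := fun z hz h0 => by
    have h1 : z ∈ tube W r (eps δ c K) := ⟨by linarith, by rw [h0, abs_zero]; exact h.eps_pos⟩
    rw [fp, h.foot_eq h1 (p := z.2) (t := 0) h0
      (by rw [abs_zero]; exact (h.lev h1.1).rad_pos) (by simp)]
  have hfd0 : ∀ z : P × E, ‖z.1‖ < r / 2 → W z = 0 →
      fderiv ℝ w z = ‖gx W z‖⁻¹ • fderiv ℝ W z := fun z hz h0 => by
    rw [hfd z ⟨hz, by rw [(hzero z hz).2 h0, abs_zero]; positivity⟩, hfix z hz h0]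
  refine ⟨w, eps δ c K / (4 * K) / 2, ⟨half_pos hr, half_pos hb, ?_, ?_, fun z => ?_,
    fun z hz => ?_, fun z hz => ?_, fun z hz => ?_⟩, hsign, hzero, hfd0⟩
  · refine contDiff_iff_contDiffAt.2 fun z => ?_
    refine ContDiffAt.comp (g := h.sd) (f := fun z : P × E => (σ z.1, z.2)) z
      (h.pb_sd.cdAt (hσr _)) ?_
    have hσ' : ContDiff ℝ ((n + 2 : ℕ) : ℕ∞) σ := hσ.of_le (WithTop.coe_le_coe.2 le_top)
    exact ((hσ'.comp contDiff_fst).prodMk contDiff_snd).contDiffAt
  · exact (h.pb_sd.subset hU fun z (hz : ‖z.1‖ < r / 2) =>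
      show ‖z.1‖ < r by linarith).congr fun z hz => he z hz
  · linarith [h.abs_sd_le (σ z.1, z.2)]
  · rw [hgx z hz]; exact h.norm_nx (h.maps_fp (ht1 z hz).1)
  · rw [(gx_congr (ht1 z hz).2).fderiv_eq]
    exact h.norm_hess_ht (ht1 z hz).1
  · obtain ⟨h1, _, h3⟩ := h.foot_spec (ht1 z hz).1
    have e : (z.1, z.2 - w z • gx w z) = fp W (rad δ c K) z := by
      rw [hgx z hz, (ht1 z hz).2.eq_of_nhds]
      exact Prod.ext rfl (sub_eq_of_eq_add h3)
    rw [e, hfd z hz]
    exact ⟨(hzero (fp W (rad δ c K) z) hz.1).2 h1, hfd0 (fp W (rad δ c K) z) hz.1 h1⟩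

end Vale.Agent.P218GE
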