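import Vale.Agent.P218GE.Sm

/-! # P218, block GE: the displacement of the conical ends -/

open Set Filter Topology Metric Asymptotics Complex
open scoped RealInnerProductSpace Real

set_option linter.unusedSectionVars false

namespace Vale.Agent.P218GE

open Vale.Agent.P218GA
open Vale.Agent.P218VA (E2)

/-- tubular coordinates around the cone over a link -/
structure LC (L : Link) (τ : ℝ) (z : E3 → ℂ) (t : E3 → ℝ) : Prop where
  hom : ∀ (c : ℝ) (x : E3), 0 < c → z (c • x) = z x ∧ t (c • x) = t x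
  val : ∀ a θ b : ℝ, 0 < a → |b| < τ → z (xiCone L a θ b) = exp (θ * I) ∧
    t (xiCone L a θ b) = b ∧ ContDiffAt ℝ 2 z (xiCone L a θ b) ∧ ContDiffAt ℝ 2 t (xiCone L a θ b)
  inv : ∀ x : E3, x ≠ 0 → |t x| < τ → ∃ θ, x = xiCone L (‖x‖ ^ 2 / 4) θ (t x)

lemma xi_scale (γ n : E3) (a t : ℝ) : xi γ n a t = (2 * √a) • xi γ n (1 / 4) t := by
  have : √(1 / 4 : ℝ) = 1 / 2 := by
    rw [show (1 / 4 : ℝ) = (1 / 2) ^ 2 by norm_num, Real.sqrt_sq (by norm_num)]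
  rw [xi, xi, smul_smul, this]
  congr 1
  ring

lemma dir_xiCone (L : Link) {a : ℝ} (ha : 0 < a) (θ b : ℝ) :
    dir (xiCone L a θ b) = xiCone L (1 / 4) θ b := by
  have h0 : 0 < 2 * √a := by positivity
  rw [dir, norm_xiCone, xiCone, xi_scale, smul_smul, inv_mul_cancel₀ h0.ne', one_smul, xiCone]

lemma dist_xiCone (L : Link) {a : ℝ} (ha : 0 < a) (θ b : ℝ) :
    dist (dir (xiCone L a θ b)) (L.γ θ) ≤ 2 * |b| :=
  dir_xi (L.γ_unit θ) (L.n_unit θ) (L.orth θ) ha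

/-- a compact neighbourhood of the link in the sphere -/
def nbL (L : Link) (σ : ℝ) : Set E3 := {x | ∃ θ b, |b| ≤ σ ∧ x = xiCone L (1 / 4) θ b}

lemma isCompact_nbL (L : Link) (σ : ℝ) : IsCompact (nbL L σ) := by
  have h1 : IsCompact (range fun θ => (L.γ θ, L.n θ)) :=
    Function.Periodic.compact_of_continuous (c := 2 * π)
      (fun θ => Prod.ext (L.γ_periodic θ) (L.n_periodic θ)) Real.two_pi_pos.ne'
      (L.γ_smooth.continuous.prodMk L.n_smooth.continuous)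
  have h2 : Continuous fun y : (E3 × E3) × ℝ => xi y.1.1 y.1.2 (1 / 4) y.2 := by
    have h3 : Continuous fun y : (E3 × E3) × ℝ => 2 * √(1 / 4 : ℝ) / (1 + y.2 ^ 2) :=
      continuous_const.div (by fun_prop) fun y => by positivity
    exact h3.smul (by fun_prop)
  convert (h1.prod (isCompact_Icc (a := -σ) (b := σ))).image h2 using 1
  ext x
  constructor
  · rintro ⟨θ, b, hb, rfl⟩
    exact ⟨((L.γ θ, L.n θ), b), ⟨⟨θ, rfl⟩, abs_le.1 hb⟩, rfl⟩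
  · rintro ⟨⟨_, b⟩, ⟨⟨θ, rfl⟩, hb⟩, rfl⟩
    exact ⟨θ, b, abs_le.2 hb, rfl⟩

/-- one for `|s| ≤ σ`, zero for `|s| ≥ 2 σ` -/
noncomputable def bt (σ s : ℝ) : ℝ := Real.smoothTransition (2 - s ^ 2 / σ ^ 2)

lemma contDiff_bt (σ : ℝ) : ContDiff ℝ 2 (bt σ) :=
  Real.smoothTransition.contDiff.comp (contDiff_const.sub ((contDiff_id.pow 2).div_const _))

lemma bt_one {σ s : ℝ} (hσ : 0 < σ) (h : |s| ≤ σ) : bt σ s = 1 :=
  Real.smoothTransition.one_of_one_le (by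
    have : s ^ 2 / σ ^ 2 ≤ 1 := by
      rw [div_le_one (by positivity), ← sq_abs s]; gcongr
    linarith)

lemma bt_zero {σ s : ℝ} (hσ : 0 < σ) (h : 2 * σ ≤ |s|) : bt σ s = 0 :=
  Real.smoothTransition.zero_of_nonpos (by
    rw [sub_nonpos, le_div_iff₀ (by positivity), ← sq_abs s]; nlinarith)

section LC

variable {L : Link} {τ σ : ℝ} {z : E3 → ℂ} {t : E3 → ℝ}

lemma LC.bt_eq (h : LC L τ z t) (hσ : 0 < σ) (hτ : 2 * σ < τ) {x : E3} (h0 : x ≠ 0)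
    (hx : dir x ∉ nbL L (2 * σ)) : bt σ (t x) = 0 := by
  refine bt_zero hσ (le_of_not_gt fun h1 => hx ?_)
  obtain ⟨θ, h2⟩ := h.inv x h0 (h1.trans hτ)
  exact ⟨θ, t x, h1.le, by
    rw [← dir_xiCone L (a := ‖x‖ ^ 2 / 4) (by have := norm_pos_iff.2 h0; positivity), ← h2]⟩

lemma LC.at_dir (h : LC L τ z t) (hτ : σ < τ) {x : E3} (h0 : x ≠ 0) (hx : dir x ∈ nbL L σ) :
    ‖z x‖ = 1 ∧ ContDiffAt ℝ 2 z x ∧ ContDiffAt ℝ 2 t x := by
  obtain ⟨θ, b, hb, e⟩ := hx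
  have h1 := norm_pos_iff.2 h0
  have h2 : x = xiCone L (‖x‖ ^ 2 / 4) θ b := by
    rw [xiCone, xi_scale, ← xiCone, ← e, show ‖x‖ ^ 2 / 4 = (‖x‖ / 2) ^ 2 by ring,
      Real.sqrt_sq (by positivity), dir, smul_smul, mul_div_cancel₀ _ two_ne_zero,
      mul_inv_cancel₀ h1.ne', one_smul]
  have h3 := h.val (‖x‖ ^ 2 / 4) θ b (by positivity) (hb.trans_lt hτ)
  rw [← h2] at h3
  exact ⟨by rw [h3.1, norm_exp_ofReal_mul_I], h3.2.2⟩

lemma nbL_ne {x : E3} (hx : x ∈ nbL L σ) : x ≠ 0 ∧ dir x = x := by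
  obtain ⟨θ, b, -, rfl⟩ := hx
  refine ⟨norm_pos_iff.1 ?_, dir_xiCone L (by norm_num) θ b⟩
  rw [norm_xiCone]; positivity

end LC

variable {S : Set E3} {w : E3 → ℝ} {δ C : ℝ} {ι κ M : Type} [TopologicalSpace M]
  [ChartedSpace E2 M] {Q P : Type} [TopologicalSpace Q] [NormedAddCommGroup P] [NormedSpace ℝ P]
  {m : Model S w δ C ι κ M} {pa : Par Q P} {R : RealFam m pa} {ρ ε σ τ : ℝ} {j : κ} {z : E3 → ℂ}
  {t : E3 → ℝ}

/-- the displacement of a conical end -/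
noncomputable def RealFam.kd (R : RealFam m pa) (j : κ) (ρ σ : ℝ) (z : E3 → ℂ) (t : E3 → ℝ)
    (y : Q × E3) : E3 :=
  (rad0 ρ y.2 * bt σ (t y.2)) • ((R.t j (y.1, lc z y.2) - m.t j (lc z y.2)) • ‖y.2‖) •
    gd (((m.L j).γ (arg (z y.2)), (m.L j).n (arg (z y.2))), R.t j (y.1, lc z y.2), m.t j (lc z y.2))

/-- admissible data for a conical end -/
structure RealFam.AdmK (R : RealFam m pa) (j : κ) (ρ σ τ : ℝ) (z : E3 → ℂ) (t : E3 → ℝ) :
    Prop where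
  co : LC (m.L j) τ z t
  rpos : 0 < ρ
  pos : 0 < σ
  lt : 2 * σ < τ
  lev : R.s < ρ ^ 2 / 4
  jb : ∀ p, ρ ^ 2 / 4 ≤ p.1 → JB (m.t j) p p.1 σ

lemma RealFam.AdmK.ev_zero (h : R.AdmK j ρ σ τ z t) {x : E3}
    (hx : ¬(ρ ≤ ‖x‖ ∧ dir x ∈ nbL (m.L j) (2 * σ))) :
    ∀ᶠ y in 𝓝 x, rad0 ρ y * bt σ (t y) = 0 := by
  rcases lt_or_ge ‖x‖ ρ with h1 | h1
  · filter_upwards [ev_rad0 h.rpos h1] with y hy
    rw [hy, zero_mul]
  have h0 : x ≠ 0 := norm_pos_iff.1 (h.rpos.trans_le h1)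
  filter_upwards [(cd_dir h0).continuousAt.eventually ((isCompact_nbL (m.L j)
    (2 * σ)).isClosed.isOpen_compl.mem_nhds fun h2 => hx ⟨h1, h2⟩), eventually_ne_nhds h0]
    with y e1 e2
  rw [h.co.bt_eq h.pos h.lt e2 e1, mul_zero]

lemma RealFam.AdmK.sm_kd (h : R.AdmK j ρ σ τ z t) : Sm pa.l (R.kd j ρ σ z t) := by
  have hρ := h.rpos
  obtain ⟨e, he, h1⟩ := exists_rate (l := pa.l) (p := fun q ε => ∀ p, R.s < p.1 →
      JB (fun y => R.t j (q, y) - m.t j y) p p.1 ε)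
    (fun q a b h hab p hp => ⟨(h p hp).cd, (h p hp).b0.trans hab, (h p hp).bw.trans hab,
      (h p hp).bt.trans hab, (h p hp).bww.trans hab, (h p hp).bwt.trans hab,
      (h p hp).btt.trans hab⟩)
    (fun q a h p hp => ⟨(h _ (lt_add_one a) p hp).cd,
      le_of_forall_gt_imp_ge_of_dense fun b hb => (h b hb p hp).b0,
      le_of_forall_gt_imp_ge_of_dense fun b hb => (h b hb p hp).bw,
      le_of_forall_gt_imp_ge_of_dense fun b hb => (h b hb p hp).bt,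
      le_of_forall_gt_imp_ge_of_dense fun b hb => (h b hb p hp).bww,
      le_of_forall_gt_imp_ge_of_dense fun b hb => (h b hb p hp).bwt,
      le_of_forall_gt_imp_ge_of_dense fun b hb => (h b hb p hp).btt⟩)
    fun ε hε => (R.t_bd ε hε).mono fun q hq => hq j
  refine ⟨e, he, S2.cut (A := {y | ρ ≤ ‖y.2‖ ∧ dir y.2 ∈ nbL (m.L j) (2 * σ)}) ?_
    (Eventually.of_forall fun y hy => ?_)⟩
  swap
  · filter_upwards [h.ev_zero hy] with x hx
    rw [sec, RealFam.kd, hx, zero_smul]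
  set 𝓖 := (pa.l ×ˢ ⊤) ⊓ 𝓟 {y : Q × E3 | ρ ≤ ‖y.2‖ ∧ dir y.2 ∈ nbL (m.L j) (2 * σ)} with hG
  have hB : ∀ᶠ y in 𝓖, ρ ≤ ‖y.2‖ ∧ dir y.2 ∈ nbL (m.L j) (2 * σ) :=
    mem_inf_of_right (mem_principal_self _)
  have hq : Tendsto Prod.fst 𝓖 pa.l := tendsto_fst.mono_left inf_le_left
  have hr : ∀ᶠ y in 𝓖, ρ ≤ ‖y.2‖ := hB.mono fun _ hy => hy.1
  have h0 : ∀ᶠ y in 𝓖, y.2 ≠ 0 := hr.mono fun _ hy => norm_pos_iff.1 (hρ.trans_le hy)
  have hK := fun y (hy : y ∈ nbL (m.L j) (2 * σ)) =>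
    h.co.at_dir h.lt (nbL_ne hy).1 ((nbL_ne hy).2.symm ▸ hy)
  have hd := h0.and (hB.mono fun _ hy => hy.2)
  have hz : SB 𝓖 (fun _ => 1) (fun y => ‖y.2‖⁻¹) fun y => z y.2 :=
    SB.hom (m := fun _ => 1) (fun c x hc => by rw [(h.co.hom c x hc).1, one_smul])
      (isCompact_nbL _ _) (fun y hy => (hK y hy).2.1) hd
  have ht : SB 𝓖 (fun _ => 1) (fun y => ‖y.2‖⁻¹) fun y => t y.2 :=
    SB.hom (m := fun _ => 1) (fun c x hc => by rw [(h.co.hom c x hc).2, one_smul])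
      (isCompact_nbL _ _) (fun y hy => (hK y hy).2.2) hd
  have hz1 : ∀ᶠ y in 𝓖, ‖z y.2‖ = 1 := hd.mono fun y hy => (h.co.at_dir h.lt hy.1 hy.2).1
  have hlift : ∀ {g : Q × ℝ × ℝ → ℝ} {μ : Q × E3 → ℝ},
      (∀ q b θ, g (q, b, θ + 2 * π) = g (q, b, θ)) →
      (∀ᶠ y in 𝓖, JB (sec g y.1) (lc z y.2) (‖y.2‖ ^ 2 / 4) (μ y)) →
      SB 𝓖 μ (fun y => ‖y.2‖⁻¹) fun y => g (y.1, lc z y.2) := fun hp hJ =>
    SB.lift (l := fun y => ‖y.2‖ ^ 2 / 4) hp hz one_pos (hz1.mono fun _ hy => hy.ge)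
      (hr.mono fun y hy => by have := hρ.trans_le hy; positivity)
      (((isBigO_refl _ _).const_mul_left 4).congr' (h0.mono fun y hy => by
        have := norm_ne_zero_iff.2 hy
        simp only
        field_simp) EventuallyEq.rfl)
      (((isBigO_refl _ _).const_mul_left 4).congr_left fun y => by
        rw [inv_div, div_eq_mul_inv, sq, mul_inv]) hJ
  have hlev : ∀ᶠ y in 𝓖, ρ ^ 2 / 4 ≤ ‖y.2‖ ^ 2 / 4 := hr.mono fun y hy => by gcongr
  have hη := hlift (g := fun y => R.t j y - m.t j y.2) (μ := fun y => e y.1)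
    (fun q b θ => by rw [R.t_per, m.t_periodic]) (by
      filter_upwards [hq.eventually h1, hlev] with y e1 e2 using e1 _ (h.lev.trans_le e2))
  have hS := (hlift (g := fun y => m.t j y.2) (μ := fun _ => σ) (fun _ => m.t_periodic j)
    (hlev.mono fun y hy => h.jb _ hy)).monoW (isBigO_const_const _ (one_ne_zero (α := ℝ)) _)
  have hT : SB 𝓖 (fun _ => 1) (fun y => ‖y.2‖⁻¹) fun y => R.t j (y.1, lc z y.2) :=
    ((hη.monoW ((he.comp hq).isBigO_one ℝ)).add hS).congr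
      (Eventually.of_forall fun y => Eventually.of_forall fun x => by simp [sec])
  have hγ : ∀ {g : ℝ → E3}, ContDiff ℝ 2 g → Function.Periodic g (2 * π) →
      SB 𝓖 (fun _ => 1) (fun y => ‖y.2‖⁻¹) fun y => g (arg (z y.2)) := fun {g} hg hp =>
    hz.inner.map_compact (k := fun ζ => g (arg ζ)) (isCompact_sphere 0 1)
      (fun y hy => cd_per_arg hg hp
      (ne_zero_of_mem_sphere one_ne_zero ⟨y, hy⟩)) (hz1.mono fun _ => mem_sphere_zero_iff_norm.2)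
  refine SB.unit hρ hr (((sb_rad0 hρ hr).smul1 (ht.map_smooth (contDiff_bt σ))).smul1
    (((hη.smul (sb_norm h0)).smul ((((hγ ((m.L j).γ_smooth.of_le two_le_top)
      (m.L j).γ_periodic).prodMk (hγ ((m.L j).n_smooth.of_le two_le_top)
      (m.L j).n_periodic)).prodMk (hT.prodMk hS)).map_smooth contDiff_gd)).monoW ?_))
  exact (isBigO_refl _ _).congr_left fun _ => (mul_one _).symm

lemma RealFam.AdmK.d2_kd (h : R.AdmK j ρ σ τ z t) (x₀ : E3) :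
    D2 pa (R.kd j ρ σ z t) (fun _ => 0) x₀ := by
  have hρ := h.rpos
  by_cases hx : ρ ≤ ‖x₀‖ ∧ dir x₀ ∈ nbL (m.L j) (2 * σ)
  swap
  · refine (D2.const 0).congr ?_ EventuallyEq.rfl
    filter_upwards [tendsto_snd.eventually (h.ev_zero hx)] with y hy
    rw [RealFam.kd, hy, zero_smul]
  have h0 : x₀ ≠ 0 := norm_pos_iff.1 (hρ.trans_le hx.1)
  obtain ⟨h1, hz, ht⟩ := h.co.at_dir h.lt h0 hx.2
  have hz0 : z x₀ ≠ 0 := norm_pos_iff.1 (by rw [h1]; exact one_pos)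
  have hl : R.s < (lc z x₀).1 := h.lev.trans_le (by
    change _ ≤ ‖x₀‖ ^ 2 / 4
    gcongr
    exact hx.1)
  have hS := D2.lift (pa := pa) (h := fun y => m.t j y.2) (fun _ => m.t_periodic j)
    (m.t_periodic j) hz hz0 (D2.of_cd ((m.t_smooth j _ (R.w0_le.trans_lt hl)).of_le two_le_top))
  have hT := D2.lift (R.t_per j) (m.t_periodic j) hz hz0 (R.t_D j _ hl)
  have hγ : ∀ {g : ℝ → E3}, ContDiff ℝ 2 g → Function.Periodic g (2 * π) →
      D2 pa (fun y => g (arg (z y.2))) (fun x => g (arg (z x))) x₀ := fun hg hp =>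
    D2.of_cd ((cd_per_arg hg hp hz0).comp x₀ hz)
  exact ((D2.of_cd ((contDiff_rad0 ρ).contDiffAt.mul ((contDiff_bt σ).contDiffAt.comp x₀ ht))).smul
    (((hT.sub hS).smul (D2.of_cd (contDiffAt_norm ℝ h0))).smul
      ((((hγ ((m.L j).γ_smooth.of_le two_le_top) (m.L j).γ_periodic).prodMk
        (hγ ((m.L j).n_smooth.of_le two_le_top) (m.L j).n_periodic)).prodMk
        (hT.prodMk hS)).map_cd contDiff_gd.contDiffAt))).congr EventuallyEq.rfl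
    (Eventually.of_forall fun x => by simp)

lemma RealFam.AdmK.kd_zero (h : R.AdmK j ρ σ τ z t) {q : Q} {x : E3} (h0 : x ≠ 0)
    (hx : ∀ θ, 4 * σ < dist (dir x) ((m.L j).γ θ)) : R.kd j ρ σ z t (q, x) = 0 := by
  rw [RealFam.kd, h.co.bt_eq h.pos h.lt h0, mul_zero, zero_smul]
  rintro ⟨θ, b, hb, e⟩
  have h1 := dist_xiCone (m.L j) (a := 1 / 4) (by norm_num) θ b
  rw [dir_xiCone _ (by norm_num), ← e] at h1
  linarith [hx θ]

lemma RealFam.AdmK.kd_val (h : R.AdmK j ρ σ τ z t) (q : Q) {p : ℝ × ℝ} (hp : ρ ^ 2 ≤ p.1) :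
    xiCone (m.L j) p.1 p.2 (m.t j p) + R.kd j ρ σ z t (q, xiCone (m.L j) p.1 p.2 (m.t j p))
      = xiCone (m.L j) p.1 p.2 (R.t j (q, p)) := by
  have hρ := h.rpos
  have hp0 : 0 < p.1 := lt_of_lt_of_le (by positivity) hp
  have h1 := norm_xiCone (m.L j) p.1 p.2 (m.t j p)
  have h2 := (h.jb p (by nlinarith)).b0
  obtain ⟨h3, h4, -⟩ := h.co.val p.1 p.2 (m.t j p) hp0 (by linarith [h.lt, h.pos])
  have h5 : z (xiCone (m.L j) p.1 p.2 (m.t j p)) = (1 : ℝ) * exp (p.2 * I) := by simpa using h3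
  have h7 := lc_eq (g := fun y => R.t j (q, y)) hp0.le (R.t_per j q p.1) h1 one_pos h5
  have h8 := lc_eq (g := m.t j) hp0.le (m.t_periodic j p.1) h1 one_pos h5
  have h9 : rad0 ρ (xiCone (m.L j) p.1 p.2 (m.t j p)) = 1 :=
    rad0_one hρ (by rw [h1]; linarith [Real.le_sqrt_of_sq_le hp])
  simp only [RealFam.kd, h9, h4, bt_one h.pos h2, mul_one, one_smul, h7, h8, h1, h5,
    per_arg_exp (m.L j).γ_periodic one_pos, per_arg_exp (m.L j).n_periodic one_pos]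
  rw [xiCone, xiCone, xi_sub _ _ p.1 (R.t j (q, p)) (m.t j p), smul_eq_mul, mul_comm]

end Vale.Agent.P218GE
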