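import Vale.Agent.P218GE.Cone
import Vale.Agent.P218GA.ModelB
import Vale.Agent.P218MP.Polar

/-! # P218, block GE: from the model to space; the displacement of the core -/

open Set Filter Topology Metric Asymptotics
open scoped RealInnerProductSpace Real

set_option linter.unusedSectionVars false

namespace Vale.Agent.P218GE

open Vale.Agent.P218GA hiding IsTube
open Vale.Agent.P218VA (E2)
open Vale.Agent.P218DY (IsTube)

variable {S : Set E3} {w : E3 → ℝ} {δ C : ℝ} {ι κ M : Type} [TopologicalSpace M]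
  [ChartedSpace E2 M] {Q P : Type} [TopologicalSpace Q] [NormedAddCommGroup P] [NormedSpace ℝ P]
  {m : Model S w δ C ι κ M} {pa : Par Q P}

lemma tubeDY (m : Model S w δ C ι κ M) : IsTube w δ (max C (6 * C)) := by
  refine ⟨m.shr.pos, m.w_smooth.of_le two_le_top, m.shr.norm_grad,
    fun x hx => (m.shr.hess_le x hx).trans (le_max_left _ _), fun x hx => ?_⟩
  have h1 := m.tube.abs_lap_le (x := x) (by rw [hx, abs_zero]; exact m.shr.pos)
  rw [m.shr.shrinker x ((m.shr.mem_iff x).2 hx), abs_div, finrank_euclideanSpace_fin] at h1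
  refine le_trans ?_ (le_max_right _ _)
  rw [abs_two, Nat.cast_ofNat] at h1
  linarith

lemma far_cases (m : Model S w δ C ι κ M) {y : M} (hy : y ∈ m.reg) (h : 4 * m.w0 < ‖m.F y‖ ^ 2) :
    ∃ j p, m.w0 < p.1 ∧ y = pt m j p ∧ ‖m.F y‖ ^ 2 = 4 * p.1 := by
  obtain ⟨j, hj⟩ : ∃ j, y ∈ (m.φ j).source := by
    by_contra h1
    exact absurd (m.core y fun j hj => h1 ⟨j, hj⟩) (not_le.2 h)
  have h1 : m.φ j y ≠ 0 := fun h0 => hy j (by rw [← h0, (m.φ j).left_inv hj])
  have h2 := (m.φ j).map_source hj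
  rw [m.target, ← P218MP.pol_lp h1, P218MP.pol_mem_ball] at h2
  have h3 : y = pt m j (P218MP.lp (m.φ j y)) := by
    rw [pt, P218MP.pol_lp h1, (m.φ j).left_inv hj]
  exact ⟨j, _, h2, h3, (congrArg (fun y => ‖m.F y‖ ^ 2) h3).trans (m.norm_F_pol j h2)⟩

lemma LocD.of_polar {X : Q → M → E3} {j : ι ⊕ κ} {p : ℝ × ℝ} (hp : m.w0 < p.1)
    (h : D2 pa (fun z => X z.1 (pt m j z.2)) (fun y => m.F (pt m j y)) p) :
    LocD m pa X (pt m j p) := by
  refine ⟨pt m j, p, rfl, (continuous_fst.continuousAt.eventually (eventually_gt_nhds hp)).mono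
    fun y hy => m.pol_mem_reg j hy, ?_, h⟩
  obtain ⟨h1, h2⟩ := m.smooth _ (m.mem j) _ (m.pol_mem j hp) (m.pol_mem_reg j hp)
  have h3 := (h1.differentiableAt (by simp)).hasFDerivAt.comp p (P218MP.hasFDerivAt_pol p)
  rw [show fderiv ℝ (fun y' => m.F (pt m j y')) p = _ from h3.fderiv]
  exact h2.comp (P218MP.dpolE (P218MP.pol_ne_zero p)).injective

lemma LocD.of_chart [Finite ι] [Finite κ] [T2Space M] {X : Q → M → E3}
    {e : OpenPartialHomeomorph M E2} (he : e ∈ atlas E2 M) {x : M} (hx : x ∈ m.reg)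
    (hxe : x ∈ e.source)
    (h : D2 pa (fun z => X z.1 (e.symm z.2)) (fun y => m.F (e.symm y)) (e x)) : LocD m pa X x := by
  let J : E2 ≃L[ℝ] ℝ × ℝ :=
    (EuclideanSpace.equiv (Fin 2) ℝ).trans (ContinuousLinearEquiv.finTwoArrow ℝ ℝ)
  have h0 : J.symm (J (e x)) = e x := J.symm_apply_apply _
  obtain ⟨h1, h2⟩ := m.smooth e he (e x) (e.map_source hxe) (by rw [e.left_inv hxe]; exact hx)
  have h00 : e.symm (J.symm (J (e x))) = x := by rw [h0, e.left_inv hxe]
  refine ⟨fun y => e.symm (J.symm y), J (e x), h00, ?_, ?_, ?_⟩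
  · have h3 : ContinuousAt (fun y => e.symm (J.symm y)) (J (e x)) :=
      ContinuousAt.comp (g := e.symm) (by rw [h0]; exact e.continuousAt_symm (e.map_source hxe))
        J.symm.continuous.continuousAt
    exact h3.eventually (m.isOpen_reg.mem_nhds (mem_of_eq_of_mem h00 hx))
  · rw [← h0] at h1
    have h3 := (h1.differentiableAt (by simp)).hasFDerivAt.comp _ J.symm.hasFDerivAt
    rw [show fderiv ℝ (fun y' => m.F (e.symm (J.symm y'))) _ = _ from h3.fderiv, h0]
    exact h2.comp J.symm.injective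
  · exact D2.comp (f₀ := J.symm) (h0.symm ▸ h) (D2.of_cd J.symm.contDiff.contDiffAt)

lemma cd_xi {y : (E3 × E3) × ℝ × ℝ} (hy : 0 < y.2.1) :
    ContDiffAt ℝ 2 (fun y : (E3 × E3) × ℝ × ℝ => xi y.1.1 y.1.2 y.2.1 y.2.2) y := by
  have h1 : ContDiffAt ℝ 2 (fun y : (E3 × E3) × ℝ × ℝ => 2 * √y.2.1 / (1 + y.2.2 ^ 2)) y :=
    (contDiffAt_const.mul (contDiffAt_snd.fst.sqrt hy.ne')).div (by fun_prop) (by positivity)
  exact h1.smul (by fun_prop)

lemma RealFam.locD (R : RealFam m pa) {x : M} (hx : x ∈ m.reg) : LocD m pa R.X x := by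
  by_cases h : ∀ j p, R.s < p.1 → x ≠ pt m j p
  · exact R.core x hx h
  push Not at h
  obtain ⟨j, p, hp, rfl⟩ := h
  have h0 := R.w0_le.trans_lt hp
  have h1 : 0 < p.1 := by linarith [m.one_le]
  have h2 : ∀ᶠ y in 𝓝 p, R.s < y.1 := continuous_fst.continuousAt.eventually (eventually_gt_nhds hp)
  have hw : D2 pa (fun z : Q × ℝ × ℝ => z.2.1) Prod.fst p := D2.of_cd contDiffAt_fst
  refine LocD.of_polar h0 ?_
  cases j with
  | inl i =>
    have h3 : ContDiffAt ℝ 2 (fun y : ℝ × ℝ => (√(8 * y.1))⁻¹) p :=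
      ((contDiffAt_const.mul contDiffAt_fst).sqrt (by positivity)).inv (by positivity)
    refine ((D2.param (R.A_D i)).clm_apply (D2.map_cd (cd_xi h1) (((D2.const e3).prodMk
      (D2.of_cd (contDiff_eth.contDiffAt.comp p contDiffAt_snd))).prodMk
      (hw.prodMk ((D2.of_cd h3).mul (R.u_D i p hp)))))).congr ?_ ?_
    · filter_upwards [(R.cyl.and (R.W_top.eventually_ge_atTop (p.1 + 1))).prod_mk (h2.and
        (continuous_fst.continuousAt.eventually (eventually_lt_nhds (lt_add_one p.1))))] with z hz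
      rw [hz.1.1 i z.2 hz.2.1 (hz.2.2.trans_le hz.1.2), xiCyl, div_eq_inv_mul]
      rfl
    · filter_upwards [h2] with y hy
      rw [pt, m.cyl i y (R.w0_le.trans_lt hy), xiCyl, div_eq_inv_mul]
      rfl
  | inr j =>
    refine (D2.map_cd (cd_xi h1) (((D2.of_cd (((m.L j).γ_smooth.of_le two_le_top).contDiffAt.comp p
      contDiffAt_snd)).prodMk (D2.of_cd (((m.L j).n_smooth.of_le two_le_top).contDiffAt.comp p
      contDiffAt_snd))).prodMk (hw.prodMk (R.t_D j p hp)))).congr ?_ ?_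
    · filter_upwards [R.cone.prod_mk h2] with z hz using hz.1 j z.2 hz.2
    · filter_upwards [h2] with y hy using m.cone j y (R.w0_le.trans_lt hy)

/-- the nearest point projection -/
noncomputable def pi0 (w : E3 → ℝ) (x : E3) : E3 := x - w x • gradient w x

lemma cd_grad (m : Model S w δ C ι κ M) : ContDiff ℝ 2 (gradient w) :=
  contDiff_iff_contDiffAt.2 fun _ => cdAt_grad m.w_smooth.contDiffAt
    (WithTop.coe_le_coe.2 (le_top : (3 : ℕ∞) ≤ ⊤))

lemma cd_pi0 (m : Model S w δ C ι κ M) : ContDiff ℝ 2 (pi0 w) :=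
  contDiff_id.sub ((m.w_smooth.of_le two_le_top).smul (cd_grad m))

lemma pi0_self {x : E3} (h : w x = 0) : pi0 w x = x := by rw [pi0, h, zero_smul, sub_zero]

open Classical in
/-- the family as maps defined on `S` -/
noncomputable def RealFam.XS (R : RealFam m pa) (q : Q) (x : E3) : E3 :=
  if h : ∃ y ∈ m.reg, m.F y = x then R.X q h.choose else 0

lemma RealFam.XS_F (R : RealFam m pa) (q : Q) {y : M} (hy : y ∈ m.reg) :
    R.XS q (m.F y) = R.X q y := by
  have h : ∃ y' ∈ m.reg, m.F y' = m.F y := ⟨y, hy, rfl⟩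
  rw [RealFam.XS, dif_pos h, m.inj h.choose_spec.1 hy h.choose_spec.2]

lemma RealFam.d2_XS (R : RealFam m pa) {x : E3} (hx : w x = 0) :
    D2 pa (fun z => R.XS z.1 (pi0 w z.2)) (pi0 w) x := by
  obtain ⟨y, hy, rfl⟩ := m.image.superset ((m.shr.mem_iff x).2 hx)
  obtain ⟨ψ, y₀, rfl, h1, h2, hD⟩ := R.locD hy
  have hT := tubeDY m
  have hL := tube_lev hT
  have hx' : |w (m.F (ψ y₀))| < δ := by rw [hx, abs_zero]; exact hT.pos
  set g : ℝ × ℝ → E3 := fun y => m.F (ψ y) with hg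
  have hg0 : ∀ᶠ y in 𝓝 y₀, w (g y) = 0 := h1.mono fun y hy => m.w_F hy
  have hN : ‖gradient w (g y₀)‖ = 1 := hT.norm_grad _ hx'
  have hgd := (hD.cd0.differentiableAt (by norm_num)).hasFDerivAt
  have h3 : ∀ v, ⟪gradient w (g y₀), fderiv ℝ g y₀ v⟫ = 0 := fun v => by
    have h4 := ((hL.diffAt hx').hasFDerivAt.comp y₀ hgd).unique
      ((hasFDerivAt_const (0 : ℝ) y₀).congr_of_eventuallyEq hg0)
    rw [inner_grad]
    exact DFunLike.congr_fun h4 v
  have hΘ : ContDiffAt ℝ 2 (fun y : (ℝ × ℝ) × ℝ => g y.1 + y.2 • gradient w (g y.1)) (y₀, 0) :=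
    have h4 : ContDiffAt ℝ 2 (fun y : (ℝ × ℝ) × ℝ => g y.1) (y₀, 0) :=
      ContDiffAt.comp (g := g) _ hD.cd0 contDiffAt_fst
    h4.add (contDiffAt_snd.smul ((cd_grad m).contDiffAt.comp _ h4))
  let A : (ℝ × ℝ) × ℝ →L[ℝ] E3 := (fderiv ℝ g y₀).comp (ContinuousLinearMap.fst ℝ _ _) +
    (ContinuousLinearMap.snd ℝ _ _).smulRight (gradient w (g y₀))
  have hA : HasFDerivAt (fun y : (ℝ × ℝ) × ℝ => g y.1 + y.2 • gradient w (g y.1)) A (y₀, 0) := by
    have h4 : HasFDerivAt (fun y : (ℝ × ℝ) × ℝ => g y.1) _ (y₀, 0) :=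
      HasFDerivAt.comp (g := g) _ hgd hasFDerivAt_fst
    have h5 := h4.add (hasFDerivAt_snd.smul
      (((cd_grad m).differentiable (by norm_num) _).hasFDerivAt.comp _ h4))
    exact h5.congr_fderiv (by simp [A])
  have hinj : Function.Injective A := by
    rw [injective_iff_map_eq_zero]
    intro v hv
    have h4 : fderiv ℝ g y₀ v.1 + v.2 • gradient w (g y₀) = 0 := hv
    have h5 := congrArg (fun u => ⟪gradient w (g y₀), u⟫) h4
    simp only [inner_add_right, h3, inner_smul_right, real_inner_self_eq_norm_sq, hN,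
      inner_zero_right, zero_add, one_pow, mul_one] at h5
    rw [h5, zero_smul, add_zero] at h4
    exact Prod.ext (h2 (h4.trans (map_zero _).symm)) h5
  let B : ((ℝ × ℝ) × ℝ) ≃L[ℝ] E3 :=
    (LinearMap.linearEquivOfInjective A.toLinearMap hinj (by simp)).toContinuousLinearEquiv
  have hB : HasFDerivAt (fun y : (ℝ × ℝ) × ℝ => g y.1 + y.2 • gradient w (g y.1))
      (B : (ℝ × ℝ) × ℝ →L[ℝ] E3) (y₀, 0) := hA
  have e1 := hΘ.to_localInverse hB (by norm_num)
  have e2 := hΘ.localInverse_apply_image hB (by norm_num)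
  have e3 := (hΘ.hasStrictFDerivAt' hB (by norm_num)).eventually_right_inverse
  set σ := hΘ.localInverse hB (by norm_num) with hσ
  change ∀ᶠ u in _, g (σ u).1 + (σ u).2 • gradient w (g (σ u).1) = u at e3
  simp only [zero_smul, add_zero] at e1 e2 e3
  have hp : pi0 w (g y₀) = g y₀ := pi0_self hx
  rw [← hp] at e1 e3
  have e4 : ContDiffAt ℝ 2 (fun x => σ (pi0 w x)) (g y₀) := e1.comp _ (cd_pi0 m).contDiffAt
  have e5 : Tendsto (fun x => σ (pi0 w x)) (𝓝 (g y₀)) (𝓝 (y₀, 0)) := by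
    have := e4.continuousAt.tendsto
    rwa [hp, e2] at this
  have e6 : ∀ᶠ x in 𝓝 (g y₀), ψ (σ (pi0 w x)).1 ∈ m.reg ∧ g (σ (pi0 w x)).1 = pi0 w x := by
    filter_upwards [(continuous_fst.continuousAt.tendsto.comp e5).eventually h1,
      (cd_pi0 m).continuous.continuousAt.eventually e3,
      hL.cont.abs.continuousAt.eventually (eventually_lt_nhds hx'),
      (continuous_snd.abs.continuousAt.tendsto.comp e5).eventually
        (eventually_lt_nhds (show |(0 : ℝ)| < _ by rw [abs_zero]; exact hL.rad_pos))]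
      with x a1 a2 a3 a4
    have a5 : w (g (σ (pi0 w x)).1) = 0 := m.w_F a1
    have a6 := (hL.sign_foot a5 a4).1
    rw [nor, hT.norm_grad _ (by rw [a5, abs_zero]; exact hT.pos), inv_one, one_smul, a2,
      show w (pi0 w x) = 0 from (tube_foot hT a3).1, mul_zero] at a6
    have a7 : (σ (pi0 w x)).2 = 0 := by nlinarith [sq_nonneg (σ (pi0 w x)).2]
    rw [a7, zero_smul, add_zero] at a2
    exact ⟨a1, a2⟩
  refine (D2.comp (f₀ := fun x => (σ (pi0 w x)).1) (by rw [hp, e2]; exact hD)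
    (D2.of_cd e4.fst)).congr ?_ (e6.mono fun x hx => hx.2.symm)
  filter_upwards [tendsto_snd.eventually e6] with z hz
  rw [← R.XS_F z.1 hz.1]
  exact congrArg _ hz.2.symm

/-- **The core displacement.** -/
theorem RealFam.exists_core (R : RealFam m pa) {T : Q × E3 → E3}
    (hT : ∀ x, D2 pa T (fun x => x) x) {r : ℝ} (hr : 0 < r) : ∃ D : Q × E3 → E3, Sm pa.l D ∧
      (∀ x, D2 pa D (fun _ => 0) x) ∧ ∀ q, ∀ y ∈ m.reg,
        D (q, m.F y) = (1 - rad0 r (m.F y)) • (R.X q y - T (q, m.F y)) := by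
  have hw := tubeDY m
  have hδ : 0 < δ / 4 := by linarith [hw.pos]
  have hD : ∀ x, D2 pa (fun z => (bt (δ / 4) (w z.2) * (1 - rad0 r (pi0 w z.2))) •
      (R.XS z.1 (pi0 w z.2) - T (z.1, pi0 w z.2))) (fun _ => 0) x := fun x => by
    rcases lt_or_ge (2 * (δ / 4)) |w x| with hx | hx
    · refine (D2.const 0).congr ?_ EventuallyEq.rfl
      filter_upwards [tendsto_snd.eventually (hw.smooth.continuous.abs.continuousAt.eventually
        (eventually_gt_nhds hx))] with z hz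
      rw [bt_zero hδ hz.le, zero_mul, zero_smul]
    have h1 : ∀ᶠ y in 𝓝 x, pi0 w (pi0 w y) = pi0 w y :=
      (hw.smooth.continuous.abs.continuousAt.eventually (eventually_lt_nhds
        (show |w x| < δ by linarith))).mono fun y hy => pi0_self (tube_foot hw hy).1
    have h2 : D2 pa (fun z => pi0 w z.2) (pi0 w) x := D2.of_cd (cd_pi0 m).contDiffAt
    have h3 : D2 pa (fun z => R.XS z.1 (pi0 w z.2)) (pi0 w) x :=
      (D2.comp (f₀ := pi0 w) (R.d2_XS (tube_foot hw (show |w x| < δ by linarith)).1) h2).congr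
        ((tendsto_snd.eventually h1).mono fun z hz => congrArg (R.XS z.1) hz.symm)
        (h1.mono fun _ h => h.symm)
    exact ((D2.of_cd (((contDiff_bt _).comp hw.smooth).mul (contDiff_const.sub
      ((contDiff_rad0 r).comp (cd_pi0 m)))).contDiffAt).smul (h3.sub (D2.comp (f₀ := pi0 w) (hT _) h2))).congr
      EventuallyEq.rfl (Eventually.of_forall fun x => by simp)
  refine ⟨_, Sm.of_d2 (r := 2 * r + δ) hD fun q x hx => ?_, hD, fun q y hy => ?_⟩
  · rcases le_total (2 * (δ / 4)) |w x| with h1 | h1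
    · simp only [bt_zero hδ h1, zero_mul, zero_smul]
    · have h2 : 2 * r ≤ ‖pi0 w x‖ := by
        have h3 := norm_sub_norm_le x (w x • gradient w x)
        rw [norm_smul, hw.norm_grad x (by linarith), Real.norm_eq_abs] at h3
        rw [pi0]
        linarith
      simp only [rad0_one hr h2, sub_self, mul_zero, zero_smul]
  · simp only [pi0_self (m.w_F hy), m.w_F hy, R.XS_F q hy]
    rw [bt_one hδ (by rw [abs_zero]; exact hδ.le), one_mul]

end Vale.Agent.P218GE
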