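import Vale.Agent.P218GE.DJ

/-! # P218, block GE: implicit functions in the classes `D1`, `D2`; uniform statements -/

open Set Filter Topology Metric Asymptotics

set_option linter.unusedSectionVars false

namespace Vale.Agent.P218GE

variable {Q P X F : Type} [TopologicalSpace Q] [NormedAddCommGroup P] [NormedSpace ℝ P]
  [NormedAddCommGroup X] [NormedSpace ℝ X] [NormedAddCommGroup F] [NormedSpace ℝ F]
variable {Z : Type} [NormedAddCommGroup Z] [NormedSpace ℝ Z] [FiniteDimensional ℝ Z]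

lemma exists_local_inv_cd {Ψ : Z → Z} {y : Z} {n : WithTop ℕ∞} (hΨ : ContDiffAt ℝ n Ψ y)
    (hn : n ≠ 0) (hA : IsUnit (fderiv ℝ Ψ y)) :
    ∃ Φ : Z → Z, ContDiffAt ℝ n Φ (Ψ y) ∧ Φ (Ψ y) = y ∧ (∀ᶠ u in 𝓝 (Ψ y), Ψ (Φ u) = u) ∧
      ∀ᶠ u in 𝓝 y, Φ (Ψ u) = u := by
  have : CompleteSpace Z := FiniteDimensional.complete ℝ Z
  obtain ⟨u, hu⟩ := hA
  have h1 : HasFDerivAt Ψ (ContinuousLinearEquiv.ofUnit u : Z →L[ℝ] Z) y := by
    have := (hΨ.differentiableAt hn).hasFDerivAt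
    rw [← hu] at this
    exact this
  exact ⟨hΨ.localInverse h1 hn, hΨ.to_localInverse h1 hn, hΨ.localInverse_apply_image h1 hn,
    (hΨ.hasStrictFDerivAt' h1 hn).eventually_right_inverse,
    (hΨ.hasStrictFDerivAt' h1 hn).eventually_left_inverse⟩

/-- a locally unique solution of `Ψ (G x) = j x` is `C^n` -/
lemma contDiffAt_implicit {Ψ : Z → Z} {G j : X → Z} {x : X} {n : WithTop ℕ∞}
    (hΨ : ContDiffAt ℝ n Ψ (G x)) (hn : n ≠ 0) (hA : IsUnit (fderiv ℝ Ψ (G x)))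
    (hj : ContDiffAt ℝ n j x) (he : Ψ (G x) = j x)
    (hu : ∀ᶠ p : X × Z in 𝓝 (x, G x), Ψ p.2 = j p.1 → p.2 = G p.1) : ContDiffAt ℝ n G x := by
  obtain ⟨Φ, hΦ, h0, h1, -⟩ := exists_local_inv_cd hΨ hn hA
  rw [he] at hΦ h0 h1
  have h2 : ContDiffAt ℝ n (fun x => Φ (j x)) x := hΦ.comp x hj
  refine h2.congr_of_eventuallyEq ?_
  have h3 : Tendsto (fun x => (x, Φ (j x))) (𝓝 x) (𝓝 (x, G x)) := by
    have := h2.continuousAt.tendsto
    rw [h0] at this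
    exact tendsto_id.prodMk_nhds this
  filter_upwards [h3.eventually hu, hj.continuousAt.tendsto.eventually h1] with x hx hx'
  exact (hx hx').symm

/-- solving in a ball on which the derivative is close to an invertible map -/
lemma solve_ball {Ψ : Z → Z} {A : Z →L[ℝ] Z} (hA : IsUnit A) {y₀ : Z} {r M : ℝ}
    (hM : ‖Ring.inverse A‖ < M)
    (hd : ∀ y ∈ closedBall y₀ r, DifferentiableAt ℝ Ψ y ∧ ‖fderiv ℝ Ψ y - A‖ ≤ 1 / (2 * M)) :
    (∀ y ∈ closedBall y₀ r, ∀ y' ∈ closedBall y₀ r, ‖y - y'‖ ≤ 2 * M * ‖Ψ y - Ψ y'‖) ∧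
      ∀ ε, 0 ≤ ε → ε ≤ r → ∀ u, ‖u - Ψ y₀‖ ≤ ε / (2 * M) → ∃ y ∈ closedBall y₀ ε, Ψ y = u := by
  have : CompleteSpace Z := FiniteDimensional.complete ℝ Z
  have hM0 : 0 < M := (norm_nonneg _).trans_lt hM
  have happ : ApproximatesLinearOn Ψ A (closedBall y₀ r) ⟨1 / (2 * M), by positivity⟩ :=
    fun y hy y' hy' => (convex_closedBall y₀ r).norm_image_sub_le_of_norm_hasFDerivWithin_le'
      (𝕜 := ℝ) (f' := fderiv ℝ Ψ) (fun p hp => (hd p hp).1.hasFDerivAt.hasFDerivWithinAt)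
      (fun p hp => (hd p hp).2) hy' hy
  have hinv : ∀ v, ‖Ring.inverse A v‖ ≤ M * ‖v‖ := fun v =>
    ((Ring.inverse A).le_opNorm v).trans (by gcongr)
  refine ⟨fun y hy y' hy' => ?_, fun ε hε hεr u hu => ?_⟩
  · have h1 : ‖Ψ y - Ψ y' - A (y - y')‖ ≤ 1 / (2 * M) * ‖y - y'‖ := happ y hy y' hy'
    have h2 := hinv (A (y - y'))
    rw [ringInverse_apply hA] at h2
    have h3 : ‖A (y - y')‖ ≤ ‖Ψ y - Ψ y'‖ + 1 / (2 * M) * ‖y - y'‖ := by
      have := norm_sub_le (Ψ y - Ψ y') (Ψ y - Ψ y' - A (y - y'))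
      rw [sub_sub_cancel] at this
      linarith
    have h4 : M * (1 / (2 * M) * ‖y - y'‖) = ‖y - y'‖ / 2 := by field_simp
    nlinarith [mul_le_mul_of_nonneg_left h3 hM0.le]
  · let R : A.NonlinearRightInverse := 
      ⟨fun v => Ring.inverse A v, ⟨M, hM0.le⟩, hinv, apply_ringInverse hA⟩
    refine happ.surjOn_closedBall_of_nonlinearRightInverse R hε
      (closedBall_subset_closedBall hεr) ?_
    rw [mem_closedBall, dist_eq_norm]
    refine hu.trans (le_of_eq ?_)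
    change ε / (2 * M) = (M⁻¹ - 1 / (2 * M)) * ε
    field_simp
    ring

variable {π : Par Q P} {Ψ : Q × Z → Z} {Ψ₀ : Z → Z} {G j : Q × X → Z} {G₀ j₀ : X → Z} {x₀ : X}

/-- **Implicit functions**, one derivative -/
theorem D1.implicit (hΨ : D1 π Ψ Ψ₀ (G₀ x₀)) (hA : IsUnit (fderiv ℝ Ψ₀ (G₀ x₀)))
    (hj : D1 π j j₀ x₀) (hG₀ : ContDiffAt ℝ 1 G₀ x₀) (he₀ : ∀ᶠ x in 𝓝 x₀, Ψ₀ (G₀ x) = j₀ x)
    (hu : ∀ᶠ p : (Q × X) × Z in (π.l ×ˢ 𝓝 x₀) ×ˢ 𝓝 (G₀ x₀),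
      Ψ (p.1.1, p.2) = j p.1 → p.2 = G p.1) :
    D1 π G G₀ x₀ ∧ ∀ᶠ z in π.l ×ˢ 𝓝 x₀, Ψ (z.1, G z) = j z ∧ IsUnit (dx Ψ (z.1, G z)) ∧
      ∀ᶠ p : X × Z in 𝓝 (z.2, G z), sec Ψ z.1 p.2 = sec j z.1 p.1 → p.2 = sec G z.1 p.1 := by
  have : CompleteSpace Z := FiniteDimensional.complete ℝ Z
  set A := fderiv ℝ Ψ₀ (G₀ x₀) with hAd
  set M := ‖Ring.inverse A‖ + 1 with hMd
  have hM : ‖Ring.inverse A‖ < M := lt_add_one _
  have hM0 : 0 < M := (norm_nonneg _).trans_lt hM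
  obtain ⟨pa, hpa, pb, hpb, hab⟩ := eventually_prod_iff.1 hu
  have e1 : ∀ᶠ y in π.l ×ˢ 𝓝 (G₀ x₀), ‖dx Ψ y - A‖ ≤ 1 / (2 * M) := by
    have := (tendsto_iff_norm_sub_tendsto_zero.1 hΨ.lim).eventually
      (eventually_le_nhds (by positivity : 0 < 1 / (2 * M)))
    exact this
  obtain ⟨pc, hpc, pd, hpd, hcd⟩ := eventually_prod_iff.1 (e1.and hΨ.cd)
  obtain ⟨r, hr, hball⟩ := nhds_basis_closedBall.mem_iff.1 (hpb.and hpd)
  have hsol := fun q (hq : pc q) => solve_ball (Ψ := sec Ψ q) hA hM (y₀ := G₀ x₀) (r := r)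
    fun y hy => ⟨(hcd hq (hball hy).2).2.differentiableAt one_ne_zero, (hcd hq (hball hy).2).1⟩
  have hlim : Tendsto (fun z : Q × X => ‖j z - Ψ (z.1, G₀ x₀)‖) (π.l ×ˢ 𝓝 x₀) (𝓝 0) := by
    have h1 := hΨ.tendsto.comp (tendsto_fst.prodMk (tendsto_const_nhds (x := G₀ x₀)) :
      Tendsto (fun z : Q × X => (z.1, G₀ x₀)) (π.l ×ˢ 𝓝 x₀) _)
    have h2 := (hj.tendsto.sub h1).norm
    rwa [he₀.self_of_nhds, sub_self, norm_zero] at h2
  have hsmall : ∀ ε, 0 < ε → ε ≤ r → ∀ᶠ z in π.l ×ˢ 𝓝 x₀,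
      pa z ∧ pc z.1 ∧ G z ∈ closedBall (G₀ x₀) ε ∧ Ψ (z.1, G z) = j z := fun ε hε hεr => by
    filter_upwards [hpa, tendsto_fst.eventually hpc,
      hlim.eventually (eventually_le_nhds (by positivity : 0 < ε / (2 * M)))] with z h1 h2 h3
    obtain ⟨y, hy, he⟩ := (hsol _ h2).2 ε hε.le hεr (j z) h3
    have h4 : y = G z := hab h1 (hball (closedBall_subset_closedBall hεr hy)).1 he
    exact ⟨h1, h2, h4 ▸ hy, h4 ▸ he⟩
  have hG : Tendsto G (π.l ×ˢ 𝓝 x₀) (𝓝 (G₀ x₀)) := by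
    refine nhds_basis_closedBall.tendsto_right_iff.2 fun ε hε => ?_
    exact (hsmall (min ε r) (lt_min hε hr) (min_le_right _ _)).mono fun z hz =>
      closedBall_subset_closedBall (min_le_left _ _) hz.2.2.1
  have hgr : Tendsto (fun z => (z.1, G z)) (π.l ×ˢ 𝓝 x₀) (π.l ×ˢ 𝓝 (G₀ x₀)) :=
    tendsto_fst.prodMk hG
  have hr1 := hsmall r hr le_rfl
  have hunit : ∀ᶠ z in π.l ×ˢ 𝓝 x₀, IsUnit (dx Ψ (z.1, G z)) :=
    (hΨ.lim.comp hgr).eventually (Units.isOpen.mem_nhds hA)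
  have huniq : ∀ᶠ z in π.l ×ˢ 𝓝 x₀, ∀ᶠ p : X × Z in 𝓝 (z.2, G z),
      sec Ψ z.1 p.2 = sec j z.1 p.1 → p.2 = sec G z.1 p.1 := by
    filter_upwards [Par.ev hpa, hG.eventually hpb.eventually_nhds] with z h1 h2
    rw [nhds_prod_eq]
    have h3 : ∀ᶠ x in 𝓝 z.2, pa (z.1, x) :=
      (continuous_const.prodMk continuous_id).continuousAt.tendsto.eventually h1
    exact (h3.prod_mk h2).mono fun p hp => hab (x := (z.1, p.1)) hp.1 hp.2
  have hDG : fderiv ℝ G₀ x₀ = (Ring.inverse A).comp (fderiv ℝ j₀ x₀) := by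
    have h1 : fderiv ℝ j₀ x₀ = A.comp (fderiv ℝ G₀ x₀) := by
      rw [← (show (fun x => Ψ₀ (G₀ x)) =ᶠ[𝓝 x₀] j₀ from he₀).fderiv_eq,
        fderiv_fun_comp x₀ (hΨ.cd0.differentiableAt one_ne_zero) (hG₀.differentiableAt one_ne_zero)]
    rw [h1]
    ext v
    simp [ringInverse_apply hA]
  refine ⟨⟨⟨?_, hG₀.continuousAt, hG, ?_⟩, ?_, hG₀, ?_⟩, ?_⟩
  · filter_upwards [Par.ev hr1, hj.cont, hgr.eventually hΨ.cont] with z h1 h2 h3
    have h0 := h1.self_of_nhds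
    have h4 : Tendsto (fun z' => 2 * M * ‖j z' - Ψ (z'.1, G z)‖) (𝓝 z) (𝓝 0) := by
      have h5 : ContinuousAt (fun z' : Q × X => Ψ (z'.1, G z)) z :=
        ContinuousAt.comp (f := fun z' : Q × X => (z'.1, G z)) h3
          (continuousAt_fst.prodMk continuousAt_const)
      have h6 := (h2.tendsto.sub h5.tendsto).norm.const_mul (2 * M)
      rwa [h0.2.2.2, sub_self, norm_zero, mul_zero] at h6
    rw [ContinuousAt, tendsto_iff_norm_sub_tendsto_zero]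
    refine squeeze_zero' (Eventually.of_forall fun _ => norm_nonneg _) ?_ h4
    filter_upwards [h1] with z' hz'
    have := (hsol _ hz'.2.1).1 _ hz'.2.2.1 _ h0.2.2.1
    rwa [show sec Ψ z'.1 (G z') = j z' from hz'.2.2.2] at this
  · obtain ⟨L, hL⟩ := hΨ.lin
    obtain ⟨L', hL'⟩ := hj.lin
    refine ⟨(Ring.inverse A).comp (L' - L), ?_⟩
    have h1 := IsLittleO.comp_tendsto hL hgr
    have h2 := hΨ.strict.comp_tendsto ((π.lim.comp tendsto_fst).prodMk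
      (hG.prodMk (hG.comp (π.base _))))
    have h3 : (fun z => G z - G (π.σ z.1, z.2) - (Ring.inverse A).comp (L' - L) (π.α z.1))
        =ᶠ[π.l ×ˢ 𝓝 x₀] fun z => Ring.inverse A ((j z - j (π.σ z.1, z.2) - L' (π.α z.1))
          - (Ψ (z.1, G z) - Ψ (π.σ z.1, G z) - L (π.α z.1)))
          - Ring.inverse A (Ψ (π.σ z.1, G z) - Ψ (π.σ z.1, G (π.σ z.1, z.2))
            - A (G z - G (π.σ z.1, z.2))) := by
      filter_upwards [hr1, (π.base _).eventually hr1] with z e1 e2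
      rw [e1.2.2.2, show Ψ (π.σ z.1, G (π.σ z.1, z.2)) = _ from e2.2.2.2, ← map_sub,
        ContinuousLinearMap.comp_apply,
        ← ringInverse_apply hA (G z - G (π.σ z.1, z.2)), ← map_sub, ringInverse_apply hA]
      congr 1
      simp only [sub_apply]
      abel
    have h4 := ((Ring.inverse A).isBigO_comp _ _).trans_isLittleO (IsLittleO.sub hL' h1)
    have h5 := ((Ring.inverse A).isBigO_comp _ _).trans_isLittleO h2
    have h6 : (fun z => G z - G (π.σ z.1, z.2)) =O[π.l ×ˢ 𝓝 x₀] fun z => π.s z.1 := by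
      have h7 : (fun z => G z - G (π.σ z.1, z.2) + Ring.inverse A (Ψ (π.σ z.1, G z)
          - Ψ (π.σ z.1, G (π.σ z.1, z.2)) - A (G z - G (π.σ z.1, z.2))))
          =O[π.l ×ˢ 𝓝 x₀] fun z => π.s z.1 := by
        refine (h4.isBigO.add (π.bigO ((Ring.inverse A).comp (L' - L)) _)).congr' ?_
          EventuallyEq.rfl
        filter_upwards [h3] with z hz
        simp only [Function.comp_apply]
        rw [eq_sub_iff_add_eq.1 hz |>.symm]
        abel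
      refine IsBigO.trans ?_ h7
      exact h5.right_isBigO_add'
    exact (h4.sub (h5.trans_isBigO h6)).congr' h3.symm EventuallyEq.rfl
  · filter_upwards [hr1, hunit, huniq, hgr.eventually hΨ.cd, hj.cd] with z e1 e2 e3 e4 e5
    exact contDiffAt_implicit (G := sec G z.1) e4 one_ne_zero e2 e5 e1.2.2.2 e3
  · rw [hDG]
    obtain ⟨u, hu⟩ := hA
    have h1 : Tendsto (fun z => Ring.inverse (dx Ψ (z.1, G z))) (π.l ×ˢ 𝓝 x₀)
        (𝓝 (Ring.inverse A)) := by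
      have := (NormedRing.inverse_continuousAt u).tendsto
      rw [hu] at this
      exact this.comp (hΨ.lim.comp hgr)
    have h2 := ((ContinuousLinearMap.compL ℝ X Z Z).isBoundedBilinearMap.continuous.tendsto
      (Ring.inverse A, fderiv ℝ j₀ x₀)).comp (h1.prodMk_nhds hj.lim)
    refine h2.congr' ?_
    filter_upwards [hr1, hunit, huniq, hgr.eventually hΨ.cd, hj.cd] with z e1 e2 e3 e4 e5
    exact (hasFDerivAt_implicit (G := sec G z.1) (e4.hasStrictFDerivAt one_ne_zero) e2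
      (e5.differentiableAt one_ne_zero).hasFDerivAt e1.2.2.2 e3).fderiv.symm
  · filter_upwards [hr1, hunit, huniq] with z e1 e2 e3 using ⟨e1.2.2.2, e2, e3⟩

/-- **Implicit functions**, two derivatives -/
theorem D2.implicit (hΨ : D2 π Ψ Ψ₀ (G₀ x₀)) (hA : IsUnit (fderiv ℝ Ψ₀ (G₀ x₀)))
    (hj : D2 π j j₀ x₀) (hG₀ : ContDiffAt ℝ 2 G₀ x₀) (he₀ : ∀ᶠ x in 𝓝 x₀, Ψ₀ (G₀ x) = j₀ x)
    (hu : ∀ᶠ p : (Q × X) × Z in (π.l ×ˢ 𝓝 x₀) ×ˢ 𝓝 (G₀ x₀),
      Ψ (p.1.1, p.2) = j p.1 → p.2 = G p.1) : D2 π G G₀ x₀ := by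
  have : CompleteSpace Z := FiniteDimensional.complete ℝ Z
  obtain ⟨h1, h2⟩ := hΨ.toD1.implicit hA hj.toD1 (hG₀.of_le (by norm_num)) he₀ hu
  refine ⟨h1.toD0, ?_, hG₀, ?_⟩
  · filter_upwards [h2, h1.graph.eventually hΨ.cd, hj.cd] with z e1 e4 e5
    exact contDiffAt_implicit (G := sec G z.1) e4 (by norm_num) e1.2.1 e5 e1.1 e1.2.2
  · have h3 : ContDiffAt ℝ 1 Ring.inverse (fderiv ℝ Ψ₀ (G₀ x₀)) := by
      obtain ⟨u, hu⟩ := hA
      rw [← hu]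
      exact contDiffAt_ringInverse ℝ u
    have h3' := hΨ.d1.comp h1
    refine (D1.bilin (ContinuousLinearMap.compL ℝ X Z Z)
      (D1.map_cd (k := Ring.inverse) (f₀ := fun x => fderiv ℝ Ψ₀ (G₀ x)) h3 h3') hj.d1).congr ?_ ?_
    · filter_upwards [h2, h1.graph.eventually hΨ.cd, hj.cd] with z e1 e4 e5
      exact (hasFDerivAt_implicit (G := sec G z.1) (e4.hasStrictFDerivAt (by norm_num)) e1.2.1
        (e5.differentiableAt (by norm_num)).hasFDerivAt e1.1 e1.2.2).fderiv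
    · have h4 : ∀ᶠ x in 𝓝 x₀, IsUnit (fderiv ℝ Ψ₀ (G₀ x)) :=
        (hΨ.d1.cont0.comp hG₀.continuousAt).eventually (Units.isOpen.mem_nhds hA)
      filter_upwards [h4, he₀.eventually_nhds, hG₀.continuousAt.eventually hΨ.ev0,
        hG₀.eventually (by simp)] with x e1 e2 e3 e4
      have h5 : fderiv ℝ j₀ x = (fderiv ℝ Ψ₀ (G₀ x)).comp (fderiv ℝ G₀ x) := by
        rw [← (show (fun x => Ψ₀ (G₀ x)) =ᶠ[𝓝 x] j₀ from e2).fderiv_eq,
          fderiv_fun_comp x e3 (e4.differentiableAt (by norm_num))]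
      rw [h5]
      ext v
      simp [ringInverse_apply e1]

/-! ### From points to compact sets -/

/-- a property that holds near every point of a compact set holds uniformly on it -/
lemma ev_compact {Q X : Type} [TopologicalSpace X] {l : Filter Q} {K : Set X} (hK : IsCompact K)
    {p : Q × X → Prop} (h : ∀ x ∈ K, ∀ᶠ z in l ×ˢ 𝓝 x, p z) : ∀ᶠ q in l, ∀ x ∈ K, p (q, x) := by
  refine hK.induction_on (p := fun s => ∀ᶠ q in l, ∀ x ∈ s, p (q, x)) (by simp)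
    (fun s t hst ht => ht.mono fun q hq x hx => hq x (hst hx))
    (fun s t hs ht => (hs.and ht).mono fun q hq x hx => hx.elim (hq.1 x) (hq.2 x)) fun x hx => ?_
  obtain ⟨pa, ha, pb, hb, h⟩ := eventually_prod_iff.1 (h x hx)
  exact ⟨{y | pb y}, mem_nhdsWithin_of_mem_nhds hb, ha.mono fun q hq y hy => h hq hy⟩

lemma ev_close {Q : Type} {l : Filter Q} {f : Q × X → F} {f₀ : X → F} {x₀ : X}
    (h : Tendsto f (l ×ˢ 𝓝 x₀) (𝓝 (f₀ x₀))) (h₀ : ContinuousAt f₀ x₀) {ε : ℝ} (hε : 0 < ε) :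
    ∀ᶠ z in l ×ˢ 𝓝 x₀, ‖f z - f₀ z.2‖ ≤ ε := by
  have := (h.sub (h₀.tendsto.comp tendsto_snd)).norm
  rw [sub_self, norm_zero] at this
  exact this.eventually (eventually_le_nhds hε)

end Vale.Agent.P218GE
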