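import Vale.Agent.P218GE.SD
import Vale.Agent.P218GE.DJI
import Vale.Agent.P218DY.Trunc

/-! # P218, block GE: the signed distance of one function; dependence on parameters -/

open Set Filter Topology Metric
open scoped RealInnerProductSpace

set_option linter.unusedSectionVars false

namespace Vale.Agent.P218GE

open Vale.Agent.P218DY (IsTube)

variable {E : Type} [NormedAddCommGroup E] [InnerProductSpace ℝ E] [FiniteDimensional ℝ E]
variable {f : E → ℝ} {δ c K : ℝ}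

lemma fderiv_eq_innerSL (f : E → ℝ) : fderiv ℝ f = fun x => innerSL ℝ (gradient f x) := by
  ext x v
  rw [innerSL_apply_apply, inner_grad]

lemma norm_riesz_le : ‖riesz E‖ ≤ 1 := LinearMap.mkContinuous_norm_le _ zero_le_one _

lemma norm_hess_le {x : E} (hf : ContDiffAt ℝ 2 f x) :
    ‖fderiv ℝ (gradient f) x‖ ≤ ‖fderiv ℝ (fderiv ℝ f) x‖ := by
  have h1 := ((hf.fderiv_right (m := 1) (by norm_num)).differentiableAt one_ne_zero).hasFDerivAt
  have h2 : HasFDerivAt (gradient f) _ x := (riesz E).hasFDerivAt.comp x h1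
  rw [h2.fderiv]
  exact (ContinuousLinearMap.opNorm_comp_le _ _).trans
    (mul_le_of_le_one_left (norm_nonneg _) norm_riesz_le)

lemma norm_d2_le {x : E} (hf : ContDiffAt ℝ 2 f x) :
    ‖fderiv ℝ (fderiv ℝ f) x‖ ≤ ‖fderiv ℝ (gradient f) x‖ := by
  have h1 := ((cdAt_grad (n := 1) hf (by norm_num)).differentiableAt one_ne_zero).hasFDerivAt
  have h2 := (innerSL ℝ : E →L[ℝ] E →L[ℝ] ℝ).hasFDerivAt.comp x h1
  rw [fderiv_eq_innerSL, show (fun x => innerSL ℝ (gradient f x)) = innerSL ℝ ∘ gradient f from rfl,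
    h2.fderiv]
  exact (ContinuousLinearMap.opNorm_comp_le _ _).trans
    (mul_le_of_le_one_left (norm_nonneg _) (norm_innerSL_le ℝ))

/-- the constant family -/
def cst (f : E → ℝ) : ℝ × E → ℝ := fun z => f z.2

lemma Lev.defFam (h : Lev f δ c K) : DefFam (cst f) 0 1 δ c K := by
  have hU : IsOpen {x | |f x| < δ} := isOpen_lt h.cont.abs continuous_const
  have hc : ContinuousOn (cst f) {z | ‖z.1‖ < 1} := (h.cont.comp continuous_snd).continuousOn
  have h1 : PB 2 om {x | |f x| < δ} f := by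
    refine PB.succ (fun x hx => h.diffAt hx) (Bd.of_bound (C := δ) fun x hx => le_of_lt hx) ?_
    refine PB.succ (fun x hx => ((h.cd x hx).fderiv_right (m := 1) (by norm_num)).differentiableAt
      one_ne_zero) (Bd.of_bound (C := K) fun x hx => by rw [← norm_grad]; exact h.hi x hx) ?_
    refine PB.zero hU one_le_om (fun x hx => ?_)
      (Bd.of_bound (C := K) fun x hx => (norm_d2_le (h.cd x hx)).trans (h.hess x hx))
    exact (((h.cd x hx).fderiv_right (m := 1) (by norm_num)).continuousAt_fderiv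
      one_ne_zero).continuousWithinAt
  exact ⟨h.δpos, h.cpos, h.cK, hc,
    h1.comp_om (PB.id_om (isOpen_tube hc δ)).snd fun z hz => hz.2,
    fun z hz => h.lo _ hz.2, fun z hz => h.hi _ hz.2, fun z hz => h.hess _ hz.2⟩

/-- the foot point and the signed distance -/
noncomputable def ft1 (f : E → ℝ) (ρ : ℝ) (x : E) : E × ℝ := foot (cst f) ρ (0, x)

/-- the truncated signed distance to the zero set of `f` -/
noncomputable def sd1 (hb : 0 < eps δ c K / (4 * K)) (f : E → ℝ) (x : E) : ℝ :=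
  if |f x| < eps δ c K then trunc hb (ft1 f (rad δ c K) x).2
  else eps δ c K / (4 * K) * Real.sign (f x)

lemma mem_cst {ε : ℝ} {x : E} (hx : |f x| < ε) : ((0 : ℝ), x) ∈ tube (cst f) 1 ε :=
  ⟨by simp, hx⟩

variable (hb : 0 < eps δ c K / (4 * K))

lemma Lev.sd1_eq (h : Lev f δ c K) : sd1 hb f = sec h.defFam.sd 0 := rfl

lemma Lev.cd_sd1 (h : Lev f δ c K) : ContDiff ℝ 2 (sd1 hb f) :=
  contDiff_iff_contDiffAt.2 fun x => cdAt_sec (W := h.defFam.sd) (a := 0)
    (h.defFam.pb_sd.cdAt (z := (0, x)) (by simp))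

lemma Lev.sd1_zero (h : Lev f δ c K) (x : E) : sd1 hb f x = 0 ↔ f x = 0 := by
  rw [← Real.sign_eq_zero_iff, ← Real.sign_eq_zero_iff (r := f x)]
  exact Eq.congr_left (h.defFam.sign_sd (z := (0, x)) (by simp))

lemma Lev.ft1_eq (h : Lev f δ c K) {x p : E} {t : ℝ} (hx : |f x| < eps δ c K) (hp : f p = 0)
    (ht : |t| < rad δ c K) (he : x = p + t • nor f p) : ft1 f (rad δ c K) x = (p, t) :=
  h.defFam.foot_eq (mem_cst hx) hp ht he

lemma Lev.ft1_spec (h : Lev f δ c K) {x : E} (hx : |f x| < eps δ c K) :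
    f (ft1 f (rad δ c K) x).1 = 0 ∧ |(ft1 f (rad δ c K) x).2| < rad δ c K ∧
      x = (ft1 f (rad δ c K) x).1 + (ft1 f (rad δ c K) x).2 • nor f (ft1 f (rad δ c K) x).1 :=
  h.defFam.foot_spec (mem_cst hx)

lemma Lev.grad_ht (h : Lev f δ c K) {x : E} (hx : |f x| < eps δ c K) :
    gradient (fun x => (ft1 f (rad δ c K) x).2) x = nor f (ft1 f (rad δ c K) x).1 :=
  h.defFam.gx_ht (mem_cst hx)

lemma Lev.cd_ht (h : Lev f δ c K) {x : E} (hx : |f x| < eps δ c K) :
    ContDiffAt ℝ 2 (fun x => (ft1 f (rad δ c K) x).2) x :=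
  cdAt_sec (W := ht (cst f) (rad δ c K)) (a := 0) (h.defFam.pb_ht.cdAt (mem_cst hx))

lemma Lev.cd_ft1 (h : Lev f δ c K) {x : E} (hx : |f x| < eps δ c K) :
    ContDiffAt ℝ 1 (ft1 f (rad δ c K)) x :=
  (cdAt_sec (W := ft (cst f) (rad δ c K)) (a := 0) (h.defFam.pb_ft.1.cdAt (mem_cst hx))).snd

lemma Lev.tube_sd1 (h : Lev f δ c K) {x : E} (hx : |sd1 hb f x| < eps δ c K / (4 * K) / 2) :
    |f x| < eps δ c K ∧ sd1 hb f =ᶠ[𝓝 x] fun x => (ft1 f (rad δ c K) x).2 := by
  have := h.defFam.tube_sd (z := (0, x)) ⟨by simp, hx⟩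
  exact ⟨this.1.2, (continuous_const.prodMk continuous_id).continuousAt.tendsto.eventually this.2⟩

lemma grad_congr {g : E → ℝ} {x : E} (h : f =ᶠ[𝓝 x] g) : gradient f =ᶠ[𝓝 x] gradient g := by
  filter_upwards [h.fderiv (𝕜 := ℝ)] with x hx
  rw [gradient, gradient, hx]

/-- **The signed distance has a uniform tube.** -/
theorem Lev.isTube (h : Lev f δ c K) {C : ℝ} (hC : 4 * K / c ≤ C)
    (hs : ∀ x, f x = 0 → |⟪x, gradient f x⟫| ≤ C * ‖gradient f x‖) :
    IsTube (sd1 hb f) (eps δ c K / (4 * K) / 2) C := by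
  have hε := h.defFam.eps_pos
  refine ⟨half_pos hb, h.cd_sd1 hb, fun x hx => ?_, fun x hx => ?_, fun x hx => ?_⟩
  · obtain ⟨h1, h2⟩ := h.tube_sd1 hb hx
    rw [(grad_congr h2).eq_of_nhds, h.grad_ht h1]
    exact h.norm_nor (by rw [(h.ft1_spec h1).1, abs_zero]; exact h.δpos)
  · obtain ⟨h1, h2⟩ := h.tube_sd1 hb hx
    rw [(grad_congr h2).fderiv_eq]
    exact (h.defFam.norm_hess_ht (mem_cst h1)).trans hC
  · obtain ⟨h1, h2⟩ := h.tube_sd1 hb (x := x) (by rw [hx, abs_zero]; exact half_pos hb)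
    have h3 := (h.sd1_zero hb x).1 hx
    have h4 := h.cpos.trans_le (h.lo x (by rw [h3, abs_zero]; exact h.δpos))
    rw [(grad_congr h2).eq_of_nhds, h.grad_ht h1,
      h.ft1_eq h1 (p := x) (t := 0) h3 (by rw [abs_zero]; exact h.rad_pos) (by simp), nor,
      inner_smul_right, abs_mul, abs_of_pos (inv_pos.2 h4), inv_mul_le_iff₀ h4, mul_comm]
    exact hs x h3

lemma tube_foot {C : ℝ} (hf : IsTube f δ C) {y : E} (hy : |f y| < δ) :
    f (y - f y • gradient f y) = 0 ∧ gradient f (y - f y • gradient f y) = gradient f y := by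
  rcases le_total 0 (f y) with h0 | h0
  · rw [abs_of_nonneg h0] at hy
    have := hf.ray_pos h0 hy (f y) ⟨h0, le_rfl⟩
    exact ⟨by rw [this.2, sub_self], this.1⟩
  · rw [abs_of_nonpos h0] at hy
    have := hf.neg.ray_pos (x := y) (by simpa using h0) hy (-f y) ⟨by linarith, le_rfl⟩
    simp only [P218.H63.gradient_neg', smul_neg, neg_smul, neg_neg, sub_self, neg_eq_zero,
      neg_inj] at this
    exact ⟨this.2, this.1⟩

/-- a signed distance function is reproduced near its zero set -/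
theorem Lev.sd1_self (h : Lev f δ c K) (hc : c ≤ 1) {C : ℝ} (hf : IsTube f δ C) {x : E}
    (hx : |sd1 hb f x| < eps δ c K / (4 * K) / 2) : sd1 hb f =ᶠ[𝓝 x] f := by
  obtain ⟨h1, h2⟩ := h.tube_sd1 hb hx
  have hr := h.rad_pos
  have hK := h.Kpos
  have h3 : eps δ c K < rad δ c K := by unfold eps; nlinarith
  have h4 : eps δ c K < δ := by
    unfold eps
    nlinarith [h.rad_le.1, h.δpos, mul_le_mul_of_nonneg_right h.cK hr.le]
  refine h2.trans ?_
  filter_upwards [(isOpen_lt h.cont.abs continuous_const).mem_nhds h1] with y (hy : |f y| < _)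
  have h5 := tube_foot hf (hy.trans h4)
  rw [h.ft1_eq hy h5.1 (hy.trans h3)]
  rw [nor, h5.2, hf.norm_grad y (by linarith)]
  simp

section Par

variable {Q P : Type} [TopologicalSpace Q] [NormedAddCommGroup P] [NormedSpace ℝ P] {π : Par Q P}
  {W : Q × E → ℝ} {W₀ : E → ℝ}

lemma D2.d1_nx {x : E} (h : D2 π W W₀ x) (h0 : gradient W₀ x ≠ 0) : D1 π (nx W) (nor W₀) x := by
  have h1 : ContDiffAt ℝ 1 (fun v : E => ‖v‖⁻¹ • v) (gradient W₀ x) :=
    ((contDiffAt_norm ℝ h0).inv (norm_ne_zero_iff.2 h0)).smul contDiffAt_id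
  exact D1.map_cd (f₀ := gradient W₀) h1 (h.d1.map (riesz E))

/-- the foot point equation for one function -/
noncomputable def psi1 (f : E → ℝ) (y : E × ℝ) : E × ℝ := (y.1 + y.2 • nor f y.1, f y.1)

lemma Lev.isUnit_psi1 (h : Lev f δ c K) {y : E × ℝ} (hy : f y.1 = 0) (ht : |y.2| < rad δ c K) :
    IsUnit (fderiv ℝ (psi1 f) y) := by
  have hδ := h.δpos
  have hm : ((0 : ℝ), y.1) ∈ tube (cst f) 1 (δ / 2) := mem_cst (by rw [hy, abs_zero]; positivity)
  have hm' : ((0 : ℝ), y.1) ∈ tube (cst f) 1 δ := mem_cst (by rw [hy, abs_zero]; positivity)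
  have h1 := h.defFam.lower (y := (0, y)) hm ht
  have h2 : DifferentiableAt ℝ (Psi (cst f)) (0, y) := h.defFam.pb_Psi.diffAt hm'
  have h3' := HasFDerivAt.comp (g := Psi (cst f)) (f := fun y => (0, y)) y h2.hasFDerivAt
    (hasFDerivAt_prodMk_right 0 y)
  have h3 : HasFDerivAt (psi1 f) _ y :=
    (ContinuousLinearMap.snd ℝ ℝ (E × ℝ)).hasFDerivAt.comp y h3'
  obtain ⟨M, hM⟩ : ∃ M : ℝ, ∀ v, ‖v‖ ≤ M * ‖fderiv ℝ (Psi (cst f)) (0, y) v‖ := ⟨_, h1⟩
  refine isUnit_of_lower (M := M) fun v => (le_trans ?_ (hM (0, v))).trans (le_of_eq ?_)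
  · simp
  · congr 1
    have h4 : (fderiv ℝ (Psi (cst f)) (0, y) (0, v)).1 = 0 := by
      rw [show ((0 : ℝ), v) = (0, v.1, v.2) from rfl, h.defFam.fderiv_Psi hm']
    rw [Prod.norm_def, h4, norm_zero, max_eq_right (norm_nonneg _), h3.fderiv]
    simp

lemma D2.of_ht (hW : ∀ᶠ q in π.l, Lev (sec W q) δ c K) (h₀ : Lev W₀ δ c K) (hD : ∀ x, D2 π W W₀ x)
    {x₀ : E} (hx : |W₀ x₀| < eps δ c K) :
    D2 π (fun z => (ft1 (sec W z.1) (rad δ c K) z.2).2) (fun x => (ft1 W₀ (rad δ c K) x).2) x₀ := by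
  obtain ⟨h1, h2, -⟩ := h₀.ft1_spec hx
  set y₀ := ft1 W₀ (rad δ c K) x₀ with hy₀
  have hn : D1 π (nx W) (nor W₀) y₀.1 := (hD _).d1_nx (norm_pos_iff.1
    (h₀.cpos.trans_le (h₀.lo _ (by rw [h1, abs_zero]; exact h₀.δpos))))
  have hp : D1 π (fun z : Q × E × ℝ => z.2.1) Prod.fst y₀ := D1.of_cd contDiffAt_fst
  have hΨ : D1 π (fun z : Q × E × ℝ => psi1 (sec W z.1) z.2) (psi1 W₀) y₀ :=
    (hp.add (D1.bilin (ContinuousLinearMap.lsmul ℝ ℝ) (D1.of_cd contDiffAt_snd)
      (hn.comp hp))).prodMk ((hD _).toD1.comp hp)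
  have he : ∀ᶠ z in π.l ×ˢ 𝓝 x₀, Lev (sec W z.1) δ c K ∧ |sec W z.1 z.2| < eps δ c K :=
    (tendsto_fst.eventually hW).and ((hD x₀).tendsto.abs.eventually (eventually_lt_nhds hx))
  have he0 : ∀ᶠ x in 𝓝 x₀, |W₀ x| < eps δ c K :=
    h₀.cont.abs.continuousAt.eventually (eventually_lt_nhds hx)
  have hG : D1 π (fun z => ft1 (sec W z.1) (rad δ c K) z.2) (ft1 W₀ (rad δ c K)) x₀ := by
    refine (D1.implicit (j := fun z => (z.2, 0)) (j₀ := fun x => (x, 0)) hΨ
      (h₀.isUnit_psi1 h1 h2) (D1.of_cd (contDiffAt_id.prodMk contDiffAt_const)) (h₀.cd_ft1 hx)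
      ?_ ?_).1
    · filter_upwards [he0] with x hx
      obtain ⟨e1, -, e3⟩ := h₀.ft1_spec hx
      exact Prod.ext e3.symm e1
    · have h3 : ∀ᶠ y in 𝓝 y₀, |y.2| < rad δ c K :=
        continuous_snd.abs.continuousAt.eventually (eventually_lt_nhds h2)
      filter_upwards [he.prod_mk h3] with p hp he
      exact (hp.1.1.ft1_eq hp.1.2 (congrArg Prod.snd he) hp.2 (congrArg Prod.fst he).symm).symm
  refine ⟨(hG.map (ContinuousLinearMap.snd ℝ E ℝ)).toD0, he.mono fun z hz => hz.1.cd_ht hz.2,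
    h₀.cd_ht hx, ?_⟩
  refine (D1.map (innerSL ℝ : E →L[ℝ] E →L[ℝ] ℝ)
    (D1.comp (f₀ := fun x => (ft1 W₀ (rad δ c K) x).1) hn
      (hG.map (ContinuousLinearMap.fst ℝ E ℝ)))).congr ?_ ?_
  · filter_upwards [he] with z hz
    rw [dx, fderiv_eq_innerSL]
    exact congrArg _ (hz.1.grad_ht hz.2)
  · filter_upwards [he0] with x hx
    rw [fderiv_eq_innerSL]
    exact congrArg _ (h₀.grad_ht hx)

/-- **The signed distance depends well on parameters.** -/
theorem D2.of_sd1 (hW : ∀ᶠ q in π.l, Lev (sec W q) δ c K) (h₀ : Lev W₀ δ c K)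
    (hD : ∀ x, D2 π W W₀ x) (x₀ : E) :
    D2 π (fun z => sd1 hb (sec W z.1) z.2) (sd1 hb W₀) x₀ := by
  have hε := h₀.defFam.eps_pos
  have hfar : ∀ σ : ℝ, (∀ t, eps δ c K / 2 < σ * t → eps δ c K / 2 < |t| ∧ Real.sign t = σ) →
      eps δ c K / 2 < σ * W₀ x₀ → D2 π (fun z => sd1 hb (sec W z.1) z.2) (sd1 hb W₀) x₀ := by
    intro σ hσ hx
    refine (D2.const (eps δ c K / (4 * K) * σ)).congr ?_ ?_
    · filter_upwards [tendsto_fst.eventually hW,
        ((hD x₀).tendsto.const_mul σ).eventually (eventually_gt_nhds hx)] with z h1 h2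
      rw [← (hσ _ h2).2]
      exact h1.defFam.sd_far (z := (0, z.2)) (by simp) (hσ _ h2).1
    · filter_upwards [(continuous_const.mul h₀.cont).continuousAt.eventually
        (eventually_gt_nhds hx)] with x h2
      rw [← (hσ _ h2).2]
      exact h₀.defFam.sd_far (z := (0, x)) (by simp) (hσ _ h2).1
  rcases lt_or_ge |W₀ x₀| (eps δ c K) with hx | hx
  · refine ((D2.of_ht hW h₀ hD hx).map_cd (contDiff_trunc hb (k := 2)).contDiffAt).congr ?_ ?_
    · filter_upwards [(hD x₀).tendsto.abs.eventually (eventually_lt_nhds hx)] with z hz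
      exact if_pos hz
    · filter_upwards [h₀.cont.abs.continuousAt.eventually (eventually_lt_nhds hx)] with x hx
      exact if_pos hx
  · rcases le_abs.1 hx with h | h
    · exact hfar 1 (fun t ht => ⟨by linarith [le_abs_self t], Real.sign_of_pos (by linarith)⟩)
        (by linarith)
    · exact hfar (-1) (fun t ht => ⟨by linarith [neg_abs_le t], Real.sign_of_neg (by linarith)⟩)
        (by linarith)

end Par

end Vale.Agent.P218GE
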