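import Vale.Agent.P218GE.SB
import Vale.Agent.P218GE.SD1

/-! # P218, block GE: families of bi-Lipschitz diffeomorphisms with uniform `C²` bounds -/

open Set Filter Topology Metric Asymptotics
open scoped RealInnerProductSpace

set_option linter.unusedSectionVars false

namespace Vale.Agent.P218GE

open Vale.Agent.P218DY (IsTube)

variable {Q E : Type} [NormedAddCommGroup E] [InnerProductSpace ℝ E] [FiniteDimensional ℝ E]

lemma ev_top {Q X : Type} {l : Filter Q} {p : Q × X → Prop} :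
    (∀ᶠ z in l ×ˢ ⊤, p z) ↔ ∀ᶠ q in l, ∀ x, p (q, x) := by
  rw [← principal_univ, eventually_prod_principal_iff]
  simp

/-- see the header -/
structure GM (l : Filter Q) (Φ : Q × E → E) : Prop where
  s2 : S2 (l ×ˢ ⊤) (fun _ => 1) (fun _ => 1) Φ
  lo : ∃ K : ℝ, 0 < K ∧ ∀ᶠ q in l, ∀ x y, ‖x - y‖ ≤ K * ‖Φ (q, x) - Φ (q, y)‖

variable {l : Filter Q} {Φ Ψ D : Q × E → E}

lemma s2_id {𝓕 : Filter (Q × E)} {a : Q × E → ℝ} : S2 𝓕 (fun _ => 1) a fun z => z.2 :=
  (S2.affine (A := fun _ => ContinuousLinearMap.id ℝ E) (c := fun _ => 0)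
    (isBigO_const_const _ one_ne_zero _)).congr
    (Eventually.of_forall fun z => Eventually.of_forall fun x => by simp [sec])

lemma GM.id : GM l fun z : Q × E => z.2 :=
  ⟨s2_id, 1, one_pos, Eventually.of_forall fun _ _ _ => by rw [one_mul]⟩

lemma GM.comp (h : GM l Φ) (h' : GM l Ψ) : GM l fun z => Φ (z.1, Ψ z) := by
  obtain ⟨K, hK, h1⟩ := h.lo
  obtain ⟨K', hK', h2⟩ := h'.lo
  refine ⟨(h.s2.comp h'.s2 (tendsto_fst.prodMk tendsto_top)).mono
    (isBigO_const_const _ one_ne_zero _) (isBigO_const_const _ (by simp) _), K' * K,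
    mul_pos hK' hK, ?_⟩
  filter_upwards [h1, h2] with q e1 e2 x y
  refine (e2 x y).trans ?_
  rw [mul_assoc]
  exact mul_le_mul_of_nonneg_left (e1 _ _) hK'.le

lemma lip_of_dx {F : Type} [NormedAddCommGroup F] [NormedSpace ℝ F] {D : Q × E → F} {q : Q} {ε : ℝ}
    (hd : ∀ x, ContDiffAt ℝ 2 (sec D q) x) (hε : ∀ x, ‖dx D (q, x)‖ ≤ ε) (x y : E) :
    ‖D (q, x) - D (q, y)‖ ≤ ε * ‖x - y‖ :=
  convex_univ.norm_image_sub_le_of_norm_fderiv_le (𝕜 := ℝ) (f := sec D q)
    (fun p _ => (hd p).differentiableAt (by norm_num)) (fun p _ => hε p) (mem_univ y) (mem_univ x)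

lemma GM.add_le (h : GM l Φ) : ∃ ε : ℝ, 0 < ε ∧ ∀ D : Q × E → E,
    S2 (l ×ˢ ⊤) (fun _ => 1) (fun _ => 1) D → (∀ᶠ z in l ×ˢ ⊤, ‖dx D z‖ ≤ ε) →
      GM l fun z => Φ z + D z := by
  obtain ⟨K, hK, h1⟩ := h.lo
  refine ⟨1 / (2 * K), by positivity, fun D hD hε => ⟨h.s2.add hD, 2 * K, by positivity, ?_⟩⟩
  filter_upwards [h1, ev_top.1 hD.cd, ev_top.1 hε] with q e1 e2 e3 x y
  have h2 := lip_of_dx e2 e3 x y
  have h3 := norm_sub_le (Φ (q, x) + D (q, x) - (Φ (q, y) + D (q, y))) (D (q, x) - D (q, y))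
  rw [show Φ (q, x) + D (q, x) - (Φ (q, y) + D (q, y)) - (D (q, x) - D (q, y))
    = Φ (q, x) - Φ (q, y) by abel] at h3
  have h4 : K * (1 / (2 * K) * ‖x - y‖) = ‖x - y‖ / 2 := by field_simp
  nlinarith [e1 x y, mul_le_mul_of_nonneg_left h3 hK.le, mul_le_mul_of_nonneg_left h2 hK.le]

/-- small perturbations -/
lemma GM.add_small {ν : Q × E → ℝ} (h : GM l Φ) (hD : S2 (l ×ˢ ⊤) ν (fun _ => 1) D)
    (hν : Tendsto ν (l ×ˢ ⊤) (𝓝 0)) : GM l fun z => Φ z + D z := by
  obtain ⟨ε, hε, h1⟩ := h.add_le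
  have h2 := hν.isBigO_one ℝ
  refine h1 D (hD.mono h2 (h2.mul (isBigO_refl _ _))) ?_
  have h3 := (hD.d1.b0.trans_tendsto hν).norm
  rw [norm_zero] at h3
  exact h3.eventually (eventually_le_nhds hε)

/-- small multiples of a bounded family -/
lemma GM.step {T : Type} {A : Set T} {D : (Q × T) × E → E}
    (hD : S2 ((l ×ˢ 𝓟 A) ×ˢ ⊤) (fun _ => 1) (fun _ => 1) D) :
    ∃ N : ℕ, 0 < N ∧ ∀ τ ∈ A, GM l fun z => z.2 + (N : ℝ)⁻¹ • D ((z.1, τ), z.2) := by
  obtain ⟨ε, hε, h1⟩ := (GM.id (l := l) (E := E)).add_le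
  obtain ⟨C, hC⟩ := hD.d1.b0.bound
  obtain ⟨N, hN⟩ := exists_nat_gt (max 0 (C / ε))
  have hN0 : (0 : ℝ) < N := (le_max_left _ _).trans_lt hN
  refine ⟨N, by exact_mod_cast hN0, fun τ hτ => ?_⟩
  have ht : Tendsto (fun z : Q × E => ((z.1, τ), z.2)) (l ×ˢ ⊤) ((l ×ˢ 𝓟 A) ×ˢ ⊤) :=
    (tendsto_fst.prodMk (tendsto_principal.2 (Eventually.of_forall fun _ => hτ))).prodMk
      tendsto_top
  have h2 : S2 (l ×ˢ ⊤) (fun _ => 1) (fun _ => 1) fun z : Q × E => D ((z.1, τ), z.2) :=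
    hD.reindex ht (Eventually.of_forall fun _ => EventuallyEq.rfl)
  refine h1 _ (((S2.affine (𝓕 := ⊤) (ν := fun _ => 1) (a := fun _ => 1)
    (A := fun _ => (N : ℝ)⁻¹ • ContinuousLinearMap.id ℝ E) (c := fun _ => 0)
    (isBigO_const_const _ one_ne_zero _)).comp h2 tendsto_top).mono
    (isBigO_const_const _ one_ne_zero _) (isBigO_const_const _ (by simp) _) |>.congr
    (Eventually.of_forall fun z => Eventually.of_forall fun x => by simp [sec])) ?_
  filter_upwards [ht.eventually hC, h2.d1.cd, h2.diff] with z e1 _ e3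
  have h3 := (e3.self_of_nhds.const_smul (N : ℝ)⁻¹).fderiv
  rw [show dx (fun z : Q × E => (N : ℝ)⁻¹ • D ((z.1, τ), z.2)) z = _ from h3, norm_smul, norm_inv,
    Real.norm_natCast, inv_mul_le_iff₀ hN0]
  rw [norm_one, mul_one] at e1
  have h4 := (div_lt_iff₀ hε).1 ((le_max_right _ _).trans_lt hN)
  exact le_trans e1 h4.le

section One

variable {φ : E → E} {K : ℝ}

lemma lower_fderiv (h : ∀ x y, ‖x - y‖ ≤ K * ‖φ x - φ y‖) {x : E} (hd : DifferentiableAt ℝ φ x)
    (v : E) : ‖v‖ ≤ K * ‖fderiv ℝ φ x v‖ := by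
  have h1 : HasDerivAt (fun t : ℝ => φ (x + t • v)) (fderiv ℝ φ x v) 0 := by
    have h2 : HasDerivAt (fun t : ℝ => x + t • v) v 0 := by
      simpa using ((hasDerivAt_id (0 : ℝ)).smul_const v).const_add x
    exact HasFDerivAt.comp_hasDerivAt_of_eq 0 hd.hasFDerivAt h2 (by simp)
  refine ge_of_tendsto ((hasDerivAt_iff_tendsto_slope_zero.1 h1).norm.const_mul K) ?_
  filter_upwards [self_mem_nhdsWithin] with t (ht : t ≠ 0)
  have h3 := h (x + t • v) x
  have h4 := norm_pos_iff.2 ht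
  rw [add_sub_cancel_left, norm_smul] at h3
  rw [zero_add, zero_smul, add_zero, norm_smul, norm_inv, mul_left_comm, le_inv_mul_iff₀ h4]
  exact h3

lemma inj_of_lower (h : ∀ x y, ‖x - y‖ ≤ K * ‖φ x - φ y‖) : Function.Injective φ := fun x y e => by
  have := h x y
  rwa [e, sub_self, norm_zero, mul_zero, norm_le_zero_iff, sub_eq_zero] at this

lemma surj_of_lower (hK : 0 < K) (h : ∀ x y, ‖x - y‖ ≤ K * ‖φ x - φ y‖)
    (hd : ∀ x, ContDiffAt ℝ 2 φ x) : Function.Surjective φ := by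
  have hc : Continuous φ := continuous_iff_continuousAt.2 fun x => (hd x).continuousAt
  have h1 : IsOpen (range φ) := by
    refine isOpen_iff_mem_nhds.2 ?_
    rintro _ ⟨x, rfl⟩
    obtain ⟨ψ, -, -, h2, -⟩ := exists_local_inv_cd (hd x) (by norm_num)
      (isUnit_of_lower (lower_fderiv h ((hd x).differentiableAt (by norm_num))))
    exact h2.mono fun u hu => ⟨_, hu⟩
  have h2 : IsClosed (range φ) := by
    refine isClosed_of_closure_subset fun u hu => ?_
    obtain ⟨x₀, hx₀⟩ := Metric.mem_closure_range_iff.1 hu 1 one_pos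
    have h3 : IsCompact (φ '' closedBall x₀ (K * 2)) := (isCompact_closedBall _ _).image hc
    refine image_subset_range _ _ (h3.isClosed.closure_subset (Metric.mem_closure_iff.2
      fun ε hε => ?_))
    obtain ⟨x, hx⟩ := Metric.mem_closure_range_iff.1 hu (min ε 1) (lt_min hε one_pos)
    refine ⟨φ x, ⟨x, ?_, rfl⟩, hx.trans_le (min_le_left _ _)⟩
    rw [mem_closedBall, dist_eq_norm]
    refine (h x x₀).trans (mul_le_mul_of_nonneg_left ?_ hK.le)
    rw [← dist_eq_norm]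
    linarith [dist_triangle_left (φ x) (φ x₀) u, min_le_right ε 1]
  exact range_eq_univ.1 (IsClopen.eq_univ ⟨h2, h1⟩ (range_nonempty φ))

end One

/-- the inverse maps -/
noncomputable def ginv (Φ : Q × E → E) (z : Q × E) : E := Function.invFun (sec Φ z.1) z.2

lemma GM.diffeo (h : GM l Φ) : ∀ᶠ q in l, ContDiff ℝ 2 (sec Φ q) ∧ Function.Injective (sec Φ q) ∧
    (∀ x, Function.Injective (dx Φ (q, x))) ∧ (∀ x, ginv Φ (q, Φ (q, x)) = x) ∧
    ∀ x, Φ (q, ginv Φ (q, x)) = x := by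
  obtain ⟨K, hK, h1⟩ := h.lo
  filter_upwards [h1, ev_top.1 h.s2.cd] with q e1 e2
  have h2 : Function.Injective (sec Φ q) := inj_of_lower e1
  refine ⟨contDiff_iff_contDiffAt.2 e2, h2, fun x => ?_, Function.leftInverse_invFun h2,
    Function.rightInverse_invFun (surj_of_lower hK e1 e2)⟩
  exact (ContinuousLinearMap.isUnit_iff_bijective.1 (isUnit_of_lower
    (lower_fderiv (φ := sec Φ q) e1 ((e2 x).differentiableAt (by norm_num))))).1

lemma GM.s2_inv (h : GM l Φ) : S2 (l ×ˢ ⊤) (fun _ => 1) (fun _ => 1) (ginv Φ) := by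
  have : CompleteSpace E := FiniteDimensional.complete ℝ E
  obtain ⟨K, hK, h1⟩ := h.lo
  obtain ⟨C, hC⟩ := h.s2.d1.b0.bound
  have h2 : ∀ᶠ q in l, ∀ x, ContDiffAt ℝ 2 (sec (ginv Φ) q) x ∧
      dx (ginv Φ) (q, x) = Ring.inverse (dx Φ (q, ginv Φ (q, x))) ∧
      ∀ v, ‖v‖ ≤ K * ‖dx Φ (q, x) v‖ := by
    filter_upwards [h1, h.diffeo, ev_top.1 h.s2.cd] with q e1 e2 e3 x
    have h3 := fun y => lower_fderiv (φ := sec Φ q) e1 ((e3 y).differentiableAt (by norm_num))
    have h4 : ∀ᶠ p : E × E in 𝓝 (x, sec (ginv Φ) q x), sec Φ q p.2 = p.1 →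
        p.2 = sec (ginv Φ) q p.1 :=
      Eventually.of_forall fun p hp => by rw [← hp]; exact (e2.2.2.2.1 _).symm
    refine ⟨contDiffAt_implicit (j := fun x => x) (e3 _) (by norm_num) (isUnit_of_lower (h3 _))
      contDiffAt_id (e2.2.2.2.2 x) h4, ?_, h3 x⟩
    exact (hasFDerivAt_implicit (j := fun x => x) ((e3 _).hasStrictFDerivAt (by norm_num))
      (isUnit_of_lower (h3 _)) (hasFDerivAt_id x) (e2.2.2.2.2 x) h4).fderiv
  have h3 : ∀ᶠ z in l ×ˢ ⊤, ContDiffAt ℝ 2 (sec (ginv Φ) z.1) z.2 :=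
    ev_top.2 (h2.mono fun q hq x => (hq x).1)
  have h4 : dx (ginv Φ) =O[l ×ˢ ⊤] fun _ => (1 : ℝ) := by
    refine IsBigO.of_bound K (ev_top.2 (h2.mono fun q hq x => ?_))
    rw [(hq x).2.1, norm_one, mul_one]
    exact norm_ringInverse_le hK.le (hq _).2.2
  have h5 := h.s2.d1.comp (h3.mono fun _ hz => hz.of_le (by norm_num)) h4
    (tendsto_fst.prodMk tendsto_top)
  have h6 : IsCompact (closedBall (0 : E →L[ℝ] E) C ∩ ⋂ v, {A | ‖v‖ ≤ K * ‖A v‖}) :=
    (isCompact_closedBall _ _).inter_right (isClosed_iInter fun v =>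
      isClosed_le continuous_const (by fun_prop))
  refine ⟨h3, (h5.map_compact (k := Ring.inverse) h6 (fun A hA => ?_) ?_).congr ?_⟩
  · obtain ⟨u, rfl⟩ := isUnit_of_lower (mem_iInter.1 hA.2)
    exact contDiffAt_ringInverse ℝ u
  · refine ev_top.2 ?_
    filter_upwards [h2, ev_top.1 hC] with q e1 e2 x
    exact ⟨by simpa using e2 _, mem_iInter.2 (e1 _).2.2⟩
  · exact ev_top.2 (h2.mono fun q hq x => Eventually.of_forall fun y => (hq y).2.1)

lemma Lev.mono {f : E → ℝ} {δ c K c' K' : ℝ} (h : Lev f δ c K) (h0 : 0 < c') (hc : c' ≤ c)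
    (hK : K ≤ K') : Lev f δ c' K' :=
  ⟨h.δpos, h0, (hc.trans h.cK).trans hK, h.cont, h.cd, fun x hx => hc.trans (h.lo x hx),
    fun x hx => (h.hi x hx).trans hK, fun x hx => (h.hess x hx).trans hK⟩

lemma tube_lev {w : E → ℝ} {δ C : ℝ} (hw : IsTube w δ C) : Lev w δ 1 (max C 1) :=
  ⟨hw.pos, one_pos, le_max_right _ _, hw.smooth.continuous, fun _ _ => hw.smooth.contDiffAt,
    fun x hx => (hw.norm_grad x hx).ge, fun x hx => (hw.norm_grad x hx).le.trans (le_max_right _ _),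
    fun x hx => (hw.hess_le x hx).trans (le_max_left _ _)⟩

/-- **The transported defining functions have uniform bounds.** -/
theorem GM.lev (h : GM l Φ) {w : E → ℝ} {δ C : ℝ} (hw : IsTube w δ C) :
    ∃ c K : ℝ, c ≤ 1 ∧ Lev w δ c K ∧ ∀ᶠ q in l, Lev (sec (fun z => w (ginv Φ z)) q) δ c K := by
  have h1 : S2 (𝓟 {z : Q × E | |w z.2| < δ}) (fun _ => 1) (fun _ => 1) fun z => w z.2 := by
    refine ⟨Eventually.of_forall fun _ => hw.smooth.contDiffAt, Eventually.of_forall fun _ =>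
      hw.smooth.contDiffAt.fderiv_right (by norm_num), IsBigO.of_bound 1 ?_, IsBigO.of_bound C ?_⟩
    · refine eventually_principal.2 fun z hz => ?_
      rw [norm_one, mul_one, ← hw.norm_grad _ hz, norm_grad]; rfl
    · refine eventually_principal.2 fun z hz => ?_
      rw [mul_one, norm_one, mul_one]
      exact (norm_d2_le hw.smooth.contDiffAt).trans (hw.hess_le _ hz)
  have h2 := h1.comp (h.s2_inv.filter (inf_le_left (b := 𝓟 {z | |w (ginv Φ z)| < δ})))
    (tendsto_principal.2 (eventually_inf_principal.2 (Eventually.of_forall fun z hz => hz)))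
  obtain ⟨C0, hC0, e0⟩ := h.s2.d1.b0.exists_pos
  obtain ⟨C1, e1⟩ := h2.d1.b0.bound
  obtain ⟨C2, e2⟩ := h2.d1.b1.bound
  have hc : 0 < min 1 C0⁻¹ := lt_min one_pos (inv_pos.2 hC0)
  refine ⟨min 1 C0⁻¹, max (max C 1) (max C1 C2), min_le_left _ _,
    (tube_lev hw).mono hc (min_le_left _ _) (le_max_left _ _), ?_⟩
  filter_upwards [ev_top.1 e0.bound, ev_top.1 (eventually_inf_principal.1 e1),
    ev_top.1 (eventually_inf_principal.1 e2), ev_top.1 h.s2_inv.cd, h.diffeo] with q a0 a1 a2 a3 a4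
  have hcd : ∀ x, ContDiffAt ℝ 2 (sec (fun z => w (ginv Φ z)) q) x := fun x =>
    hw.smooth.contDiffAt.comp x (a3 x)
  refine ⟨hw.pos, hc, (min_le_left _ _).trans ((le_max_right _ _).trans (le_max_left _ _)),
    continuous_iff_continuousAt.2 fun x => (hcd x).continuousAt, fun x _ => hcd x,
    fun x hx => (min_le_right _ _).trans ?_, fun x hx => ?_, fun x hx => ?_⟩
  · have h3 : w = fun y => sec (fun z => w (ginv Φ z)) q (sec Φ q y) :=
      funext fun y => congrArg w (a4.2.2.2.1 y).symm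
    have h4 := hw.norm_grad _ hx
    have h7 := HasFDerivAt.comp (f := sec Φ q) (ginv Φ (q, x))
      ((hcd _).differentiableAt (by norm_num)).hasFDerivAt
      (a4.1.differentiable (by norm_num) _).hasFDerivAt
    rw [norm_grad, h3, show fderiv ℝ (fun y => sec (fun z => w (ginv Φ z)) q (sec Φ q y)) _ = _
      from h7.fderiv, show sec Φ q (ginv Φ (q, x)) = x from a4.2.2.2.2 x] at h4
    have h6 := a0 (ginv Φ (q, x))
    rw [norm_one, mul_one] at h6
    rw [norm_grad, inv_le_iff_one_le_mul₀ hC0, ← h4]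
    exact (ContinuousLinearMap.opNorm_comp_le _ _).trans
      (mul_le_mul_of_nonneg_left h6 (norm_nonneg _))
  · rw [norm_grad]
    refine le_trans ?_ ((le_max_left _ _).trans (le_max_right _ _))
    have := a1 x hx
    rwa [mul_one, norm_one, mul_one] at this
  · refine (norm_hess_le (hcd x)).trans (le_trans ?_ ((le_max_right _ _).trans (le_max_right _ _)))
    have := a2 x hx
    rwa [mul_one, mul_one, norm_one, mul_one] at this

/-- the inverse maps depend well on parameters -/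
theorem GM.d2_inv [TopologicalSpace Q] {P : Type} [NormedAddCommGroup P] [NormedSpace ℝ P]
    {π : Par Q P} (h : GM π.l Φ) {x : E} (hD : D2 π Φ (fun x => x) x) :
    D2 π (ginv Φ) (fun x => x) x := by
  refine D2.implicit (G₀ := fun x => x) (j := fun z => z.2) (j₀ := fun x => x) hD ?_ D2.pt
    contDiffAt_id (Eventually.of_forall fun _ => rfl) ?_
  · rw [fderiv_fun_id]
    exact isUnit_one
  · filter_upwards [(tendsto_fst.comp tendsto_fst).eventually h.diffeo] with p hp he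
    rw [← Prod.mk.eta (p := p.1), ← he]
    exact (hp.2.2.2.1 _).symm

end Vale.Agent.P218GE
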