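import Vale.Agent.P218GE.Xi
import Vale.Agent.P218GE.GM

/-! # P218, block GE: the diffeomorphisms which move the cylindrical ends -/

open Set Filter Topology Metric Asymptotics Complex
open scoped RealInnerProductSpace Real

set_option linter.unusedSectionVars false

namespace Vale.Agent.P218GE

open Vale.Agent.P218GA
open Vale.Agent.P218VA (E2)

lemma JB.scale {f : ℝ × ℝ → ℝ} {p : ℝ × ℝ} {l l' K : ℝ} (h : JB f p l K) (hl : |l'| ≤ |l|) :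
    JB f p l' K := by
  refine ⟨h.cd, h.b0, le_trans ?_ h.bw, h.bt, le_trans ?_ h.bww, le_trans ?_ h.bwt, h.btt⟩
  · rw [abs_mul, abs_mul]; gcongr
  · rw [abs_mul, abs_mul, abs_pow, abs_pow]; gcongr
  · rw [abs_mul, abs_mul]; gcongr

lemma SB.of_s2 {I X F : Type} [NormedAddCommGroup X] [NormedSpace ℝ X] [NormedAddCommGroup F]
    [NormedSpace ℝ F] {𝓕 : Filter (I × X)} {f : I × X → F}
    (h : S2 𝓕 (fun _ => 1) (fun _ => 1) f) (h0 : f =O[𝓕] fun _ => (1 : ℝ)) :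
    SB 𝓕 (fun _ => 1) (fun _ => 1) f :=
  ⟨h.mono (isBigO_const_const _ (by simp) _) (isBigO_const_const _ (by simp) _), h0⟩

lemma D2.sum {Q P X F ι : Type} [TopologicalSpace Q] [NormedAddCommGroup P] [NormedSpace ℝ P]
    [NormedAddCommGroup X] [NormedSpace ℝ X] [NormedAddCommGroup F] [NormedSpace ℝ F] [Fintype ι]
    {pa : Par Q P} {u : ι → Q × X → F} {x : X} (h : ∀ i, D2 pa (u i) (fun _ => 0) x) :
    D2 pa (fun z => ∑ i, u i z) (fun _ => 0) x := by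
  classical
  induction (Finset.univ : Finset ι) using Finset.induction_on with
  | empty => simpa using D2.const 0
  | insert i s hi ih =>
    simp only [Finset.sum_insert hi]
    simpa using (h i).add ih

/-- the cut-off function of a cylindrical end -/
noncomputable def chiC (A : E3 ≃ₗᵢ[ℝ] E3) (ρ ε : ℝ) (x : E3) : ℝ :=
  rad0 ρ x * (ang (A e3) ε x * ann (zc A x))

/-- a closed set outside which `chiC` vanishes -/
def supC (A : E3 ≃ₗᵢ[ℝ] E3) (ρ ε : ℝ) : Set E3 :=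
  {x | ρ ≤ ‖x‖ ∧ dist (dir x) (A e3) ≤ 2 * ε ∧ ‖zc A x‖ ∈ Icc (1 / 4 : ℝ) 4}

lemma ev_chiC {A : E3 ≃ₗᵢ[ℝ] E3} {ρ ε : ℝ} (hρ : 0 < ρ) (hε : 0 < ε) (hε1 : 2 * ε ≤ 1) {x : E3}
    (hx : x ∉ supC A ρ ε) : ∀ᶠ y in 𝓝 x, chiC A ρ ε y = 0 := by
  rcases lt_or_ge ‖x‖ ρ with h1 | h1
  · filter_upwards [ev_rad0 hρ h1] with y hy
    rw [chiC, hy, zero_mul]
  have h0 : x ≠ 0 := norm_pos_iff.1 (hρ.trans_le h1)
  rcases lt_or_ge (2 * ε) (dist (dir x) (A e3)) with h2 | h2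
  · filter_upwards [ev_ang hε h0 h2] with y hy
    rw [chiC, hy, zero_mul, mul_zero]
  filter_upwards [(cd_zc A h0 (h2.trans hε1)).continuousAt.eventually
    (ev_ann fun h3 => hx ⟨h1, h2, h3⟩)] with y hy
  rw [chiC, hy, mul_zero, mul_zero]

variable {S : Set E3} {w : E3 → ℝ} {δ C : ℝ} {ι κ M : Type} [TopologicalSpace M]
  [ChartedSpace E2 M] {Q P : Type} [TopologicalSpace Q] [NormedAddCommGroup P] [NormedSpace ℝ P]
  {m : Model S w δ C ι κ M} {pa : Par Q P} (R : RealFam m pa)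

/-- the change of the cylindrical end, cut off -/
noncomputable def RealFam.dl (i : ι) (y : Q × ℝ × ℝ) : ℝ :=
  cw (y.2.1 / R.W y.1) * (R.u i y - m.U i y.2)

/-- the intermediate ends -/
noncomputable def RealFam.us (i : ι) (σ : ℝ) (y : Q × ℝ × ℝ) : ℝ := m.U i y.2 + σ * R.dl i y

/-- the displacement from the intermediate end `σ'` to the intermediate end `σ` -/
noncomputable def RealFam.cd (i : ι) (ρ ε : ℝ) (z : (Q × ℝ × ℝ) × E3) : E3 :=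
  chiC (m.Q i) ρ ε z.2 • ((√2)⁻¹ • R.dl i (z.1.1, lc (zc (m.Q i)) z.2)) •
    m.Q i (gd ((e3, eth (arg (zc (m.Q i) z.2))),
      ((√2)⁻¹ • ‖z.2‖⁻¹) • R.us i z.1.2.1 (z.1.1, lc (zc (m.Q i)) z.2),
      ((√2)⁻¹ • ‖z.2‖⁻¹) • R.us i z.1.2.2 (z.1.1, lc (zc (m.Q i)) z.2)))

/-- admissible radii and angles -/
structure RealFam.Adm (ρ ε : ℝ) : Prop where
  two_le : 2 ≤ ρ
  pos : 0 < ε
  le : 2 * ε ≤ 1
  mul : 2 ≤ ε * ρ
  lev : R.s < ρ ^ 2 / 4
  jb : ∀ i p, ρ ^ 2 / 4 ≤ p.1 → JB (fun y => m.U i y - 1) p p.1 (1 / 2)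
  sep : ∀ i i', i ≠ i' → 4 * ε ≤ dist (m.Q i e3) (m.Q i' e3)

variable {R} {ρ ε : ℝ}

lemma RealFam.Adm.rpos (h : R.Adm ρ ε) : 0 < ρ := by linarith [h.two_le]

lemma RealFam.Adm.sb_cd (h : R.Adm ρ ε) (i : ι) :
    SB ((pa.l ×ˢ 𝓟 (Icc (0 : ℝ) 1 ×ˢ Icc (0 : ℝ) 1)) ×ˢ ⊤) (fun _ => 1) (fun _ => 1)
      (R.cd i ρ ε) := by
  have hρ := h.rpos
  have hW : ∀ᶠ z : (Q × ℝ × ℝ) × E3 in (pa.l ×ˢ 𝓟 (Icc (0 : ℝ) 1 ×ˢ Icc (0 : ℝ) 1)) ×ˢ ⊤,
      1 ≤ R.W z.1.1 := (tendsto_fst.comp tendsto_fst).eventually (R.W_top.eventually_ge_atTop 1)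
  refine SB.cut (A := {z | z.2 ∈ supC (m.Q i) ρ ε ∧ ‖z.2‖ ^ 2 ≤ 2 * R.W z.1.1}) ?_
    (hW.mono fun z h1 hz => ?_)
  swap
  · rcases not_and_or.1 hz with h2 | h2
    · filter_upwards [ev_chiC hρ h.pos h.le h2] with y hy
      rw [sec, RealFam.cd, hy, zero_smul]
    · filter_upwards [(continuous_norm.pow 2).continuousAt.eventually
        (eventually_gt_nhds (not_le.1 h2))] with y (hy : _ < ‖y‖ ^ 2)
      have h3 : cw (‖y‖ ^ 2 / 4 / R.W z.1.1) = 0 :=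
        cw_zero (by rw [le_div_iff₀ (by linarith)]; linarith)
      simp [sec, RealFam.cd, RealFam.dl, lc, h3]
  set 𝓖 := ((pa.l ×ˢ 𝓟 (Icc (0 : ℝ) 1 ×ˢ Icc (0 : ℝ) 1)) ×ˢ ⊤) ⊓
    𝓟 {z : (Q × ℝ × ℝ) × E3 | z.2 ∈ supC (m.Q i) ρ ε ∧ ‖z.2‖ ^ 2 ≤ 2 * R.W z.1.1} with hG
  have hB : ∀ᶠ z in 𝓖, z.2 ∈ supC (m.Q i) ρ ε ∧ ‖z.2‖ ^ 2 ≤ 2 * R.W z.1.1 :=
    mem_inf_of_right (mem_principal_self _)
  have hq : Tendsto (fun z => z.1.1) 𝓖 pa.l := (tendsto_fst.comp tendsto_fst).mono_left inf_le_left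
  have hs : ∀ᶠ z in 𝓖, z.1.2 ∈ Icc (0 : ℝ) 1 ×ˢ Icc (0 : ℝ) 1 :=
    tendsto_principal.1 ((tendsto_snd.comp tendsto_fst).mono_left inf_le_left)
  have hr : ∀ᶠ z in 𝓖, ρ ≤ ‖z.2‖ := hB.mono fun z hz => hz.1.1
  have h0 : ∀ᶠ z in 𝓖, z.2 ≠ 0 := hr.mono fun z hz => norm_pos_iff.1 (hρ.trans_le hz)
  have hi := bigO_inv hρ hr
  have hz : SB 𝓖 (fun _ => 1) (fun _ => 1) fun z => zc (m.Q i) z.2 := by
    refine SB.of_s2 (SB.unit hρ hr ((SB.hom (m := fun c => c) (zc_smul (m.Q i))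
      ((isCompact_sphere 0 1).inter_right (isClosed_closedBall (x := m.Q i e3) (ε := 1)))
      (fun y hy => ?_) (hB.mono fun z hz => ?_)).monoW
      ((isBigO_refl _ _).congr_right fun _ => (one_mul _).symm)))
      (IsBigO.of_bound 4 (hB.mono fun z hz => by simpa using hz.1.2.2.2))
    · have h1 : ‖y‖ = 1 := mem_sphere_zero_iff_norm.1 hy.1
      refine cd_zc _ (norm_pos_iff.1 (by rw [h1]; exact one_pos)) ?_
      rw [dir, h1, inv_one, one_smul]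
      exact hy.2
    · have h1 := norm_pos_iff.1 (hρ.trans_le hz.1.1)
      exact ⟨h1, mem_sphere_zero_iff_norm.2 (norm_dir h1), hz.1.2.1.trans h.le⟩
  have hc : ∀ᶠ z in 𝓖, 1 / 4 ≤ ‖zc (m.Q i) z.2‖ := hB.mono fun z hz => hz.1.2.2.1
  have hsq : ∀ x : E3, √(‖x‖ ^ 2 / 4) = ‖x‖ / 2 := fun x => by
    rw [show ‖x‖ ^ 2 / 4 = (‖x‖ / 2) ^ 2 by ring, Real.sqrt_sq (by positivity)]
  have hlift : ∀ {g : (Q × ℝ × ℝ) × ℝ × ℝ → ℝ} {K : ℝ},
      (∀ q b θ, g (q, b, θ + 2 * π) = g (q, b, θ)) →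
      (∀ᶠ z in 𝓖, JB (sec g z.1) (lc (zc (m.Q i)) z.2) (‖z.2‖ / 2) K) →
      SB 𝓖 (fun _ => 1) (fun _ => 1) fun z => g (z.1, lc (zc (m.Q i)) z.2) := fun hp hJ =>
    (SB.lift hp hz (by norm_num) hc (hr.mono fun z hz => half_pos (hρ.trans_le hz))
      (IsBigO.of_bound 2 (h0.mono fun z hz => by
        rw [inv_div, div_mul_cancel₀ _ (norm_ne_zero_iff.2 hz)]; simp))
      ((hi.const_mul_left 2).congr (fun z => by rw [inv_div, div_eq_mul_inv])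
        fun _ => (mul_one _).symm) hJ).monoW (isBigO_const_const _ one_ne_zero _)
  have hlev : ∀ᶠ z in 𝓖, ρ ^ 2 / 4 ≤ ‖z.2‖ ^ 2 / 4 := hr.mono fun z hz => by gcongr
  have hu := hlift (g := fun y => R.u i (y.1.1, y.2)) (K := R.K) (fun q => R.u_per i q.1) (by
    filter_upwards [hq.eventually R.u_bd, hlev, hB] with z e1 e2 e3
    rw [← hsq]
    exact (e1 i _ (h.lev.trans_le e2) (by change ‖z.2‖ ^ 2 / 4 ≤ _; linarith [e3.2])).1)
  have hU1 := hlift (g := fun y => m.U i y.2 - 1) (K := 1 / 2)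
    (fun _ b θ => by rw [m.U_periodic]) (by
      filter_upwards [hlev, hr] with z e2 e3
      refine (h.jb i _ e2).scale ?_
      change |‖z.2‖ / 2| ≤ |‖z.2‖ ^ 2 / 4|
      rw [abs_of_nonneg (by positivity), abs_of_nonneg (by positivity)]
      nlinarith [h.two_le])
  have hU : SB 𝓖 (fun _ => 1) (fun _ => 1) fun z => m.U i (lc (zc (m.Q i)) z.2) :=
    (hU1.add (SB.const 1)).congr
      (Eventually.of_forall fun z => Eventually.of_forall fun x => by simp [sec])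
  have hW1 := hW.filter_mono (inf_le_left : 𝓖 ≤ _)
  have hcw : SB 𝓖 (fun _ => 1) (fun _ => 1) fun z => cw (‖z.2‖ ^ 2 / 4 / R.W z.1.1) := by
    have h1 : S2 𝓖 (fun _ => 1) (fun _ => 1) fun z => (4 * R.W z.1.1)⁻¹ * ‖z.2‖ ^ 2 := by
      refine S2.normSq (c' := fun i : Q × ℝ × ℝ => (4 * R.W i.1)⁻¹) (IsBigO.of_bound 1 ?_)
        (IsBigO.of_bound 1 ?_)
      · filter_upwards [hW1, hB] with z e1 e2
        rw [norm_one, mul_one, Real.norm_of_nonneg (by positivity),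
          inv_mul_le_iff₀ (by positivity)]
        nlinarith [e2.2, sq_nonneg (‖z.2‖ - 1)]
      · filter_upwards [hW1] with z e1
        rw [mul_one, norm_one, mul_one, Real.norm_of_nonneg (by positivity)]
        exact inv_le_one_of_one_le₀ (by linarith)
    refine (h1.map_compact (isCompact_Icc (a := 0) (b := 1)) (fun _ _ => contDiff_cw.contDiffAt)
      ?_).congr (Eventually.of_forall fun z => Eventually.of_forall fun x => ?_)
    · filter_upwards [hW1, hB] with z e1 e2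
      exact ⟨by positivity, by rw [inv_mul_le_iff₀ (by positivity)]; linarith [e2.2]⟩
    · rw [sec, sec, div_div, div_eq_inv_mul]
  have hdl : SB 𝓖 (fun _ => 1) (fun _ => 1) fun z => R.dl i (z.1.1, lc (zc (m.Q i)) z.2) :=
    hcw.smul1 (hu.sub hU)
  have ht : ∀ {σ : Q × ℝ × ℝ → ℝ}, (∀ᶠ z in 𝓖, σ z.1 ∈ Icc (0 : ℝ) 1) →
      SB 𝓖 (fun _ => 1) (fun _ => 1) fun z =>
        ((√2)⁻¹ • ‖z.2‖⁻¹) • R.us i (σ z.1) (z.1.1, lc (zc (m.Q i)) z.2) := fun hσ =>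
    ((SB.const _).smul1 ((sb_inv h0).mono hi hi)).smul1 (hU.add ((SB.param (IsBigO.of_bound 1
      (hσ.mono fun z hz => by simpa [abs_of_nonneg hz.1] using hz.2))).smul1 hdl))
  have he := hz.inner.map_compact (k := fun ζ => eth (arg ζ))
    ((isCompact_closedBall 0 4).inter_right (isClosed_le (continuous_const (y := (1 / 4 : ℝ)))
      continuous_norm)) (fun y hy => cd_per_arg contDiff_eth eth_per
        (norm_pos_iff.1 (lt_of_lt_of_le (by norm_num) hy.2)))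
    (hB.mono fun z hz => ⟨by simpa using hz.1.2.2.2, hz.1.2.2.1⟩)
  exact (((sb_rad0 hρ hr).mono (isBigO_refl _ _) hi).smul1
    (((sb_ang _ ε h0).mono (isBigO_refl _ _) hi).smul1 (hz.map_smooth contDiff_ann))).smul1
    (((SB.const _).smul1 hdl).smul1 (((((SB.const e3).prodMk he).prodMk
      ((ht (σ := fun i => i.2.1) (hs.mono fun z hz => hz.1)).prodMk
        (ht (σ := fun i => i.2.2) (hs.mono fun z hz => hz.2)))).map_smooth contDiff_gd).map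
          (m.Q i).toContinuousLinearEquiv.toContinuousLinearMap))

lemma RealFam.Adm.d2_cd (h : R.Adm ρ ε) (i : ι) (τ : ℝ × ℝ) (x₀ : E3) :
    D2 pa (fun z => R.cd i ρ ε ((z.1, τ), z.2)) (fun _ => 0) x₀ := by
  have hρ := h.rpos
  by_cases hx : x₀ ∈ supC (m.Q i) ρ ε
  swap
  · refine (D2.const 0).congr ?_ EventuallyEq.rfl
    filter_upwards [tendsto_snd.eventually (ev_chiC hρ h.pos h.le hx)] with z hz
    rw [RealFam.cd, hz, zero_smul]
  have h0 : x₀ ≠ 0 := norm_pos_iff.1 (hρ.trans_le hx.1)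
  have hz := cd_zc (m.Q i) h0 (hx.2.1.trans h.le)
  have hz0 : zc (m.Q i) x₀ ≠ 0 := norm_pos_iff.1 (lt_of_lt_of_le (by norm_num) hx.2.2.1)
  have hl : R.s < (lc (zc (m.Q i)) x₀).1 := h.lev.trans_le (by
    change _ ≤ ‖x₀‖ ^ 2 / 4
    gcongr
    exact hx.1)
  have hU := D2.lift (pa := pa) (h := fun y => m.U i y.2) (fun _ => m.U_periodic i)
    (m.U_periodic i) hz hz0 (D2.of_cd ((m.U_smooth i _ (R.w0_le.trans_lt hl)).of_le two_le_top))
  have hdl : D2 pa (fun z => R.dl i (z.1, lc (zc (m.Q i)) z.2)) (fun _ => 0) x₀ := by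
    refine ((D2.lift (R.u_per i) (m.U_periodic i) hz hz0 (R.u_D i _ hl)).sub hU).congr ?_
      (Eventually.of_forall fun x => (sub_self _).symm)
    filter_upwards [(R.W_top.eventually_ge_atTop (‖x₀‖ ^ 2 + 1)).prod_mk
      ((continuous_norm.pow 2).continuousAt.eventually (eventually_lt_nhds (lt_add_one _)))]
      with z hz
    have h1 : 0 < R.W z.1 := lt_of_lt_of_le (by positivity) hz.1
    rw [RealFam.dl, cw_one, one_mul]
    change ‖z.2‖ ^ 2 / 4 / _ ≤ _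
    rw [div_le_iff₀ h1]
    have h2 : ‖z.2‖ ^ 2 < ‖x₀‖ ^ 2 + 1 := hz.2
    linarith [hz.1]
  have ht := fun σ : ℝ => ((D2.const (√2)⁻¹).smul (D2.of_cd ((contDiffAt_norm ℝ h0).inv
    (norm_ne_zero_iff.2 h0)))).smul (hU.add ((D2.const σ).mul hdl))
  have hc : ContDiffAt ℝ 2 (chiC (m.Q i) ρ ε) x₀ :=
    (contDiff_rad0 ρ).contDiffAt.mul ((cd_ang _ ε h0).mul (contDiff_ann.contDiffAt.comp x₀ hz))
  exact ((D2.of_cd hc).smul (((D2.const (√2)⁻¹).smul hdl).smul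
    (((((D2.const e3).prodMk (D2.of_cd ((cd_per_arg contDiff_eth eth_per hz0).comp x₀ hz))).prodMk
      ((ht τ.1).prodMk (ht τ.2))).map_cd contDiff_gd.contDiffAt).map
        (m.Q i).toContinuousLinearEquiv.toContinuousLinearMap))).congr EventuallyEq.rfl
    (Eventually.of_forall fun x => by simp)

lemma RealFam.us_per (i : ι) (σ : ℝ) (q : Q) (b : ℝ) :
    Function.Periodic (fun θ => R.us i σ (q, b, θ)) (2 * π) := fun θ => by
  simp only [RealFam.us, RealFam.dl, m.U_periodic, R.u_per]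

lemma RealFam.dl_per (i : ι) (q : Q) (b : ℝ) :
    Function.Periodic (fun θ => R.dl i (q, b, θ)) (2 * π) := fun θ => by
  simp only [RealFam.dl, m.U_periodic, R.u_per]

lemma RealFam.Adm.us_mem (h : R.Adm ρ ε) : ∀ᶠ q in pa.l, ∀ i p σ, ρ ^ 2 / 4 ≤ p.1 →
    σ ∈ Icc (0 : ℝ) 1 → R.us i σ (q, p) ∈ Icc (1 / 2 : ℝ) 2 := by
  filter_upwards [R.u_bd, R.W_top.eventually_gt_atTop 0] with q h1 h2 i p σ hp hσ
  have h3 := abs_le.1 (h.jb i p hp).b0
  rcases le_total p.1 (R.W q / 2) with h4 | h4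
  · obtain ⟨-, h5, h6, -⟩ := h1 i p (h.lev.trans_le hp) h4
    have h7 := cw_mem (p.1 / R.W q)
    have h8 : 0 ≤ σ * cw (p.1 / R.W q) := mul_nonneg hσ.1 h7.1
    have h9 : σ * cw (p.1 / R.W q) ≤ 1 := mul_le_one₀ hσ.2 h7.1 h7.2
    rw [RealFam.us, RealFam.dl, ← mul_assoc]
    constructor <;> nlinarith [h3.1, h3.2]
  · rw [RealFam.us, RealFam.dl, cw_zero (by rw [le_div_iff₀ h2]; linarith), zero_mul, mul_zero]
    constructor <;> linarith [h3.1, h3.2]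

lemma RealFam.Adm.dir_cyl (h : R.Adm ρ ε) (A : E3 ≃ₗᵢ[ℝ] E3) {b U : ℝ} (θ : ℝ) (hb : ρ ^ 2 ≤ b)
    (hU : U ∈ Icc (1 / 2 : ℝ) 2) : dist (dir (A (xiCyl b θ U))) (A e3) ≤ ε := by
  have hρ := h.rpos
  have h1 : ρ ≤ √b := Real.le_sqrt_of_sq_le hb
  have h2 : 1 ≤ √2 := Real.one_le_sqrt.2 one_le_two
  rw [dir_iso, A.dist_map]
  refine (dir_xi norm_e3 (norm_eth θ) (eth_e3 θ) (lt_of_lt_of_le (by positivity) hb)).trans ?_
  have h3 : 2 * ρ ≤ √2 * (2 * √b) := by nlinarith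
  rw [sqrt8, abs_of_nonneg (div_nonneg (by linarith [hU.1]) (by positivity)), ← mul_div_assoc,
    div_le_iff₀ (by linarith)]
  nlinarith [h.mul, hU.2, mul_le_mul_of_nonneg_left h3 h.pos.le]

lemma RealFam.Adm.cd_zero (h : R.Adm ρ ε) {i : ι} {τ : Q × ℝ × ℝ} {x : E3}
    (hz : 2 * ε ≤ dist (dir x) (m.Q i e3)) : R.cd i ρ ε (τ, x) = 0 := by
  rw [RealFam.cd, chiC, ang_zero h.pos hz, zero_mul, mul_zero, zero_smul]

lemma RealFam.Adm.cd_val (h : R.Adm ρ ε) {i : ι} {q : Q} {p : ℝ × ℝ} {σ σ' : ℝ} (hp : ρ ^ 2 ≤ p.1)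
    (hU : R.us i σ' (q, p) ∈ Icc (1 / 2 : ℝ) 2) :
    m.Q i (xiCyl p.1 p.2 (R.us i σ' (q, p))) + (σ - σ') •
      R.cd i ρ ε ((q, σ, σ'), m.Q i (xiCyl p.1 p.2 (R.us i σ' (q, p))))
      = m.Q i (xiCyl p.1 p.2 (R.us i σ (q, p))) := by
  have hρ := h.rpos
  have hp0 : 0 < p.1 := lt_of_lt_of_le (by positivity) hp
  have hU0 : 0 < R.us i σ' (q, p) := lt_of_lt_of_le (by norm_num) hU.1
  have h1 : ‖m.Q i (xiCyl p.1 p.2 (R.us i σ' (q, p)))‖ = 2 * √p.1 := by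
    rw [(m.Q i).norm_map, norm_xiCyl]
  have h2 := zc_xiCyl (m.Q i) hp0 p.2 (R.us i σ' (q, p))
  have h3 : ‖zc (m.Q i) (m.Q i (xiCyl p.1 p.2 (R.us i σ' (q, p))))‖ = R.us i σ' (q, p) := by
    rw [h2, norm_mul, norm_exp_ofReal_mul_I, mul_one, norm_real, Real.norm_of_nonneg hU0.le]
  have h4 : chiC (m.Q i) ρ ε (m.Q i (xiCyl p.1 p.2 (R.us i σ' (q, p)))) = 1 := by
    rw [chiC, rad0_one hρ (by rw [h1]; linarith [Real.le_sqrt_of_sq_le hp]),
      ang_one h.pos (h.dir_cyl _ _ hp hU), ann_one (hU.1.trans h3.ge) (h3.le.trans hU.2), one_mul, one_mul]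
  have h5 : 0 < √p.1 := Real.sqrt_pos.2 hp0
  have h6 : 0 < √2 := by positivity
  have h7 := fun σ => lc_eq (g := fun y => R.us i σ (q, y)) hp0.le (R.us_per i σ q p.1) h1 hU0 h2
  have h8 := lc_eq (g := fun y => R.dl i (q, y)) hp0.le (R.dl_per i q p.1) h1 hU0 h2
  simp only [RealFam.cd, h4, one_smul, h7, h8, h2, h1, per_arg_exp eth_per hU0]
  rw [xiCyl, xiCyl, xi_sub e3 (eth p.2) p.1 (R.us i σ (q, p) / √(8 * p.1))
    (R.us i σ' (q, p) / √(8 * p.1)), map_add, map_smul, smul_smul, sqrt8]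
  congr 2
  · simp only [RealFam.us, smul_eq_mul]
    field_simp
    ring
  · simp only [smul_eq_mul, div_eq_inv_mul, mul_inv]

/-- **The cylinder shift.** -/
theorem RealFam.Adm.exists_shift [Fintype ι] (h : R.Adm ρ ε) : ∃ Sh : Q × E3 → E3, GM pa.l Sh ∧
    (∀ x, D2 pa Sh (fun x => x) x) ∧
    (∀ᶠ q in pa.l, ∀ i p, ρ ^ 2 ≤ p.1 → Sh (q, m.Q i (xiCyl p.1 p.2 (m.U i p)))
      = m.Q i (xiCyl p.1 p.2 (R.us i 1 (q, p)))) ∧
    ∀ q x, (∀ i, 2 * ε ≤ dist (dir x) (m.Q i e3)) → Sh (q, x) = x := by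
  classical
  obtain ⟨N, hN, h1⟩ := GM.step (SB.sum Finset.univ fun i _ => h.sb_cd i).inner
  have hN0 : (0 : ℝ) < N := by exact_mod_cast hN
  have key : ∀ k : ℕ, k ≤ N → ∃ Sh : Q × E3 → E3, GM pa.l Sh ∧ (∀ x, D2 pa Sh (fun x => x) x) ∧
      (∀ᶠ q in pa.l, ∀ i p, ρ ^ 2 ≤ p.1 → Sh (q, m.Q i (xiCyl p.1 p.2 (m.U i p)))
        = m.Q i (xiCyl p.1 p.2 (R.us i (k / N) (q, p)))) ∧
      ∀ q x, (∀ i, 2 * ε ≤ dist (dir x) (m.Q i e3)) → Sh (q, x) = x := by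
    intro k
    induction k with
    | zero => exact fun _ => ⟨Prod.snd, GM.id, fun _ => D2.pt,
        Eventually.of_forall fun q i p _ => by simp [RealFam.us], fun _ _ _ => rfl⟩
    | succ k ih =>
      intro hk
      obtain ⟨Sh, e1, e2, e3, e4⟩ := ih (by omega)
      have hk1 : ((k + 1 : ℕ) : ℝ) ≤ N := by exact_mod_cast hk
      have hk2 : (k : ℝ) / N ∈ Icc (0 : ℝ) 1 :=
        ⟨by positivity, by rw [div_le_one hN0]; push_cast at hk1; linarith⟩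
      refine ⟨_, (h1 (((k + 1 : ℕ) : ℝ) / N, k / N)
        ⟨⟨by positivity, (div_le_one hN0).2 hk1⟩, hk2⟩).comp e1, fun x => ?_, ?_, fun q x hx => ?_⟩
      · have h2 : D2 pa (fun z => ∑ i, R.cd i ρ ε ((z.1, ((k + 1 : ℕ) : ℝ) / N, k / N), z.2))
            (fun _ => 0) x := D2.sum fun i => h.d2_cd i _ x
        exact D2.comp (f₀ := fun x => x) ((D2.pt.add ((D2.const _).smul h2)).congr
          EventuallyEq.rfl (Eventually.of_forall fun x => by simp)) (e2 x)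
      · filter_upwards [e3, h.us_mem] with q a1 a2 i p hp
        have h2 := a2 i p _ (by nlinarith) hk2
        have h3 := h.cd_val (σ := ((k + 1 : ℕ) : ℝ) / N) hp h2
        have h4 : ((k + 1 : ℕ) : ℝ) / N - k / N = (N : ℝ)⁻¹ := by
          push_cast
          field_simp
          ring
        have h5 := h.dir_cyl (m.Q i) p.2 hp h2
        rw [h4, ← a1 i p hp] at h3
        rw [← a1 i p hp] at h5
        rw [← h3]
        exact congrArg _ (congrArg _ (Finset.sum_eq_single i (fun j _ hj => h.cd_zero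
          (sep_le h.pos (h.sep j i hj) h5).le) fun hi => absurd (Finset.mem_univ i) hi))
      · simp only [e4 q x hx]
        rw [Finset.sum_eq_zero fun i _ => h.cd_zero (hx i), smul_zero, add_zero]
  simpa only [div_self hN0.ne'] using key N le_rfl

end Vale.Agent.P218GE
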