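import Vale.Agent.P218GE.PB

/-! # P218, block GE: implicit functions with bounds -/

open Set Filter Topology Metric

namespace Vale.Agent.P218GE

variable {X Z : Type} [NormedAddCommGroup X] [NormedSpace ℝ X]
  [NormedAddCommGroup Z] [NormedSpace ℝ Z] [FiniteDimensional ℝ Z]

lemma isUnit_of_lower {A : Z →L[ℝ] Z} {M : ℝ} (h : ∀ v, ‖v‖ ≤ M * ‖A v‖) : IsUnit A := by
  have : CompleteSpace Z := FiniteDimensional.complete ℝ Z
  have hinj : Function.Injective A := by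
    rw [injective_iff_map_eq_zero]
    intro v hv
    have := h v
    rw [hv, norm_zero, mul_zero] at this
    exact norm_le_zero_iff.1 this
  exact ContinuousLinearMap.isUnit_iff_bijective.2
    ⟨hinj, (LinearMap.injective_iff_surjective (f := A.toLinearMap)).1 hinj⟩

omit [FiniteDimensional ℝ Z] in
lemma apply_ringInverse {A : Z →L[ℝ] Z} (h : IsUnit A) (v : Z) : A (Ring.inverse A v) = v := by
  have := congrArg (fun B : Z →L[ℝ] Z => B v) (Ring.mul_inverse_cancel A h)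
  simpa using this

omit [FiniteDimensional ℝ Z] in
lemma ringInverse_apply {A : Z →L[ℝ] Z} (h : IsUnit A) (v : Z) : Ring.inverse A (A v) = v := by
  have := congrArg (fun B : Z →L[ℝ] Z => B v) (Ring.inverse_mul_cancel A h)
  simpa using this

lemma norm_ringInverse_le {A : Z →L[ℝ] Z} {M : ℝ} (hM : 0 ≤ M) (h : ∀ v, ‖v‖ ≤ M * ‖A v‖) :
    ‖Ring.inverse A‖ ≤ M :=
  ContinuousLinearMap.opNorm_le_bound _ hM fun v => by
    have := h (Ring.inverse A v)
    rwa [apply_ringInverse (isUnit_of_lower h)] at this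

lemma exists_local_inv {Ψ : Z → Z} {A : Z →L[ℝ] Z} {y : Z} (hΨ : HasStrictFDerivAt Ψ A y)
    (hA : IsUnit A) : ∃ Φ : Z → Z, HasFDerivAt Φ (Ring.inverse A) (Ψ y) ∧ Φ (Ψ y) = y ∧
      ∀ᶠ u in 𝓝 (Ψ y), Ψ (Φ u) = u := by
  have : CompleteSpace Z := FiniteDimensional.complete ℝ Z
  obtain ⟨u, rfl⟩ := hA
  have h1 : HasStrictFDerivAt Ψ (ContinuousLinearEquiv.ofUnit u : Z →L[ℝ] Z) y := hΨ
  refine ⟨h1.localInverse Ψ _ y, ?_, h1.localInverse_apply_image, h1.eventually_right_inverse⟩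
  rw [Ring.inverse_unit]
  exact h1.to_localInverse.hasFDerivAt

/-- the derivative of a locally unique solution of `Ψ (G z) = j z` -/
lemma hasFDerivAt_implicit {Ψ : Z → Z} {A : Z →L[ℝ] Z} {G j : X → Z} {z : X} {j' : X →L[ℝ] Z}
    (hΨ : HasStrictFDerivAt Ψ A (G z)) (hA : IsUnit A) (hj : HasFDerivAt j j' z)
    (he : Ψ (G z) = j z)
    (hu : ∀ᶠ p : X × Z in 𝓝 (z, G z), Ψ p.2 = j p.1 → p.2 = G p.1) :
    HasFDerivAt G ((Ring.inverse A).comp j') z := by
  obtain ⟨Φ, hΦ, h0, h1⟩ := exists_local_inv hΨ hA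
  rw [he] at hΦ h0 h1
  have h2 : HasFDerivAt (fun x => Φ (j x)) ((Ring.inverse A).comp j') z := hΦ.comp z hj
  refine h2.congr_of_eventuallyEq ?_
  have h3 : Tendsto (fun x => (x, Φ (j x))) (𝓝 z) (𝓝 (z, G z)) := by
    have := h2.continuousAt.tendsto
    rw [h0] at this
    exact tendsto_id.prodMk_nhds this
  filter_upwards [h3.eventually hu, hj.continuousAt.tendsto.eventually h1] with x hx hx'
  exact (hx hx').symm

/-- **Implicit functions with bounds.** -/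
theorem PB.implicit {n : ℕ} {ω : X → ℝ} {ω' : Z → ℝ} {U : Set X} {V : Set Z} {Ψ : Z → Z}
    {G j : X → Z} {M : X → ℝ} (hΨ : PB (n + 1) ω' V Ψ) (hj : PB (n + 1) ω U j)
    (hV : MapsTo G U V) (he : ∀ z ∈ U, Ψ (G z) = j z)
    (hu : ∀ z ∈ U, ∀ᶠ p : X × Z in 𝓝 (z, G z), Ψ p.2 = j p.1 → p.2 = G p.1)
    (hM : ∀ z ∈ U, ∀ v, ‖v‖ ≤ M z * ‖_root_.fderiv ℝ Ψ (G z) v‖) (hMb : Bd ω U M)
    (hG : Bd ω U G) (hw : Bd ω U fun z => ω' (G z)) :
    PB (n + 1) ω U G ∧ ∀ z ∈ U, HasFDerivAt G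
      ((Ring.inverse (_root_.fderiv ℝ Ψ (G z))).comp (_root_.fderiv ℝ j z)) z := by
  have : CompleteSpace Z := FiniteDimensional.complete ℝ Z
  have hd : ∀ z ∈ U, HasFDerivAt G
      ((Ring.inverse (_root_.fderiv ℝ Ψ (G z))).comp (_root_.fderiv ℝ j z)) z := fun z hz =>
    hasFDerivAt_implicit ((hΨ.cdAt (hV hz)).hasStrictFDerivAt (by simp))
      (isUnit_of_lower (hM z hz)) (hj.diffAt hz).hasFDerivAt (he z hz) (hu z hz)
  refine ⟨PB.boot hj.op hj.one hd hG fun k hk h => ?_, hd⟩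
  refine PB.clm_comp (PB.ringInverse (((hΨ.fderiv.of_le (by omega)).comp h hV hw))
    (fun z hz => isUnit_of_lower (hM z hz)) (hMb.of_le fun z hz => ?_)) (hj.fderiv.of_le (by omega))
  refine norm_ringInverse_le (norm_nonneg _) fun v => (hM z hz v).trans ?_
  gcongr
  exact le_abs_self _

end Vale.Agent.P218GE
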