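import Vale.Agent.P218GE.Fam
import Vale.Agent.P218GE.Impl

/-! # P218, block GE: families that are continuous near, and differentiable at, a base parameter

`Par` is a parameter space `Q` with a filter `l`, a linear coordinate `α`, a size `s` and a base
map `σ`. `D0 π f f₀ x₀`: `f` is jointly continuous near the base point, tends to `f₀ x₀`, and
`f (q, x) = f (σ q, x) + L (α q) + o (s q)`. `D1`, `D2` add one and two space derivatives. -/

open Set Filter Topology Metric Asymptotics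

set_option linter.unusedSectionVars false

namespace Vale.Agent.P218GE

/-- a parameter space with a base filter -/
structure Par (Q P : Type) [TopologicalSpace Q] [NormedAddCommGroup P] where
  /-- the base filter -/
  l : Filter Q
  /-- the linear coordinate -/
  α : Q → P
  /-- the size -/
  s : Q → ℝ
  /-- the base map -/
  σ : Q → Q
  le : ∀ q, ‖α q‖ ≤ s q
  lim : Tendsto σ l l
  op : ∀ p : Q → Prop, (∀ᶠ q in l, p q) → ∀ᶠ q in l, ∀ᶠ q' in 𝓝 q, p q'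

variable {Q P X Y F G H : Type} [TopologicalSpace Q] [NormedAddCommGroup P] [NormedSpace ℝ P]
  [NormedAddCommGroup X] [NormedSpace ℝ X] [NormedAddCommGroup Y] [NormedSpace ℝ Y]
  [NormedAddCommGroup F] [NormedSpace ℝ F] [NormedAddCommGroup G] [NormedSpace ℝ G]
  [NormedAddCommGroup H] [NormedSpace ℝ H]

/-- the derivative in the space variable -/
noncomputable def dx (f : Q × X → F) (z : Q × X) : X →L[ℝ] F := fderiv ℝ (sec f z.1) z.2

lemma sec_congr {F : Type} {f g : Q × X → F} {z : Q × X} (h : f =ᶠ[𝓝 z] g) :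
    sec f z.1 =ᶠ[𝓝 z.2] sec g z.1 :=
  (continuous_const.prodMk continuous_id).continuousAt.tendsto.eventually h

variable {π : Par Q P}

lemma Par.ev {X : Type} [TopologicalSpace X] {x₀ : X} {p : Q × X → Prop}
    (h : ∀ᶠ z in π.l ×ˢ 𝓝 x₀, p z) : ∀ᶠ z in π.l ×ˢ 𝓝 x₀, ∀ᶠ z' in 𝓝 z, p z' := by
  obtain ⟨pa, ha, pb, hb, h⟩ := eventually_prod_iff.1 h
  filter_upwards [(π.op pa ha).prod_mk hb.eventually_nhds] with z hz
  rw [← Prod.mk.eta (p := z), nhds_prod_eq]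
  exact (hz.1.prod_mk hz.2).mono fun z' hz' => h hz'.1 hz'.2

lemma Par.evEq {F : Type} {x₀ : X} {f g : Q × X → F} (h : f =ᶠ[π.l ×ˢ 𝓝 x₀] g) :
    ∀ᶠ z in π.l ×ˢ 𝓝 x₀, f =ᶠ[𝓝 z] g := Par.ev h

lemma Par.dx_congr {x₀ : X} {f g : Q × X → F} (h : f =ᶠ[π.l ×ˢ 𝓝 x₀] g) :
    dx f =ᶠ[π.l ×ˢ 𝓝 x₀] dx g :=
  (Par.evEq h).mono fun _ hy => (sec_congr hy).fderiv_eq

lemma Par.s_nonneg (π : Par Q P) (q : Q) : 0 ≤ π.s q := (norm_nonneg _).trans (π.le q)

lemma Par.bigO (π : Par Q P) (L : P →L[ℝ] F) {Z : Type} (l : Filter (Q × Z)) :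
    (fun z => L (π.α z.1)) =O[l] fun z => π.s z.1 :=
  IsBigO.of_bound ‖L‖ (Eventually.of_forall fun z => (L.le_opNorm _).trans (by
    rw [Real.norm_eq_abs, abs_of_nonneg (π.s_nonneg _)]
    exact mul_le_mul_of_nonneg_left (π.le _) (norm_nonneg _)))

lemma Par.base (π : Par Q P) {Z : Type} (l : Filter Z) :
    Tendsto (fun z : Q × Z => (π.σ z.1, z.2)) (π.l ×ˢ l) (π.l ×ˢ l) :=
  (π.lim.comp tendsto_fst).prodMk tendsto_snd

/-- `L` is the derivative in the parameter -/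
def Lin (π : Par Q P) (f : Q × X → F) (x₀ : X) (L : P →L[ℝ] F) : Prop :=
  (fun z => f z - f (π.σ z.1, z.2) - L (π.α z.1)) =o[π.l ×ˢ 𝓝 x₀] fun z => π.s z.1

/-- see the header -/
structure D0 (π : Par Q P) (f : Q × X → F) (f₀ : X → F) (x₀ : X) : Prop where
  cont : ∀ᶠ z in π.l ×ˢ 𝓝 x₀, ContinuousAt f z
  cont0 : ContinuousAt f₀ x₀
  tendsto : Tendsto f (π.l ×ˢ 𝓝 x₀) (𝓝 (f₀ x₀))
  lin : ∃ L : P →L[ℝ] F, Lin π f x₀ L

/-- functions of the parameter alone -/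
structure DP (π : Par Q P) (c : Q → F) (c₀ : F) : Prop where
  cont : ∀ᶠ q in π.l, ContinuousAt c q
  tendsto : Tendsto c π.l (𝓝 c₀)
  lin : ∃ L : P →L[ℝ] F, (fun q => c q - c (π.σ q) - L (π.α q)) =o[π.l] π.s

/-- see the header -/
structure D1 (π : Par Q P) (f : Q × X → F) (f₀ : X → F) (x₀ : X) : Prop extends D0 π f f₀ x₀ where
  cd : ∀ᶠ z in π.l ×ˢ 𝓝 x₀, ContDiffAt ℝ 1 (sec f z.1) z.2
  cd0 : ContDiffAt ℝ 1 f₀ x₀
  lim : Tendsto (dx f) (π.l ×ˢ 𝓝 x₀) (𝓝 (fderiv ℝ f₀ x₀))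

/-- see the header -/
structure D2 (π : Par Q P) (f : Q × X → F) (f₀ : X → F) (x₀ : X) : Prop extends D0 π f f₀ x₀ where
  cd : ∀ᶠ z in π.l ×ˢ 𝓝 x₀, ContDiffAt ℝ 2 (sec f z.1) z.2
  cd0 : ContDiffAt ℝ 2 f₀ x₀
  d1 : D1 π (dx f) (fderiv ℝ f₀) x₀

variable {f : Q × X → F} {f₀ : X → F} {g : Q × X → G} {g₀ : X → G} {x₀ : X}

section D0

lemma Lin.bigO {L : P →L[ℝ] F} (h : Lin π f x₀ L) :
    (fun z => f z - f (π.σ z.1, z.2)) =O[π.l ×ˢ 𝓝 x₀] fun z => π.s z.1 := by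
  simpa using h.isBigO.add (π.bigO L _)

lemma Lin.congr {f' : Q × X → F} {L : P →L[ℝ] F} (h : Lin π f x₀ L)
    (he : f' =ᶠ[π.l ×ˢ 𝓝 x₀] f) : Lin π f' x₀ L := by
  refine IsLittleO.congr' h ?_ EventuallyEq.rfl
  filter_upwards [he, (π.base _).eventually he] with z h1 h2
  rw [h1, h2]

lemma D0.graph (h : D0 π f f₀ x₀) :
    Tendsto (fun z => (z.1, f z)) (π.l ×ˢ 𝓝 x₀) (π.l ×ˢ 𝓝 (f₀ x₀)) :=
  tendsto_fst.prodMk h.tendsto

lemma D0.congr {f' : Q × X → F} {f₀' : X → F} (h : D0 π f f₀ x₀) (he : f' =ᶠ[π.l ×ˢ 𝓝 x₀] f)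
    (he0 : f₀' =ᶠ[𝓝 x₀] f₀) : D0 π f' f₀' x₀ := by
  obtain ⟨L, hL⟩ := h.lin
  refine ⟨?_, h.cont0.congr he0.symm, ?_, L, hL.congr he⟩
  · filter_upwards [h.cont, Par.evEq he] with z h1 h2 using h1.congr h2.symm
  · rw [he0.self_of_nhds]
    exact h.tendsto.congr' he.symm

lemma D0.of_cont {k : X → F} (hk : ∀ᶠ x in 𝓝 x₀, ContinuousAt k x) :
    D0 π (fun z => k z.2) k x₀ :=
  ⟨(tendsto_snd.eventually hk).mono fun z hz => ContinuousAt.comp (g := k) hz continuousAt_snd,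
    hk.self_of_nhds, hk.self_of_nhds.tendsto.comp tendsto_snd, 0, by simp [Lin]⟩

/-- uniform differentiability in the space variable -/
lemma D1.strict (h : D1 π f f₀ x₀) :
    (fun p : Q × X × X => f (p.1, p.2.1) - f (p.1, p.2.2) - fderiv ℝ f₀ x₀ (p.2.1 - p.2.2))
      =o[π.l ×ˢ 𝓝 x₀ ×ˢ 𝓝 x₀] fun p => p.2.1 - p.2.2 := by
  refine IsLittleO.of_bound fun ε hε => ?_
  have e1 : ∀ᶠ y in π.l ×ˢ 𝓝 x₀, ‖dx f y - fderiv ℝ f₀ x₀‖ ≤ ε :=
    (tendsto_iff_norm_sub_tendsto_zero.1 h.lim).eventually (eventually_le_nhds hε)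
  obtain ⟨pa, ha, pb, hb, hab⟩ := eventually_prod_iff.1 (e1.and h.cd)
  obtain ⟨r, hr, hball⟩ := nhds_basis_ball.mem_iff.1 hb
  have hB : ∀ᶠ y in 𝓝 x₀, y ∈ ball x₀ r := ball_mem_nhds x₀ hr
  filter_upwards [ha.prod_mk (hB.prod_mk hB)] with p hp
  exact (convex_ball x₀ r).norm_image_sub_le_of_norm_hasFDerivWithin_le' (𝕜 := ℝ)
    (f := sec f p.1) (f' := fderiv ℝ (sec f p.1))
    (fun y hy => ((hab hp.1 (hball hy)).2.differentiableAt
      one_ne_zero).hasFDerivAt.hasFDerivWithinAt)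
    (fun y hy => (hab hp.1 (hball hy)).1) hp.2.2 hp.2.1

lemma Lin.comp {k : Q × F → G} {k₀ : F → G} {L : P →L[ℝ] G} {L' : P →L[ℝ] F}
    (hk : D1 π k k₀ (f₀ x₀)) (hf : D0 π f f₀ x₀) (hL : Lin π k (f₀ x₀) L) (hL' : Lin π f x₀ L') :
    Lin π (fun z => k (z.1, f z)) x₀ (L + (fderiv ℝ k₀ (f₀ x₀)).comp L') := by
  have h1 := IsLittleO.comp_tendsto hL hf.graph
  have h2 := (hk.strict.comp_tendsto ((π.lim.comp tendsto_fst).prodMk
    (hf.tendsto.prodMk (hf.tendsto.comp (π.base _))))).trans_isBigO hL'.bigO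
  have h3 := ((fderiv ℝ k₀ (f₀ x₀)).isBigO_comp _ _).trans_isLittleO hL'
  refine ((h1.add h2).add h3).congr_left fun z => ?_
  simp only [Function.comp_apply, map_sub, add_apply, ContinuousLinearMap.comp_apply]
  abel

lemma D0.comp {k : Q × F → G} {k₀ : F → G} (hk : D1 π k k₀ (f₀ x₀)) (hf : D0 π f f₀ x₀) :
    D0 π (fun z => k (z.1, f z)) (fun x => k₀ (f₀ x)) x₀ := by
  obtain ⟨L, hL⟩ := hk.lin
  obtain ⟨L', hL'⟩ := hf.lin
  refine ⟨?_, hk.cont0.comp hf.cont0, hk.tendsto.comp hf.graph, _, Lin.comp hk hf hL hL'⟩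
  filter_upwards [hf.graph.eventually hk.cont, hf.cont] with z h1 h2
  exact ContinuousAt.comp (f := fun z => (z.1, f z)) h1 (continuousAt_fst.prodMk h2)

lemma D0.prodMk (hf : D0 π f f₀ x₀) (hg : D0 π g g₀ x₀) :
    D0 π (fun z => (f z, g z)) (fun x => (f₀ x, g₀ x)) x₀ := by
  obtain ⟨L, hL⟩ := hf.lin
  obtain ⟨L', hL'⟩ := hg.lin
  refine ⟨?_, hf.cont0.prodMk hg.cont0, hf.tendsto.prodMk_nhds hg.tendsto, L.prod L',
    (IsLittleO.prod_left hL hL').congr_left fun z => ?_⟩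
  · filter_upwards [hf.cont, hg.cont] with z h1 h2 using h1.prodMk h2
  · simp

end D0

section D1

lemma D1.congr {f' : Q × X → F} {f₀' : X → F} (h : D1 π f f₀ x₀) (he : f' =ᶠ[π.l ×ˢ 𝓝 x₀] f)
    (he0 : f₀' =ᶠ[𝓝 x₀] f₀) : D1 π f' f₀' x₀ := by
  refine ⟨h.toD0.congr he he0, ?_, h.cd0.congr_of_eventuallyEq he0, ?_⟩
  · filter_upwards [h.cd, Par.evEq he] with z h1 h2 using h1.congr_of_eventuallyEq (sec_congr h2)
  · rw [he0.fderiv_eq]
    exact h.lim.congr' (Par.dx_congr he).symm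

lemma D1.of_cd {k : X → F} (hk : ContDiffAt ℝ 1 k x₀) : D1 π (fun z => k z.2) k x₀ := by
  have h1 : ∀ᶠ x in 𝓝 x₀, ContDiffAt ℝ 1 k x := hk.eventually (by simp)
  refine ⟨D0.of_cont (h1.mono fun _ h => h.continuousAt), tendsto_snd.eventually h1, hk, ?_⟩
  exact (hk.continuousAt_fderiv one_ne_zero).tendsto.comp tendsto_snd

lemma D1.comp {k : Q × F → G} {k₀ : F → G} (hk : D1 π k k₀ (f₀ x₀)) (hf : D1 π f f₀ x₀) :
    D1 π (fun z => k (z.1, f z)) (fun x => k₀ (f₀ x)) x₀ := by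
  have h1 := hf.graph.eventually hk.cd
  refine ⟨D0.comp hk hf.toD0, ?_, hk.cd0.comp x₀ hf.cd0, ?_⟩
  · filter_upwards [h1, hf.cd] with z e1 e2
    exact ContDiffAt.comp (g := sec k z.1) z.2 e1 e2
  · rw [fderiv_fun_comp x₀ (hk.cd0.differentiableAt one_ne_zero)
      (hf.cd0.differentiableAt one_ne_zero)]
    have h2 := ((ContinuousLinearMap.compL ℝ X F G).isBoundedBilinearMap.continuous.tendsto
      (fderiv ℝ k₀ (f₀ x₀), fderiv ℝ f₀ x₀)).comp ((hk.lim.comp hf.graph).prodMk_nhds hf.lim)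
    refine h2.congr' ?_
    filter_upwards [h1, hf.cd] with z e1 e2
    exact (HasFDerivAt.comp (g := sec k z.1) z.2 (e1.differentiableAt one_ne_zero).hasFDerivAt
      (e2.differentiableAt one_ne_zero).hasFDerivAt).fderiv.symm

lemma D1.prodMk (hf : D1 π f f₀ x₀) (hg : D1 π g g₀ x₀) :
    D1 π (fun z => (f z, g z)) (fun x => (f₀ x, g₀ x)) x₀ := by
  refine ⟨hf.toD0.prodMk hg.toD0, ?_, hf.cd0.prodMk hg.cd0, ?_⟩
  · filter_upwards [hf.cd, hg.cd] with z h1 h2 using h1.prodMk h2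
  · rw [((hf.cd0.differentiableAt one_ne_zero).hasFDerivAt.prodMk
      (hg.cd0.differentiableAt one_ne_zero).hasFDerivAt).fderiv]
    have h2 := ((ContinuousLinearMap.prodₗᵢ ℝ (𝕜 := ℝ) (E := X) (F := F)
      (G := G)).continuous.tendsto (fderiv ℝ f₀ x₀, fderiv ℝ g₀ x₀)).comp
      (hf.lim.prodMk_nhds hg.lim)
    refine h2.congr' ?_
    filter_upwards [hf.cd, hg.cd] with z e1 e2
    exact ((e1.differentiableAt one_ne_zero).hasFDerivAt.prodMk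
      (e2.differentiableAt one_ne_zero).hasFDerivAt).fderiv.symm

lemma D1.map_cd {k : F → G} (hk : ContDiffAt ℝ 1 k (f₀ x₀)) (hf : D1 π f f₀ x₀) :
    D1 π (fun z => k (f z)) (fun x => k (f₀ x)) x₀ :=
  D1.comp (k := fun z => k z.2) (D1.of_cd hk) hf

lemma D1.bilin (B : F →L[ℝ] G →L[ℝ] H) (hf : D1 π f f₀ x₀) (hg : D1 π g g₀ x₀) :
    D1 π (fun z => B (f z) (g z)) (fun x => B (f₀ x) (g₀ x)) x₀ :=
  (hf.prodMk hg).map_cd (k := fun p : F × G => B p.1 p.2)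
    B.isBoundedBilinearMap.contDiff.contDiffAt

lemma D1.add {f' : Q × X → F} {f₀' : X → F} (hf : D1 π f f₀ x₀) (hg : D1 π f' f₀' x₀) :
    D1 π (fun z => f z + f' z) (fun x => f₀ x + f₀' x) x₀ :=
  (hf.prodMk hg).map_cd (k := fun p : F × F => p.1 + p.2) (contDiffAt_fst.add contDiffAt_snd)

lemma D1.map (L : F →L[ℝ] G) (hf : D1 π f f₀ x₀) :
    D1 π (fun z => L (f z)) (fun x => L (f₀ x)) x₀ :=
  hf.map_cd L.contDiff.contDiffAt

/-- a function of the parameter alone -/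
lemma D1.param {c : Q → F} {c₀ : F} (hc : DP π c c₀) :
    D1 π (fun z : Q × X => c z.1) (fun _ => c₀) x₀ := by
  obtain ⟨L, hL⟩ := hc.lin
  refine ⟨⟨(tendsto_fst.eventually hc.cont).mono fun z hz =>
    ContinuousAt.comp (g := c) hz continuousAt_fst, continuousAt_const,
    hc.tendsto.comp tendsto_fst, L, hL.comp_tendsto tendsto_fst⟩, Eventually.of_forall fun z => contDiffAt_const (c := c z.1),
    contDiffAt_const, ?_⟩
  rw [fderiv_fun_const]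
  refine tendsto_const_nhds.congr fun z => ?_
  exact (hasFDerivAt_const (c z.1) z.2).fderiv.symm

end D1

section D2

lemma D2.toD1 (h : D2 π f f₀ x₀) : D1 π f f₀ x₀ :=
  ⟨h.toD0, h.cd.mono fun _ h => h.of_le (by norm_num), h.cd0.of_le (by norm_num), h.d1.tendsto⟩

lemma D2.congr {f' : Q × X → F} {f₀' : X → F} (h : D2 π f f₀ x₀) (he : f' =ᶠ[π.l ×ˢ 𝓝 x₀] f)
    (he0 : f₀' =ᶠ[𝓝 x₀] f₀) : D2 π f' f₀' x₀ := by
  refine ⟨h.toD0.congr he he0, ?_, h.cd0.congr_of_eventuallyEq he0,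
    h.d1.congr (Par.dx_congr he) he0.fderiv⟩
  filter_upwards [h.cd, Par.evEq he] with z h1 h2 using h1.congr_of_eventuallyEq (sec_congr h2)

lemma D2.of_cd {k : X → F} (hk : ContDiffAt ℝ 2 k x₀) : D2 π (fun z => k z.2) k x₀ := by
  have h1 : ∀ᶠ x in 𝓝 x₀, ContDiffAt ℝ 2 k x := hk.eventually (by simp)
  exact ⟨D0.of_cont (h1.mono fun _ h => h.continuousAt), tendsto_snd.eventually h1, hk,
    D1.of_cd (hk.fderiv_right (by norm_num))⟩

lemma D2.ev0 (h : D2 π f f₀ x₀) : ∀ᶠ x in 𝓝 x₀, DifferentiableAt ℝ f₀ x :=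
  (h.cd0.eventually (by simp)).mono fun _ h => h.differentiableAt (by norm_num)

lemma D2.comp {k : Q × F → G} {k₀ : F → G} (hk : D2 π k k₀ (f₀ x₀)) (hf : D2 π f f₀ x₀) :
    D2 π (fun z => k (z.1, f z)) (fun x => k₀ (f₀ x)) x₀ := by
  have h1 := hf.graph.eventually hk.cd
  refine ⟨(hk.toD1.comp hf.toD1).toD0, ?_, hk.cd0.comp x₀ hf.cd0, ?_⟩
  · filter_upwards [h1, hf.cd] with z e1 e2
    exact ContDiffAt.comp (g := sec k z.1) z.2 e1 e2
  · refine (D1.bilin (ContinuousLinearMap.compL ℝ X F G) (hk.d1.comp hf.toD1) hf.d1).congr ?_ ?_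
    · filter_upwards [h1, hf.cd] with z e1 e2
      exact (HasFDerivAt.comp (g := sec k z.1) z.2 (e1.differentiableAt (by norm_num)).hasFDerivAt
        (e2.differentiableAt (by norm_num)).hasFDerivAt).fderiv
    · filter_upwards [hf.cont0.eventually hk.ev0, hf.ev0] with x e1 e2
      exact (HasFDerivAt.comp (g := k₀) x e1.hasFDerivAt e2.hasFDerivAt).fderiv

lemma D2.prodMk (hf : D2 π f f₀ x₀) (hg : D2 π g g₀ x₀) :
    D2 π (fun z => (f z, g z)) (fun x => (f₀ x, g₀ x)) x₀ := by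
  refine ⟨hf.toD0.prodMk hg.toD0, ?_, hf.cd0.prodMk hg.cd0, ?_⟩
  · filter_upwards [hf.cd, hg.cd] with z h1 h2 using h1.prodMk h2
  · refine ((hf.d1.prodMk hg.d1).map (ContinuousLinearMap.prodₗᵢ ℝ (𝕜 := ℝ) (E := X) (F := F)
      (G := G)).toContinuousLinearEquiv.toContinuousLinearMap).congr ?_ ?_
    · filter_upwards [hf.cd, hg.cd] with z e1 e2
      exact ((e1.differentiableAt (by norm_num)).hasFDerivAt.prodMk
        (e2.differentiableAt (by norm_num)).hasFDerivAt).fderiv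
    · filter_upwards [hf.ev0, hg.ev0] with x e1 e2
      exact (e1.hasFDerivAt.prodMk e2.hasFDerivAt).fderiv

lemma D2.map_cd {k : F → G} (hk : ContDiffAt ℝ 2 k (f₀ x₀)) (hf : D2 π f f₀ x₀) :
    D2 π (fun z => k (f z)) (fun x => k (f₀ x)) x₀ :=
  D2.comp (k := fun z => k z.2) (D2.of_cd hk) hf

lemma D2.pt : D2 π (fun z : Q × X => z.2) (fun x => x) x₀ := D2.of_cd contDiffAt_id

lemma D2.const (c : F) : D2 π (fun _ : Q × X => c) (fun _ => c) x₀ :=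
  D2.of_cd (k := fun _ => c) contDiffAt_const

lemma D2.bilin (B : F →L[ℝ] G →L[ℝ] H) (hf : D2 π f f₀ x₀) (hg : D2 π g g₀ x₀) :
    D2 π (fun z => B (f z) (g z)) (fun x => B (f₀ x) (g₀ x)) x₀ :=
  (hf.prodMk hg).map_cd (k := fun p : F × G => B p.1 p.2)
    B.isBoundedBilinearMap.contDiff.contDiffAt

lemma D2.add {f' : Q × X → F} {f₀' : X → F} (hf : D2 π f f₀ x₀) (hg : D2 π f' f₀' x₀) :
    D2 π (fun z => f z + f' z) (fun x => f₀ x + f₀' x) x₀ :=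
  (hf.prodMk hg).map_cd (k := fun p : F × F => p.1 + p.2) (contDiffAt_fst.add contDiffAt_snd)

lemma D2.sub {f' : Q × X → F} {f₀' : X → F} (hf : D2 π f f₀ x₀) (hg : D2 π f' f₀' x₀) :
    D2 π (fun z => f z - f' z) (fun x => f₀ x - f₀' x) x₀ :=
  (hf.prodMk hg).map_cd (k := fun p : F × F => p.1 - p.2) (contDiffAt_fst.sub contDiffAt_snd)

lemma D2.smul {c : Q × X → ℝ} {c₀ : X → ℝ} (hc : D2 π c c₀ x₀) (hf : D2 π f f₀ x₀) :
    D2 π (fun z => c z • f z) (fun x => c₀ x • f₀ x) x₀ :=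
  D2.bilin (ContinuousLinearMap.lsmul ℝ ℝ) hc hf

lemma D2.mul {c d : Q × X → ℝ} {c₀ d₀ : X → ℝ} (hc : D2 π c c₀ x₀) (hd : D2 π d d₀ x₀) :
    D2 π (fun z => c z * d z) (fun x => c₀ x * d₀ x) x₀ :=
  hc.smul hd

lemma D2.map (L : F →L[ℝ] G) (hf : D2 π f f₀ x₀) :
    D2 π (fun z => L (f z)) (fun x => L (f₀ x)) x₀ :=
  hf.map_cd L.contDiff.contDiffAt

lemma D2.clm_apply {A : Q × X → F →L[ℝ] G} {A₀ : X → F →L[ℝ] G} (hA : D2 π A A₀ x₀)
    (hf : D2 π f f₀ x₀) : D2 π (fun z => A z (f z)) (fun x => A₀ x (f₀ x)) x₀ :=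
  D2.bilin (ContinuousLinearMap.apply ℝ G) hf hA

/-- a function of the parameter alone -/
lemma D2.param {c : Q → F} {c₀ : F} (hc : DP π c c₀) :
    D2 π (fun z : Q × X => c z.1) (fun _ => c₀) x₀ := by
  refine ⟨(D1.param hc).toD0, Eventually.of_forall fun z => contDiffAt_const (c := c z.1),
    contDiffAt_const, (D1.of_cd (k := fun _ => 0) contDiffAt_const).congr
    (Eventually.of_forall fun z => (hasFDerivAt_const (c z.1) z.2).fderiv)
    (Eventually.of_forall fun x => (hasFDerivAt_const c₀ x).fderiv)⟩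

end D2

end Vale.Agent.P218GE
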