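import Mathlib

/-! # P218, block GE: foot points on a regular level set with uniform bounds -/

open Set Filter Topology Metric
open scoped RealInnerProductSpace

namespace Vale.Agent.P218GE

variable {E : Type} [NormedAddCommGroup E] [InnerProductSpace ℝ E] [FiniteDimensional ℝ E]

lemma inner_grad (f : E → ℝ) (x v : E) : ⟪gradient f x, v⟫ = fderiv ℝ f x v := by
  rw [gradient, InnerProductSpace.toDual_symm_apply]

lemma norm_grad (f : E → ℝ) (x : E) : ‖gradient f x‖ = ‖fderiv ℝ f x‖ := by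
  rw [gradient, LinearIsometryEquiv.norm_map]

lemma cdAt_grad {f : E → ℝ} {x : E} {n k : WithTop ℕ∞} (hf : ContDiffAt ℝ k f x)
    (h : n + 1 ≤ k) : ContDiffAt ℝ n (gradient f) x :=
  (InnerProductSpace.toDual ℝ E).symm.toContinuousLinearEquiv.contDiff.contDiffAt.comp x
    (hf.fderiv_right h)

/-- the unit normal of the level sets of `f` -/
noncomputable def nor (f : E → ℝ) (x : E) : E := ‖gradient f x‖⁻¹ • gradient f x

/-- a function with uniform bounds in the tube `{|f| < δ}` -/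
structure Lev (f : E → ℝ) (δ c K : ℝ) : Prop where
  δpos : 0 < δ
  cpos : 0 < c
  cK : c ≤ K
  cont : Continuous f
  cd : ∀ x, |f x| < δ → ContDiffAt ℝ 2 f x
  lo : ∀ x, |f x| < δ → c ≤ ‖gradient f x‖
  hi : ∀ x, |f x| < δ → ‖gradient f x‖ ≤ K
  hess : ∀ x, |f x| < δ → ‖fderiv ℝ (gradient f) x‖ ≤ K

variable {f : E → ℝ} {δ c K : ℝ}

lemma Lev.Kpos (h : Lev f δ c K) : 0 < K := h.cpos.trans_le h.cK

lemma Lev.diffAt (h : Lev f δ c K) {x : E} (hx : |f x| < δ) : DifferentiableAt ℝ f x :=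
  (h.cd x hx).differentiableAt (by norm_num)

lemma Lev.diffAt_grad (h : Lev f δ c K) {x : E} (hx : |f x| < δ) :
    DifferentiableAt ℝ (gradient f) x :=
  (cdAt_grad (n := 1) (h.cd x hx) (by norm_num)).differentiableAt (by norm_num)

lemma Lev.norm_nor (h : Lev f δ c K) {x : E} (hx : |f x| < δ) : ‖nor f x‖ = 1 := by
  have := h.cpos.trans_le (h.lo x hx)
  rw [nor, norm_smul, norm_inv, norm_norm, inv_mul_cancel₀ this.ne']

lemma Lev.grad_eq (h : Lev f δ c K) {x : E} (hx : |f x| < δ) :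
    gradient f x = ‖gradient f x‖ • nor f x := by
  have := h.cpos.trans_le (h.lo x hx)
  rw [nor, smul_smul, mul_inv_cancel₀ this.ne', one_smul]

/-- a ball about a point of the half tube lies in the tube -/
lemma Lev.near (h : Lev f δ c K) {x y : E} (hx : |f x| ≤ δ / 2) (hy : K * ‖y - x‖ < δ / 2) :
    |f y| < δ := by
  set g : ℝ → ℝ := fun s => f (x + s • (y - x)) with hg
  have hgc : Continuous g := h.cont.comp (by fun_prop)
  by_contra hcon
  push Not at hcon
  set A : Set ℝ := {s | s ∈ Icc (0 : ℝ) 1 ∧ δ ≤ |g s|} with hA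
  have hAc : IsClosed A := isClosed_Icc.inter (isClosed_le continuous_const hgc.abs)
  have hAn : A.Nonempty := ⟨1, ⟨zero_le_one, le_rfl⟩, by simpa [hg] using hcon⟩
  have hAb : BddBelow A := ⟨0, fun s hs => hs.1.1⟩
  have hs := hAc.csInf_mem hAn hAb
  set s₀ := sInf A with hs₀
  have hg0 : g 0 = f x := by simp [hg]
  have hδ := h.δpos
  have hpos : 0 < s₀ := by
    rcases hs.1.1.eq_or_lt with h0 | h0
    · have := hs.2
      rw [← h0, hg0] at this
      linarith
    · exact h0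
  have hin : ∀ s ∈ Ioo 0 s₀, |g s| < δ := fun s hs' => by
    by_contra hc
    push Not at hc
    have : s₀ ≤ s := csInf_le hAb ⟨⟨hs'.1.le, hs'.2.le.trans hs.1.2⟩, hc⟩
    linarith [hs'.2]
  have hd : ∀ s ∈ Ioo 0 s₀, HasDerivAt g (fderiv ℝ f (x + s • (y - x)) (y - x)) s := fun s hs' => by
    have h1 : HasDerivAt (fun s : ℝ => x + s • (y - x)) (y - x) s := by
      simpa using ((hasDerivAt_id s).smul_const (y - x)).const_add x
    exact (h.diffAt (hin s hs')).hasFDerivAt.comp_hasDerivAt s h1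
  obtain ⟨ξ, hξ, he⟩ := exists_hasDerivAt_eq_slope g _ hpos hgc.continuousOn hd
  have h1 : |fderiv ℝ f (x + ξ • (y - x)) (y - x)| ≤ K * ‖y - x‖ := by
    refine ((fderiv ℝ f _).le_opNorm _).trans ?_
    gcongr
    rw [← norm_grad]
    exact h.hi _ (hin ξ hξ)
  rw [he, sub_zero, abs_div, abs_of_pos hpos, div_le_iff₀ hpos, hg0] at h1
  have h2 : K * ‖y - x‖ * s₀ ≤ K * ‖y - x‖ :=
    mul_le_of_le_one_right (mul_nonneg h.Kpos.le (norm_nonneg _)) hs.1.2
  have h3 := hs.2
  have h4 := abs_sub_abs_le_abs_sub (g s₀) (f x)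
  linarith

lemma Lev.ball_sub (h : Lev f δ c K) {x y : E} (hx : |f x| ≤ δ / 2)
    (hy : y ∈ ball x (δ / (2 * K))) : |f y| < δ := by
  refine h.near hx ?_
  rw [mem_ball, dist_eq_norm, lt_div_iff₀ (by have := h.Kpos; positivity)] at hy
  linarith

lemma Lev.lip (h : Lev f δ c K) {x y z : E} (hx : |f x| ≤ δ / 2)
    (hy : y ∈ ball x (δ / (2 * K))) (hz : z ∈ ball x (δ / (2 * K))) :
    |f z - f y| ≤ K * ‖z - y‖ :=
  (convex_ball x _).norm_image_sub_le_of_norm_fderiv_le (𝕜 := ℝ) (f := f)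
    (fun p hp => h.diffAt (h.ball_sub hx hp))
    (fun p hp => by rw [← norm_grad]; exact h.hi _ (h.ball_sub hx hp)) hy hz

lemma Lev.lip_grad (h : Lev f δ c K) {x y z : E} (hx : |f x| ≤ δ / 2)
    (hy : y ∈ ball x (δ / (2 * K))) (hz : z ∈ ball x (δ / (2 * K))) :
    ‖gradient f z - gradient f y‖ ≤ K * ‖z - y‖ :=
  (convex_ball x _).norm_image_sub_le_of_norm_fderiv_le (𝕜 := ℝ) (f := gradient f)
    (fun _ hp => h.diffAt_grad (h.ball_sub hx hp))
    (fun _ hp => h.hess _ (h.ball_sub hx hp)) hy hz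

lemma Lev.taylor (h : Lev f δ c K) {x y : E} (hx : |f x| ≤ δ / 2)
    (hy : y ∈ ball x (δ / (2 * K))) :
    |f y - f x - ⟪gradient f x, y - x⟫| ≤ K * ‖y - x‖ ^ 2 := by
  have hδ := h.δpos
  have hK := h.Kpos
  have hx0 : x ∈ ball x (δ / (2 * K)) := mem_ball_self (by positivity)
  have hsub : closedBall x ‖y - x‖ ⊆ ball x (δ / (2 * K)) :=
    closedBall_subset_ball (by simpa [dist_eq_norm] using hy)
  have key := (convex_closedBall x ‖y - x‖).norm_image_sub_le_of_norm_hasFDerivWithin_le'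
    (𝕜 := ℝ) (f := f) (f' := fderiv ℝ f) (φ := fderiv ℝ f x) (C := K * ‖y - x‖)
    (fun p hp => (h.diffAt (h.ball_sub hx (hsub hp))).hasFDerivAt.hasFDerivWithinAt)
    (fun p hp => by
      have e : ‖fderiv ℝ f p - fderiv ℝ f x‖ = ‖gradient f p - gradient f x‖ := by
        rw [gradient, gradient, ← map_sub, LinearIsometryEquiv.norm_map]
      rw [e]
      refine (h.lip_grad hx hx0 (hsub hp)).trans ?_
      gcongr
      simpa [dist_eq_norm] using hp)
    (mem_closedBall_self (norm_nonneg _)) (y := y) (by simp [dist_eq_norm])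
  rw [inner_grad]
  calc _ ≤ K * ‖y - x‖ * ‖y - x‖ := key
    _ = _ := by ring

omit [FiniteDimensional ℝ E] in
lemma norm_unit_sub_le {u v : E} {c : ℝ} (hc : 0 < c) (hu : c ≤ ‖u‖) (hv : c ≤ ‖v‖) :
    ‖‖u‖⁻¹ • u - ‖v‖⁻¹ • v‖ ≤ 2 / c * ‖u - v‖ := by
  have hu0 : 0 < ‖u‖ := hc.trans_le hu
  have hv0 : 0 < ‖v‖ := hc.trans_le hv
  have e : ‖u‖⁻¹ • u - ‖v‖⁻¹ • v = ‖u‖⁻¹ • (u - v) + (‖u‖⁻¹ - ‖v‖⁻¹) • v := by
    rw [smul_sub, sub_smul]; abel
  have h1 : ‖‖u‖⁻¹ • (u - v)‖ ≤ 1 / c * ‖u - v‖ := by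
    rw [norm_smul, norm_inv, norm_norm, one_div]
    gcongr
  have h2 : ‖(‖u‖⁻¹ - ‖v‖⁻¹) • v‖ ≤ 1 / c * ‖u - v‖ := by
    have e2 : ‖u‖⁻¹ - ‖v‖⁻¹ = (‖v‖ - ‖u‖) / (‖u‖ * ‖v‖) := by field_simp
    rw [norm_smul, e2, Real.norm_eq_abs, abs_div, abs_of_pos (mul_pos hu0 hv0)]
    have h3 : |‖v‖ - ‖u‖| ≤ ‖u - v‖ := by
      rw [norm_sub_rev]; exact abs_norm_sub_norm_le v u
    calc |‖v‖ - ‖u‖| / (‖u‖ * ‖v‖) * ‖v‖ = 1 / ‖u‖ * |‖v‖ - ‖u‖| := by field_simp
      _ ≤ 1 / c * ‖u - v‖ := by gcongr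
  rw [e]
  calc _ ≤ _ := norm_add_le _ _
    _ ≤ 1 / c * ‖u - v‖ + 1 / c * ‖u - v‖ := add_le_add h1 h2
    _ = _ := by ring

lemma Lev.lip_nor (h : Lev f δ c K) {x y z : E} (hx : |f x| ≤ δ / 2)
    (hy : y ∈ ball x (δ / (2 * K))) (hz : z ∈ ball x (δ / (2 * K))) :
    ‖nor f z - nor f y‖ ≤ 2 * K / c * ‖z - y‖ := by
  have hc := h.cpos
  refine (norm_unit_sub_le hc (h.lo _ (h.ball_sub hx hz)) (h.lo _ (h.ball_sub hx hy))).trans ?_
  calc 2 / c * ‖gradient f z - gradient f y‖ ≤ 2 / c * (K * ‖z - y‖) := by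
        gcongr; exact h.lip_grad hx hy hz
    _ = _ := by ring

/-- the radius of the tube of foot points -/
noncomputable def rad (δ c K : ℝ) : ℝ := min (δ / (4 * K)) (c / (8 * K))

lemma Lev.rad_pos (h : Lev f δ c K) : 0 < rad δ c K := by
  have := h.δpos; have := h.cpos; have := h.Kpos
  exact lt_min (by positivity) (by positivity)

lemma Lev.rad_le (h : Lev f δ c K) : K * rad δ c K ≤ δ / 4 ∧ K * rad δ c K ≤ c / 8 := by
  have hK := h.Kpos
  constructor
  · calc K * rad δ c K ≤ K * (δ / (4 * K)) := by gcongr; exact min_le_left _ _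
      _ = _ := by field_simp
  · calc K * rad δ c K ≤ K * (c / (8 * K)) := by gcongr; exact min_le_right _ _
      _ = _ := by field_simp

lemma Lev.mem_ball_of (h : Lev f δ c K) {x y : E} (hy : ‖y - x‖ < 2 * rad δ c K) :
    y ∈ ball x (δ / (2 * K)) := by
  have hK := h.Kpos
  rw [mem_ball, dist_eq_norm, lt_div_iff₀ (by positivity)]
  nlinarith [h.rad_le.1]

/-- uniqueness of the foot point -/
lemma Lev.foot_unique (h : Lev f δ c K) {p q : E} {t s : ℝ} (hp : f p = 0) (hq : f q = 0)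
    (ht : |t| < rad δ c K) (hs : |s| < rad δ c K) (he : p + t • nor f p = q + s • nor f q) :
    p = q ∧ t = s := by
  have hδ := h.δpos
  have hc := h.cpos
  have hK := h.Kpos
  have hp0 : |f p| ≤ δ / 2 := by rw [hp, abs_zero]; positivity
  have hp1 : |f p| < δ := by rw [hp, abs_zero]; positivity
  have hq1 : |f q| < δ := by rw [hq, abs_zero]; positivity
  have e1 : q - p = t • nor f p - s • nor f q := by
    rw [sub_eq_sub_iff_add_eq_add, add_comm (t • nor f p), he]
  have hd : ‖q - p‖ < 2 * rad δ c K := by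
    rw [e1]
    refine (norm_sub_le _ _).trans_lt ?_
    rw [norm_smul, norm_smul, h.norm_nor hp1, h.norm_nor hq1, Real.norm_eq_abs, Real.norm_eq_abs]
    linarith
  have hqb := h.mem_ball_of hd
  have hpb : p ∈ ball p (δ / (2 * K)) := mem_ball_self (by positivity)
  have h1 := h.taylor hp0 hqb
  rw [hp, hq, sub_zero, zero_sub, abs_neg, h.grad_eq hp1, real_inner_smul_left, abs_mul,
    abs_norm] at h1
  have h2 : c * |⟪nor f p, q - p⟫| ≤ K * ‖q - p‖ ^ 2 :=
    le_trans (by gcongr; exact h.lo p hp1) h1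
  have h3 := h.lip_nor hp0 hpb hqb
  have e2 : q - p = (t - s) • nor f p - s • (nor f q - nor f p) := by
    rw [e1, sub_smul, smul_sub]; abel
  have e3 : ‖q - p‖ ^ 2 = (t - s) * ⟪nor f p, q - p⟫ - s * ⟪nor f q - nor f p, q - p⟫ := by
    rw [← real_inner_self_eq_norm_sq, ← real_inner_smul_left, ← real_inner_smul_left,
      ← inner_sub_left, ← e2]
  have h4 : |(t - s) * ⟪nor f p, q - p⟫| ≤ 1 / 4 * ‖q - p‖ ^ 2 := by
    rw [abs_mul]
    have h5 : |t - s| ≤ 2 * rad δ c K := (abs_sub _ _).trans (by linarith)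
    have h6 : |⟪nor f p, q - p⟫| ≤ K / c * ‖q - p‖ ^ 2 := by
      rw [div_mul_eq_mul_div, le_div_iff₀ hc]; linarith
    calc |t - s| * |⟪nor f p, q - p⟫| ≤ 2 * rad δ c K * (K / c * ‖q - p‖ ^ 2) := by
          have := h.rad_pos
          gcongr
      _ = 2 * (K * rad δ c K) / c * ‖q - p‖ ^ 2 := by ring
      _ ≤ 2 * (c / 8) / c * ‖q - p‖ ^ 2 := by gcongr; exact h.rad_le.2
      _ = _ := by field_simp; ring
  have h7 : |s * ⟪nor f q - nor f p, q - p⟫| ≤ 1 / 4 * ‖q - p‖ ^ 2 := by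
    rw [abs_mul]
    calc |s| * |⟪nor f q - nor f p, q - p⟫| ≤ rad δ c K * (2 * K / c * ‖q - p‖ * ‖q - p‖) := by
          have := h.rad_pos
          gcongr
          exact (abs_real_inner_le_norm _ _).trans (by gcongr)
      _ = 2 * (K * rad δ c K) / c * ‖q - p‖ ^ 2 := by ring
      _ ≤ 2 * (c / 8) / c * ‖q - p‖ ^ 2 := by gcongr; exact h.rad_le.2
      _ = _ := by field_simp; ring
  have h8 : ‖q - p‖ ^ 2 ≤ 0 := by
    have := le_abs_self ((t - s) * ⟪nor f p, q - p⟫)
    have := neg_abs_le (s * ⟪nor f q - nor f p, q - p⟫)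
    linarith
  have h9 : q = p := by
    rw [← sub_eq_zero, ← norm_eq_zero]
    exact pow_eq_zero_iff (two_ne_zero) |>.1 (le_antisymm h8 (sq_nonneg _))
  subst h9
  refine ⟨rfl, ?_⟩
  have h10 : (t - s) • nor f q = 0 := by rw [sub_smul, sub_eq_zero]; simpa using he
  have h11 := congrArg norm h10
  rw [norm_smul, h.norm_nor hq1, norm_zero, mul_one, norm_eq_zero] at h11
  linarith

/-- the value of `f` on a normal segment -/
lemma Lev.val_foot (h : Lev f δ c K) {p : E} {t : ℝ} (hp : f p = 0) (ht : |t| < 2 * rad δ c K) :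
    |f (p + t • nor f p) - t * ‖gradient f p‖| ≤ K * t ^ 2 := by
  have hδ := h.δpos
  have hp0 : |f p| ≤ δ / 2 := by rw [hp, abs_zero]; positivity
  have hp1 : |f p| < δ := by rw [hp, abs_zero]; positivity
  have e : ‖p + t • nor f p - p‖ = |t| := by
    rw [add_sub_cancel_left, norm_smul, h.norm_nor hp1, mul_one, Real.norm_eq_abs]
  have h1 := h.taylor hp0 (h.mem_ball_of (y := p + t • nor f p) (by rw [e]; exact ht))
  rw [e, hp, sub_zero, add_sub_cancel_left, real_inner_smul_right, sq_abs] at h1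
  have e2 : ⟪gradient f p, nor f p⟫ = ‖gradient f p‖ := by
    conv_lhs => rw [h.grad_eq hp1]
    rw [real_inner_smul_left, real_inner_self_eq_norm_sq, h.norm_nor hp1]; ring
  rwa [e2] at h1

/-- on a normal segment `f` has the sign of `t` and is comparable with `t` -/
lemma Lev.sign_foot (h : Lev f δ c K) {p : E} {t : ℝ} (hp : f p = 0) (ht : |t| < rad δ c K) :
    c / 2 * t ^ 2 ≤ t * f (p + t • nor f p) ∧ |f (p + t • nor f p)| ≤ 2 * K * |t| := by
  have hδ := h.δpos
  have hp1 : |f p| < δ := by rw [hp, abs_zero]; positivity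
  have hr := h.rad_pos
  have h1 := h.val_foot hp (t := t) (by linarith)
  have h2 := h.lo p hp1
  have h3 := h.hi p hp1
  have h4 : K * |t| ≤ c / 8 := le_trans (by have := h.Kpos; gcongr) h.rad_le.2
  have h5 : K * t ^ 2 ≤ c / 8 * |t| := by
    rw [← sq_abs]; nlinarith [abs_nonneg t]
  have hc := h.cpos
  have hcK := h.cK
  set u := f (p + t • nor f p)
  set γ := ‖gradient f p‖
  constructor
  · have h6 : |t * (u - t * γ)| ≤ |t| * (c / 8 * |t|) := by
      rw [abs_mul]; gcongr; linarith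
    have h7 := neg_abs_le (t * (u - t * γ))
    have h8 : |t| * |t| = t ^ 2 := by rw [← sq, sq_abs]
    nlinarith [sq_nonneg t]
  · have h6 : |u| ≤ |u - t * γ| + |t * γ| := by
      simpa using abs_add_le (u - t * γ) (t * γ)
    have h7 : |t * γ| ≤ |t| * K := by
      rw [abs_mul, abs_of_nonneg (norm_nonneg _)]; gcongr
    nlinarith [abs_nonneg t]

/-- a zero of `f` near a point where `f` is small -/
lemma Lev.exists_zero (h : Lev f δ c K) {x : E} (hx : |f x| < c * rad δ c K / 2) :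
    ∃ y, f y = 0 ∧ ‖y - x‖ ≤ 2 * |f x| / c := by
  have hδ := h.δpos
  have hc := h.cpos
  have hK := h.Kpos
  have hr := h.rad_pos
  have hcK := h.cK
  have hx0 : |f x| ≤ δ / 2 := by nlinarith [h.rad_le.1]
  have hx1 : |f x| < δ := by linarith
  set t : ℝ := -2 * f x / c with ht
  have hta : |t| = 2 * |f x| / c := by
    rw [ht, abs_div, abs_mul, abs_of_pos hc]; norm_num
  have htr : |t| < rad δ c K := by rw [hta, div_lt_iff₀ hc]; linarith
  have e : ‖x + t • nor f x - x‖ = |t| := by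
    rw [add_sub_cancel_left, norm_smul, h.norm_nor hx1, mul_one, Real.norm_eq_abs]
  have h1 := h.taylor hx0 (h.mem_ball_of (y := x + t • nor f x) (by rw [e]; linarith))
  have e2 : ⟪gradient f x, nor f x⟫ = ‖gradient f x‖ := by
    conv_lhs => rw [h.grad_eq hx1]
    rw [real_inner_smul_left, real_inner_self_eq_norm_sq, h.norm_nor hx1]; ring
  rw [e, add_sub_cancel_left, real_inner_smul_right, e2] at h1
  have h2 := h.lo x hx1
  have h4 : K * |t| ≤ c / 8 := le_trans (by gcongr) h.rad_le.2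
  have h5 : K * |t| ^ 2 ≤ |f x| / 4 := by
    calc K * |t| ^ 2 = K * |t| * |t| := by ring
      _ ≤ c / 8 * |t| := by gcongr
      _ = _ := by rw [hta]; field_simp; ring
  have hprod : f x * f (x + t • nor f x) ≤ 0 := by
    set u := f (x + t • nor f x)
    set γ := ‖gradient f x‖
    have h6 : |f x * (u - f x - t * γ)| ≤ |f x| * (|f x| / 4) := by
      rw [abs_mul]; gcongr; linarith
    have h7 := le_abs_self (f x * (u - f x - t * γ))
    have h8 : |f x| * |f x| = f x ^ 2 := by rw [← sq, sq_abs]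
    have h9 : f x * (t * γ) ≤ -2 * f x ^ 2 := by
      have e3 : f x * (t * γ) = -2 * f x ^ 2 * (γ / c) := by rw [ht]; field_simp
      have e4 : 1 ≤ γ / c := by rw [le_div_iff₀ hc]; linarith
      rw [e3]; nlinarith [sq_nonneg (f x)]
    nlinarith [sq_nonneg (f x)]
  have hgc : Continuous fun s : ℝ => f (x + (s * t) • nor f x) := h.cont.comp (by fun_prop)
  have hmem : (0 : ℝ) ∈ uIcc (f (x + ((0 : ℝ) * t) • nor f x)) (f (x + ((1 : ℝ) * t) • nor f x)) := by
    rw [zero_mul, zero_smul, add_zero, one_mul, mem_uIcc]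
    rcases le_total 0 (f x) with h0 | h0
    · rcases h0.eq_or_lt with h0 | h0
      · rw [← h0]; rcases le_total 0 (f (x + t • nor f x)) with h' | h'
        · exact Or.inl ⟨le_rfl, h'⟩
        · exact Or.inr ⟨h', le_rfl⟩
      · exact Or.inr ⟨by nlinarith, h0.le⟩
    · rcases h0.eq_or_lt with h0 | h0
      · rw [h0]; rcases le_total 0 (f (x + t • nor f x)) with h' | h'
        · exact Or.inl ⟨le_rfl, h'⟩
        · exact Or.inr ⟨h', le_rfl⟩
      · exact Or.inl ⟨h0.le, by nlinarith⟩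
  obtain ⟨s, hs, hs0⟩ := intermediate_value_uIcc (a := (0 : ℝ)) (b := 1) hgc.continuousOn hmem
  refine ⟨_, hs0, ?_⟩
  rw [uIcc_of_le zero_le_one] at hs
  rw [add_sub_cancel_left, norm_smul, h.norm_nor hx1, mul_one, Real.norm_eq_abs, abs_mul, ← hta,
    abs_of_nonneg hs.1]
  exact mul_le_of_le_one_left (abs_nonneg _) hs.2

/-- existence of the foot point -/
lemma Lev.exists_foot (h : Lev f δ c K) {x : E} (hx : |f x| < c * rad δ c K / 2) :
    ∃ p t, f p = 0 ∧ |t| ≤ 2 * |f x| / c ∧ x = p + t • nor f p := by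
  obtain ⟨y, hy0, hy⟩ := h.exists_zero hx
  have hδ := h.δpos
  have hcomp : IsCompact ({p | f p = 0} ∩ closedBall x ‖y - x‖) :=
    (isCompact_closedBall x _).inter_left (isClosed_eq h.cont continuous_const)
  obtain ⟨p, hp, hmin⟩ := hcomp.exists_isMinOn ⟨y, hy0, by simp [dist_eq_norm]⟩
    (f := fun p => ‖p - x‖ ^ 2) (by fun_prop)
  have hp0 : f p = 0 := hp.1
  have hp1 : |f p| < δ := by rw [hp0, abs_zero]; positivity
  have hpd : ‖p - x‖ ≤ ‖y - x‖ := by simpa [dist_eq_norm] using hp.2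
  have hmin' : IsMinOn (fun p => ‖p - x‖ ^ 2) {q | f q = f p} p := by
    intro q hq
    rw [hp0] at hq
    by_cases hqb : q ∈ closedBall x ‖y - x‖
    · exact hmin ⟨hq, hqb⟩
    · rw [mem_closedBall, dist_eq_norm, not_le] at hqb
      change ‖p - x‖ ^ 2 ≤ ‖q - x‖ ^ 2
      gcongr
      linarith
  have hφ : HasStrictFDerivAt (fun p => ‖p - x‖ ^ 2) (2 • innerSL ℝ (p - x)) p := by
    have h1 : HasStrictFDerivAt (fun p : E => p - x) (ContinuousLinearMap.id ℝ E) p :=
      (hasStrictFDerivAt_id p).sub_const x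
    simpa using (hasStrictFDerivAt_norm_sq (p - x)).comp p h1
  obtain ⟨a, b, hab, he⟩ := IsLocalExtrOn.exists_multipliers_of_hasStrictFDerivAt_1d
    (Or.inl hmin'.localize) ((h.cd p hp1).hasStrictFDerivAt (by norm_num)) hφ
  have he' : a • gradient f p + (2 * b) • (p - x) = 0 := by
    apply ext_inner_right ℝ
    intro v
    have := congrArg (fun L : E →L[ℝ] ℝ => L v) he
    simp only [add_apply, smul_apply, smul_eq_mul, innerSL_apply_apply, zero_apply,
      nsmul_eq_mul] at this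
    rw [inner_add_left, real_inner_smul_left, real_inner_smul_left, inner_grad, inner_zero_left]
    push_cast at this
    linarith
  have hg : 0 < ‖gradient f p‖ := h.cpos.trans_le (h.lo p hp1)
  have hb : b ≠ 0 := by
    rintro rfl
    rw [mul_zero, zero_smul, add_zero, smul_eq_zero] at he'
    rcases he' with h0 | h0
    · exact hab (by rw [h0]; rfl)
    · rw [h0, norm_zero] at hg; exact lt_irrefl _ hg
  have hxp : x = p + (a * ‖gradient f p‖ / (2 * b)) • nor f p := by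
    have e1 : (2 * b) • (x - p) = a • gradient f p := by
      rw [← neg_sub, smul_neg, neg_eq_iff_add_eq_zero, add_comm, he']
    have e2 : x - p = (2 * b)⁻¹ • a • gradient f p := by
      rw [← e1, smul_smul, inv_mul_cancel₀ (by simpa using hb), one_smul]
    rw [← sub_eq_iff_eq_add', e2, nor, smul_smul, smul_smul]
    congr 1
    field_simp
  refine ⟨p, _, hp0, ?_, hxp⟩
  have e3 : ‖p - x‖ = |a * ‖gradient f p‖ / (2 * b)| := by
    rw [norm_sub_rev]
    conv_lhs => rw [hxp]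
    rw [add_sub_cancel_left, norm_smul, h.norm_nor hp1, mul_one, Real.norm_eq_abs]
  rw [← e3]
  exact hpd.trans hy

end Vale.Agent.P218GE
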