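import Vale.Agent.P218GE.PB
import Vale.Agent.P218GE.Foot

/-! # P218, block GE: families of defining functions and their foot point maps -/

open Set Filter Topology Metric
open scoped RealInnerProductSpace

set_option linter.unusedSectionVars false

namespace Vale.Agent.P218GE

/-- the polynomial weight -/
def om {X : Type} [NormedAddCommGroup X] (z : X) : ℝ := 1 + ‖z‖

lemma one_le_om {X : Type} [NormedAddCommGroup X] (z : X) : 1 ≤ om z := by
  unfold om; linarith [norm_nonneg z]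

lemma bd_om_id {X : Type} [NormedAddCommGroup X] {U : Set X} : Bd om U fun z => z :=
  (Bd.weight one_le_om).of_le fun z _ => by
    rw [Real.norm_eq_abs, abs_of_nonneg (zero_le_one.trans (one_le_om z))]; unfold om; linarith

lemma Bd.om_comp {X Y : Type} [NormedAddCommGroup Y] {ω : X → ℝ} {U : Set X} {f : X → Y}
    (hω : ∀ z, 1 ≤ ω z) (h : Bd ω U f) : Bd ω U fun z => om (f z) :=
  Bd.add_le hω (Bd.const (1 : ℝ)) h fun z _ => by
    rw [Real.norm_eq_abs, abs_of_nonneg (zero_le_one.trans (one_le_om _)), norm_one]; rfl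

lemma PB.comp_om {X Y G : Type} [NormedAddCommGroup X] [NormedSpace ℝ X] [NormedAddCommGroup Y]
    [NormedSpace ℝ Y] [NormedAddCommGroup G] [NormedSpace ℝ G] {n : ℕ} {ω : X → ℝ} {U : Set X}
    {V : Set Y} {g : Y → G} {f : X → Y} (hg : PB n om V g) (hf : PB n ω U f) (hV : MapsTo f U V) :
    PB n ω U fun z => g (f z) :=
  hg.comp hf hV (hf.bd0.om_comp hf.one)

lemma PB.id_om {X : Type} [NormedAddCommGroup X] [NormedSpace ℝ X] {n : ℕ} {U : Set X}
    (hU : IsOpen U) : PB n om U fun z => z :=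
  PB.id hU one_le_om bd_om_id

variable {P E : Type} [NormedAddCommGroup P] [NormedSpace ℝ P] [FiniteDimensional ℝ P]
  [NormedAddCommGroup E] [InnerProductSpace ℝ E] [FiniteDimensional ℝ E]

lemma PB.inner {X : Type} [NormedAddCommGroup X] [NormedSpace ℝ X] {n : ℕ} {ω : X → ℝ}
    {U : Set X} {f g : X → E} (hf : PB n ω U f) (hg : PB n ω U g) :
    PB n ω U fun z => ⟪f z, g z⟫ :=
  PB.bilin (innerSL ℝ : E →L[ℝ] E →L[ℝ] ℝ) hf hg

lemma PB.norm {X : Type} [NormedAddCommGroup X] [NormedSpace ℝ X] {n : ℕ} {ω : X → ℝ}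
    {U : Set X} {f : X → E} (hf : PB n ω U f) {c : ℝ} (hc : 0 < c) (h : ∀ z ∈ U, c ≤ ‖f z‖) :
    PB n ω U fun z => ‖f z‖ := by
  have h1 := (hf.inner hf).sqrt (fun z hz => by
    rw [real_inner_self_eq_norm_sq]; exact pow_pos (hc.trans_le (h z hz)) 2)
    (Bd.of_bound (C := (c ^ 2)⁻¹) fun z hz => by
      rw [real_inner_self_eq_norm_sq, norm_inv, Real.norm_eq_abs, abs_of_nonneg (sq_nonneg _)]
      exact inv_anti₀ (by positivity) (by gcongr; exact h z hz))
  refine h1.congr fun z _ => ?_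
  simp only [real_inner_self_eq_norm_sq, Real.sqrt_sq (norm_nonneg _)]

lemma PB.unit {X : Type} [NormedAddCommGroup X] [NormedSpace ℝ X] {n : ℕ} {ω : X → ℝ}
    {U : Set X} {f : X → E} (hf : PB n ω U f) {c : ℝ} (hc : 0 < c) (h : ∀ z ∈ U, c ≤ ‖f z‖) :
    PB n ω U fun z => ‖f z‖⁻¹ • f z :=
  ((hf.norm hc h).inv_of_le hc fun z hz => by rw [abs_norm]; exact h z hz).smul hf

/-- the tube of a family of functions -/
def tube (W : P × E → ℝ) (r δ : ℝ) : Set (P × E) := {z | ‖z.1‖ < r ∧ |W z| < δ}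

/-- the member of the family with parameter `a` -/
def sec {F : Type} (W : P × E → F) (a : P) : E → F := fun x => W (a, x)

/-- the gradient in the space variable -/
noncomputable def gx (W : P × E → ℝ) (z : P × E) : E := gradient (sec W z.1) z.2

/-- the unit normal of the level sets -/
noncomputable def nx (W : P × E → ℝ) (z : P × E) : E := nor (sec W z.1) z.2

/-- the vector that represents a linear form -/
noncomputable def riesz (E : Type) [NormedAddCommGroup E] [InnerProductSpace ℝ E]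
    [FiniteDimensional ℝ E] : (E →L[ℝ] ℝ) →L[ℝ] E :=
  LinearMap.mkContinuous
    { toFun := fun L => (InnerProductSpace.toDual ℝ E).symm L
      map_add' := fun _ _ => map_add _ _ _
      map_smul' := fun c L => by simp } 1 fun L => by simp

/-- the gradient in the space variable, from the full derivative -/
noncomputable def gxL (P E : Type) [NormedAddCommGroup P] [NormedSpace ℝ P]
    [NormedAddCommGroup E] [InnerProductSpace ℝ E] [FiniteDimensional ℝ E] :
    (P × E →L[ℝ] ℝ) →L[ℝ] E :=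
  (riesz E).comp
    ((ContinuousLinearMap.compL ℝ E (P × E) ℝ).flip (ContinuousLinearMap.inr ℝ P E))

lemma hasFDerivAt_sec {F : Type} [NormedAddCommGroup F] [NormedSpace ℝ F] {W : P × E → F}
    {z : P × E} {L : P × E →L[ℝ] F} (h : HasFDerivAt W L z) :
    HasFDerivAt (sec W z.1) (L.comp (ContinuousLinearMap.inr ℝ P E)) z.2 :=
  HasFDerivAt.comp (g := W) z.2 (by simpa using h) (hasFDerivAt_prodMk_right z.1 z.2)

lemma fderiv_sec {F : Type} [NormedAddCommGroup F] [NormedSpace ℝ F] {W : P × E → F}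
    {z : P × E} (h : DifferentiableAt ℝ W z) (v : E) :
    fderiv ℝ (sec W z.1) z.2 v = fderiv ℝ W z (0, v) := by
  rw [(hasFDerivAt_sec h.hasFDerivAt).fderiv]; simp

lemma gx_eq {W : P × E → ℝ} {z : P × E} (h : DifferentiableAt ℝ W z) :
    gx W z = gxL P E (fderiv ℝ W z) := by
  rw [gx, gradient, (hasFDerivAt_sec h.hasFDerivAt).fderiv]; rfl

lemma inner_gx {W : P × E → ℝ} {z : P × E} (h : DifferentiableAt ℝ W z) (v : E) :
    ⟪gx W z, v⟫ = fderiv ℝ W z (0, v) := by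
  rw [gx, inner_grad, fderiv_sec h]

lemma PB.gx {n : ℕ} {ω : P × E → ℝ} {U : Set (P × E)} {W : P × E → ℝ} (h : PB (n + 1) ω U W) :
    PB n ω U (gx W) :=
  (h.fderiv.map (gxL P E)).congr fun _ hz => gx_eq (h.diffAt hz)

lemma cdAt_sec {F : Type} [NormedAddCommGroup F] [NormedSpace ℝ F] {W : P × E → F}
    {k : WithTop ℕ∞} {a : P} {x : E} (h : ContDiffAt ℝ k W (a, x)) : ContDiffAt ℝ k (sec W a) x :=
  ContDiffAt.comp (g := W) x h (contDiffAt_const.prodMk contDiffAt_id)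

/-- A family of defining functions: polynomial bounds of all derivatives of order `≤ n + 2` in
the tube, and uniform bounds of the first two derivatives in the space variable. -/
structure DefFam (W : P × E → ℝ) (n : ℕ) (r δ c K : ℝ) : Prop where
  δpos : 0 < δ
  cpos : 0 < c
  cK : c ≤ K
  cont : ContinuousOn W {z | ‖z.1‖ < r}
  pb : PB (n + 2) om (tube W r δ) W
  lo : ∀ z ∈ tube W r δ, c ≤ ‖gx W z‖
  hi : ∀ z ∈ tube W r δ, ‖gx W z‖ ≤ K
  hess : ∀ z ∈ tube W r δ, ‖fderiv ℝ (gradient (sec W z.1)) z.2‖ ≤ K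

variable {W : P × E → ℝ} {n : ℕ} {r δ c K : ℝ}

lemma isOpen_tube (h : ContinuousOn W {z | ‖z.1‖ < r}) (ε : ℝ) : IsOpen (tube W r ε) :=
  h.isOpen_inter_preimage (isOpen_lt continuous_fst.norm continuous_const)
    (isOpen_lt continuous_abs continuous_const : IsOpen {t : ℝ | |t| < ε})

lemma DefFam.lev (h : DefFam W n r δ c K) {a : P} (ha : ‖a‖ < r) : Lev (sec W a) δ c K where
  δpos := h.δpos
  cpos := h.cpos
  cK := h.cK
  cont := h.cont.comp_continuous (continuous_const.prodMk continuous_id) fun _ => ha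
  cd := fun x hx => (cdAt_sec (h.pb.cdAt (z := (a, x)) ⟨ha, hx⟩)).of_le (by norm_cast; omega)
  lo := fun x hx => h.lo (a, x) ⟨ha, hx⟩
  hi := fun x hx => h.hi (a, x) ⟨ha, hx⟩
  hess := fun x hx => h.hess (a, x) ⟨ha, hx⟩

lemma DefFam.pb_nx (h : DefFam W n r δ c K) : PB (n + 1) om (tube W r δ) (nx W) :=
  h.pb.gx.unit h.cpos h.lo

lemma DefFam.norm_nx (h : DefFam W n r δ c K) {z : P × E} (hz : z ∈ tube W r δ) :
    ‖nx W z‖ = 1 :=
  (h.lev hz.1).norm_nor hz.2

lemma DefFam.gx_eq_smul (h : DefFam W n r δ c K) {z : P × E} (hz : z ∈ tube W r δ) :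
    gx W z = ‖gx W z‖ • nx W z :=
  (h.lev hz.1).grad_eq hz.2

lemma DefFam.inner_dnx (h : DefFam W n r δ c K) {z : P × E} (hz : z ∈ tube W r δ) (v : P × E) :
    ⟪nx W z, fderiv ℝ (nx W) z v⟫ = 0 := by
  have h2 := (h.pb_nx.diffAt hz).hasFDerivAt.norm_sq
  have h3 : (fun y => ‖nx W y‖ ^ 2) =ᶠ[𝓝 z] fun _ => 1 := by
    filter_upwards [h.pb.op.mem_nhds hz] with y hy
    rw [h.norm_nx hy]; norm_num
  have h4 : HasFDerivAt (fun y => ‖nx W y‖ ^ 2) (0 : P × E →L[ℝ] ℝ) z :=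
    (hasFDerivAt_const (1 : ℝ) z).congr_of_eventuallyEq h3
  have h6 := congrArg (fun L : P × E →L[ℝ] ℝ => L v) (h2.unique h4)
  simpa using h6

lemma DefFam.norm_dnx (h : DefFam W n r δ c K) {z : P × E} (hz : z ∈ tube W r (δ / 2)) (v : E) :
    ‖fderiv ℝ (nx W) z (0, v)‖ ≤ 2 * K / c * ‖v‖ := by
  have hl := h.lev hz.1
  have hδ := h.δpos
  have hK := hl.Kpos
  have hc := h.cpos
  have hz' : z ∈ tube W r δ := ⟨hz.1, by linarith [hz.2]⟩
  have h1 : HasFDerivAt (sec (nx W) z.1) _ z.2 := hasFDerivAt_sec (h.pb_nx.diffAt hz').hasFDerivAt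
  have h2 := h1.le_of_lip' (C := 2 * K / c) (by positivity) (by
    filter_upwards [ball_mem_nhds z.2 (by positivity : 0 < δ / (2 * K))] with y hy
    exact hl.lip_nor hz.2.le (mem_ball_self (by positivity)) hy)
  have h3 := (ContinuousLinearMap.le_opNorm _ v).trans
    (mul_le_mul_of_nonneg_right h2 (norm_nonneg v))
  simpa using h3

/-- the linear algebra of the derivative of the foot point equation -/
lemma lin_lower {N : E} (hN : ‖N‖ = 1) (D : P × E →L[ℝ] E) (L : P × E →L[ℝ] ℝ) {t γ c : ℝ}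
    (hc : 0 < c) (hγ : c ≤ γ) (hL : ∀ v, L (0, v) = γ * ⟪N, v⟫)
    (hD : ∀ v, ‖t • D (0, v)‖ ≤ 1 / 4 * ‖v‖) (hN' : ∀ v, ⟪N, D v⟫ = 0) (b : P) (v : E) (τ : ℝ) :
    ‖(b, v, τ)‖ ≤ 4 * (1 + c⁻¹) * (1 + (‖t • D‖ + ‖L‖)) *
      ‖(b, v + τ • N + t • D (b, v), L (b, v))‖ := by
  set M := ‖(b, v + τ • N + t • D (b, v), L (b, v))‖ with hM
  have hM0 : 0 ≤ M := norm_nonneg _
  have hb : ‖b‖ ≤ M := norm_fst_le (b, v + τ • N + t • D (b, v), L (b, v))
  have he : ‖v + τ • N + t • D (b, v)‖ ≤ M :=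
    (norm_fst_le (v + τ • N + t • D (b, v), L (b, v))).trans
      (norm_snd_le (b, v + τ • N + t • D (b, v), L (b, v)))
  have hf : |L (b, v)| ≤ M :=
    (norm_snd_le (v + τ • N + t • D (b, v), L (b, v))).trans
      (norm_snd_le (b, v + τ • N + t • D (b, v), L (b, v)))
  have hsplit : (b, v) = ((b, 0) : P × E) + (0, v) := by simp
  have hb0 : ‖((b, 0) : P × E)‖ ≤ M := by simpa using hb
  have h1 : |L (b, 0)| ≤ ‖L‖ * M := (L.le_opNorm _).trans (by gcongr)
  have h2 : ‖t • D (b, 0)‖ ≤ ‖t • D‖ * M := ((t • D).le_opNorm _).trans (by gcongr)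
  have hci : 0 < c⁻¹ := inv_pos.2 hc
  have h3 : |⟪N, v⟫| ≤ c⁻¹ * ((1 + ‖L‖) * M) := by
    have e : γ * ⟪N, v⟫ = L (b, v) - L (b, 0) := by rw [hsplit, map_add, hL]; ring
    have e2 : c * |⟪N, v⟫| ≤ (1 + ‖L‖) * M := by
      calc c * |⟪N, v⟫| ≤ γ * |⟪N, v⟫| := by gcongr
        _ = |L (b, v) - L (b, 0)| := by rw [← e, abs_mul, abs_of_pos (hc.trans_le hγ)]
        _ ≤ M + ‖L‖ * M := (abs_sub _ _).trans (add_le_add hf h1)
        _ = _ := by ring
    rw [inv_mul_eq_div, le_div_iff₀ hc]; linarith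
  have h4 : |τ| ≤ M + c⁻¹ * ((1 + ‖L‖) * M) := by
    have e : τ = ⟪N, v + τ • N + t • D (b, v)⟫ - ⟪N, v⟫ := by
      rw [inner_add_right, inner_add_right, real_inner_smul_right, real_inner_smul_right, hN',
        real_inner_self_eq_norm_sq, hN]; ring
    have e2 : |⟪N, v + τ • N + t • D (b, v)⟫| ≤ M := by
      refine (abs_real_inner_le_norm _ _).trans ?_
      rw [hN, one_mul]; exact he
    rw [e]
    exact (abs_sub _ _).trans (add_le_add e2 h3)
  have h5 : ‖v‖ ≤ M + |τ| + ‖t • D‖ * M + 1 / 4 * ‖v‖ := by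
    have e : v = (v + τ • N + t • D (b, v)) - τ • N - t • D (b, 0) - t • D (0, v) := by
      rw [hsplit, map_add, smul_add]; abel
    have e2 : ‖τ • N‖ = |τ| := by rw [norm_smul, hN, mul_one, Real.norm_eq_abs]
    calc ‖v‖ = ‖(v + τ • N + t • D (b, v)) - τ • N - t • D (b, 0) - t • D (0, v)‖ := by rw [← e]
      _ ≤ ‖v + τ • N + t • D (b, v)‖ + ‖τ • N‖ + ‖t • D (b, 0)‖ + ‖t • D (0, v)‖ :=
        (norm_sub_le _ _).trans (add_le_add_left ((norm_sub_le _ _).trans
          (add_le_add_left (norm_sub_le _ _) _)) _)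
      _ ≤ _ := by rw [e2]; gcongr; exact hD v
  have p1 : 0 ≤ ‖L‖ * M := by positivity
  have p2 : 0 ≤ ‖t • D‖ * M := by positivity
  have p3 : 0 ≤ c⁻¹ * M := by positivity
  have p4 : 0 ≤ c⁻¹ * (‖L‖ * M) := by positivity
  have p5 : 0 ≤ c⁻¹ * (‖t • D‖ * M) := by positivity
  rw [Prod.norm_def, Prod.norm_def, Real.norm_eq_abs]
  refine max_le ?_ (max_le ?_ ?_) <;> nlinarith

/-- the foot point and the signed distance -/
noncomputable def foot (W : P × E → ℝ) (ρ : ℝ) (z : P × E) : E × ℝ :=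
  Classical.epsilon fun y : E × ℝ =>
    W (z.1, y.1) = 0 ∧ |y.2| < ρ ∧ z.2 = y.1 + y.2 • nx W (z.1, y.1)

/-- the width of the tube in which the foot point is defined -/
noncomputable def eps (δ c K : ℝ) : ℝ := c * rad δ c K / 2

lemma DefFam.eps_pos (h : DefFam W n r δ c K) : 0 < eps δ c K := by
  have h1 := h.δpos; have h2 := h.cpos; have h3 := h2.trans_le h.cK
  have : 0 < rad δ c K := lt_min (by positivity) (by positivity)
  unfold eps; positivity

lemma DefFam.foot_spec (h : DefFam W n r δ c K) {z : P × E} (hz : z ∈ tube W r (eps δ c K)) :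
    W (z.1, (foot W (rad δ c K) z).1) = 0 ∧ |(foot W (rad δ c K) z).2| < rad δ c K ∧
      z.2 = (foot W (rad δ c K) z).1
        + (foot W (rad δ c K) z).2 • nx W (z.1, (foot W (rad δ c K) z).1) := by
  obtain ⟨p, t, hp, ht, he⟩ := (h.lev hz.1).exists_foot (x := z.2) hz.2
  refine Classical.epsilon_spec (p := fun y : E × ℝ =>
    W (z.1, y.1) = 0 ∧ |y.2| < rad δ c K ∧ z.2 = y.1 + y.2 • nx W (z.1, y.1))
    ⟨(p, t), hp, ht.trans_lt ?_, he⟩
  have h1 : |W z| < c * rad δ c K / 2 := hz.2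
  rw [div_lt_iff₀ h.cpos]
  change 2 * |W z| < _
  linarith

lemma DefFam.foot_eq (h : DefFam W n r δ c K) {z : P × E} (hz : z ∈ tube W r (eps δ c K))
    {p : E} {t : ℝ} (hp : W (z.1, p) = 0) (ht : |t| < rad δ c K)
    (he : z.2 = p + t • nx W (z.1, p)) : foot W (rad δ c K) z = (p, t) := by
  obtain ⟨h1, h2, h3⟩ := h.foot_spec hz
  obtain ⟨e1, e2⟩ := (h.lev hz.1).foot_unique h1 hp h2 ht (h3.symm.trans he)
  exact Prod.ext e1 e2

end Vale.Agent.P218GE
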