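import Vale.Agent.P218GE.Fam
import Vale.Agent.P218GE.Impl

/-! # P218, block GE: regularity and derivatives of the foot point and of the signed distance -/

open Set Filter Topology Metric
open scoped RealInnerProductSpace

set_option linter.unusedSectionVars false

namespace Vale.Agent.P218GE

section Bd

variable {X F : Type} [NormedAddCommGroup F] {ω : X → ℝ} {U : Set X} {f g : X → F}

lemma Bd.norm (h : Bd ω U f) : Bd ω U fun z => ‖f z‖ := h.of_le fun _ _ => (norm_norm _).le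

lemma Bd.add (hω : ∀ z, 1 ≤ ω z) (h : Bd ω U f) (h' : Bd ω U g) : Bd ω U fun z => f z + g z :=
  Bd.add_le hω h h' fun _ _ => norm_add_le _ _

lemma Bd.mul (hω : ∀ z, 1 ≤ ω z) {f g : X → ℝ} (h : Bd ω U f) (h' : Bd ω U g) :
    Bd ω U fun z => f z * g z :=
  Bd.mul_le hω h h' (C := 1) fun _ _ => by rw [one_mul, norm_mul]

lemma Bd.smul [NormedSpace ℝ F] (hω : ∀ z, 1 ≤ ω z) {c : X → ℝ} (h : Bd ω U c) (h' : Bd ω U g) :
    Bd ω U fun z => c z • g z :=
  Bd.mul_le hω h h' (C := 1) fun _ _ => by rw [one_mul, norm_smul]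

end Bd

variable {P E : Type} [NormedAddCommGroup P] [NormedSpace ℝ P] [FiniteDimensional ℝ P]
  [NormedAddCommGroup E] [InnerProductSpace ℝ E] [FiniteDimensional ℝ E]
variable {W : P × E → ℝ} {n : ℕ} {r δ c K : ℝ}

/-- the parameter and the point -/
def pr (P E : Type) [NormedAddCommGroup P] [NormedSpace ℝ P] [NormedAddCommGroup E]
    [NormedSpace ℝ E] : P × E × ℝ →L[ℝ] P × E :=
  (ContinuousLinearMap.fst ℝ P (E × ℝ)).prod
    ((ContinuousLinearMap.fst ℝ E ℝ).comp (ContinuousLinearMap.snd ℝ P (E × ℝ)))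

@[simp] lemma pr_apply (y : P × E × ℝ) : pr P E y = (y.1, y.2.1) := rfl

/-- the inclusion at height zero -/
def inc (P E : Type) [NormedAddCommGroup P] [NormedSpace ℝ P] [NormedAddCommGroup E]
    [NormedSpace ℝ E] : P × E →L[ℝ] P × E × ℝ :=
  (ContinuousLinearMap.fst ℝ P E).prod
    ((ContinuousLinearMap.inl ℝ E ℝ).comp (ContinuousLinearMap.snd ℝ P E))

@[simp] lemma inc_apply (z : P × E) : inc P E z = (z.1, z.2, 0) := rfl

/-- the foot point equation -/
noncomputable def Psi (W : P × E → ℝ) (y : P × E × ℝ) : P × E × ℝ :=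
  (y.1, y.2.1 + y.2.2 • nx W (pr P E y), W (pr P E y))

lemma DefFam.pb_Psi (h : DefFam W n r δ c K) :
    PB (n + 1) om (pr P E ⁻¹' tube W r δ) (Psi W) := by
  have hU : IsOpen (pr P E ⁻¹' tube W r δ) := h.pb.op.preimage (pr P E).continuous
  have hid : PB (n + 1) om (pr P E ⁻¹' tube W r δ) fun z => z := PB.id_om hU
  have hp : PB (n + 1) om (pr P E ⁻¹' tube W r δ) fun z => pr P E z := hid.map _
  exact hid.fst.prodMk ((hid.snd.fst.add (hid.snd.snd.smul (h.pb_nx.comp_om hp fun _ hz => hz))).prodMk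
    ((h.pb.of_le (by omega)).comp_om hp fun _ hz => hz))

lemma DefFam.fderiv_Psi (h : DefFam W n r δ c K) {y : P × E × ℝ} (hy : pr P E y ∈ tube W r δ)
    (b : P) (v : E) (τ : ℝ) : fderiv ℝ (Psi W) y (b, v, τ) =
      (b, v + τ • nx W (pr P E y) + y.2.2 • fderiv ℝ (nx W) (pr P E y) (b, v),
        fderiv ℝ W (pr P E y) (b, v)) := by
  have h1 : HasFDerivAt (fun y => nx W (pr P E y)) _ y :=
    (h.pb_nx.diffAt hy).hasFDerivAt.comp y (pr P E).hasFDerivAt
  have h2 : HasFDerivAt (fun y => W (pr P E y)) _ y :=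
    (h.pb.diffAt hy).hasFDerivAt.comp y (pr P E).hasFDerivAt
  have h0 : HasFDerivAt (fun y : P × E × ℝ => y.2) (ContinuousLinearMap.snd ℝ P (E × ℝ)) y :=
    hasFDerivAt_snd
  have h3 : HasFDerivAt (fun y : P × E × ℝ => y.2.1) _ y := h0.fst
  have h4 : HasFDerivAt (fun y : P × E × ℝ => y.2.2) _ y := h0.snd
  have h5 : HasFDerivAt (Psi W) _ y := hasFDerivAt_fst.prodMk ((h3.add (h4.smul h1)).prodMk h2)
  rw [h5.fderiv]
  simp [add_comm, add_assoc]

/-- the parameter, the foot point and the signed distance -/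
noncomputable def ft (W : P × E → ℝ) (ρ : ℝ) (z : P × E) : P × E × ℝ := (z.1, foot W ρ z)

/-- the parameter and the foot point -/
noncomputable def fp (W : P × E → ℝ) (ρ : ℝ) (z : P × E) : P × E := (z.1, (foot W ρ z).1)

/-- the signed distance near the level set -/
noncomputable def ht (W : P × E → ℝ) (ρ : ℝ) (z : P × E) : ℝ := (foot W ρ z).2

lemma DefFam.fp_mem (h : DefFam W n r δ c K) {z : P × E} (hz : z ∈ tube W r (eps δ c K))
    {ε : ℝ} (hε : 0 < ε) : fp W (rad δ c K) z ∈ tube W r ε :=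
  ⟨hz.1, by rw [fp, (h.foot_spec hz).1, abs_zero]; exact hε⟩

lemma DefFam.lower (h : DefFam W n r δ c K) {y : P × E × ℝ} (hy : pr P E y ∈ tube W r (δ / 2))
    (ht : |y.2.2| < rad δ c K) (v : P × E × ℝ) :
    ‖v‖ ≤ 4 * (1 + c⁻¹) * (1 + (‖y.2.2 • fderiv ℝ (nx W) (pr P E y)‖ + ‖fderiv ℝ W (pr P E y)‖)) *
      ‖fderiv ℝ (Psi W) y v‖ := by
  have hδ := h.δpos
  have hc := h.cpos
  have hy' : pr P E y ∈ tube W r δ := ⟨hy.1, by linarith [hy.2]⟩
  obtain ⟨b, v, τ⟩ := v
  rw [h.fderiv_Psi hy']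
  refine lin_lower (h.norm_nx hy') _ _ hc (h.lo _ hy') (fun v => ?_) (fun v => ?_)
    (h.inner_dnx hy') b v τ
  · rw [← inner_gx (h.pb.diffAt hy'), ← real_inner_smul_left, ← h.gx_eq_smul hy']
  · rw [norm_smul, Real.norm_eq_abs]
    have hl := h.lev hy.1
    have hK := hl.Kpos
    calc |y.2.2| * ‖fderiv ℝ (nx W) (pr P E y) (0, v)‖ ≤ rad δ c K * (2 * K / c * ‖v‖) := by
          have := hl.rad_pos
          gcongr
          exact h.norm_dnx hy v
      _ = 2 * (K * rad δ c K) / c * ‖v‖ := by ring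
      _ ≤ 2 * (c / 8) / c * ‖v‖ := by gcongr; exact hl.rad_le.2
      _ = _ := by field_simp; ring

lemma DefFam.Psi_ft (h : DefFam W n r δ c K) {z : P × E} (hz : z ∈ tube W r (eps δ c K)) :
    Psi W (ft W (rad δ c K) z) = inc P E z := by
  obtain ⟨h1, _, h3⟩ := h.foot_spec hz
  exact Prod.ext rfl (Prod.ext h3.symm h1)

lemma DefFam.bd_ft (h : DefFam W n r δ c K) :
    Bd om (tube W r (eps δ c K)) (ft W (rad δ c K)) := by
  refine Bd.add_le one_le_om bd_om_id (Bd.const (rad δ c K)) fun z hz => ?_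
  obtain ⟨h1, h2, h3⟩ := h.foot_spec hz
  have hr : rad δ c K ≤ ‖rad δ c K‖ := le_abs_self _
  have hn : ‖nx W (z.1, (foot W (rad δ c K) z).1)‖ = 1 := h.norm_nx (h.fp_mem hz h.δpos)
  have h4 : ‖(foot W (rad δ c K) z).1‖ ≤ ‖z.2‖ + |(foot W (rad δ c K) z).2| := by
    refine (congrArg norm (eq_sub_of_add_eq h3.symm)).trans_le ((norm_sub_le _ _).trans ?_)
    rw [norm_smul, hn, mul_one, Real.norm_eq_abs]
  have h5 := norm_fst_le z
  have h6 := norm_snd_le z
  have h7 := norm_nonneg z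
  rw [ft, Prod.norm_def, Prod.norm_def, Real.norm_eq_abs]
  refine max_le ?_ (max_le ?_ ?_) <;> linarith [norm_nonneg (rad δ c K)]

lemma DefFam.bd_fp (h : DefFam W n r δ c K) :
    Bd om (tube W r (eps δ c K)) (fp W (rad δ c K)) :=
  h.bd_ft.smul_le (C := ‖pr P E‖) (fun z _ => (pr P E).le_opNorm (ft W (rad δ c K) z)) one_le_om

lemma DefFam.maps_fp (h : DefFam W n r δ c K) :
    MapsTo (fp W (rad δ c K)) (tube W r (eps δ c K)) (tube W r δ) :=
  fun _ hz => h.fp_mem hz h.δpos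

lemma DefFam.ft_unique (h : DefFam W n r δ c K) {z : P × E} (hz : z ∈ tube W r (eps δ c K)) :
    ∀ᶠ p : (P × E) × P × E × ℝ in 𝓝 (z, ft W (rad δ c K) z),
      Psi W p.2 = inc P E p.1 → p.2 = ft W (rad δ c K) p.1 := by
  have hU := isOpen_tube h.cont (eps δ c K)
  have h1 : ∀ᶠ p : (P × E) × P × E × ℝ in 𝓝 (z, ft W (rad δ c K) z),
      p.1 ∈ tube W r (eps δ c K) := continuous_fst.continuousAt.eventually (hU.mem_nhds hz)
  have h2 : ∀ᶠ p : (P × E) × P × E × ℝ in 𝓝 (z, ft W (rad δ c K) z), |p.2.2.2| < rad δ c K :=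
    (continuous_snd.snd.snd.abs.continuousAt).eventually_lt continuousAt_const
      (h.foot_spec hz).2.1
  filter_upwards [h1, h2] with p hp1 hp2 he
  obtain ⟨z', a, p', t⟩ := p
  simp only [Psi, inc_apply, pr_apply, Prod.mk.injEq] at he
  obtain ⟨rfl, he2, he3⟩ := he
  exact Prod.ext rfl (h.foot_eq hp1 he3 hp2 he2.symm).symm

/-- the bound of the inverse of the linearised foot point equation -/
noncomputable def invB (W : P × E → ℝ) (c ρ : ℝ) (z : P × E) : ℝ :=
  4 * (1 + c⁻¹) * (1 + (‖ht W ρ z • fderiv ℝ (nx W) (fp W ρ z)‖ + ‖fderiv ℝ W (fp W ρ z)‖))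

lemma DefFam.bd_invB (h : DefFam W n r δ c K) :
    Bd om (tube W r (eps δ c K)) (invB W c (rad δ c K)) := by
  have hw := h.bd_fp.om_comp one_le_om
  have h1 : Bd om (tube W r (eps δ c K)) fun z => fderiv ℝ (nx W) (fp W (rad δ c K) z) :=
    Bd.comp one_le_om one_le_om h.pb_nx.fderiv.bd0 h.maps_fp hw
  have h2 : Bd om (tube W r (eps δ c K)) fun z => fderiv ℝ W (fp W (rad δ c K) z) :=
    Bd.comp one_le_om one_le_om h.pb.fderiv.bd0 h.maps_fp hw
  have h0 : Bd om (tube W r (eps δ c K)) (ht W (rad δ c K)) :=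
    Bd.of_bound (C := rad δ c K) fun z hz => (h.foot_spec hz).2.1.le
  exact (Bd.const _).mul one_le_om ((Bd.const _).add one_le_om
    ((h0.smul one_le_om h1).norm.add one_le_om h2.norm))

lemma DefFam.lower_ft (h : DefFam W n r δ c K) {z : P × E} (hz : z ∈ tube W r (eps δ c K))
    (v : P × E × ℝ) :
    ‖v‖ ≤ invB W c (rad δ c K) z * ‖fderiv ℝ (Psi W) (ft W (rad δ c K) z) v‖ :=
  h.lower (y := ft W (rad δ c K) z) (h.fp_mem hz (half_pos h.δpos)) (h.foot_spec hz).2.1 v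

theorem DefFam.pb_ft (h : DefFam W n r δ c K) :
    PB (n + 1) om (tube W r (eps δ c K)) (ft W (rad δ c K)) ∧
      ∀ z ∈ tube W r (eps δ c K), HasFDerivAt (ft W (rad δ c K))
        ((Ring.inverse (fderiv ℝ (Psi W) (ft W (rad δ c K) z))).comp (inc P E)) z := by
  have hU := isOpen_tube h.cont (eps δ c K)
  have hj : PB (n + 1) om (tube W r (eps δ c K)) (inc P E) := (PB.id_om hU).map (inc P E)
  have hm : MapsTo (ft W (rad δ c K)) (tube W r (eps δ c K)) (pr P E ⁻¹' tube W r δ) :=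
    fun _ hz => h.maps_fp hz
  have key := PB.implicit h.pb_Psi hj hm (fun _ hz => h.Psi_ft hz) (fun _ hz => h.ft_unique hz)
    (fun _ hz => h.lower_ft hz) h.bd_invB h.bd_ft (h.bd_ft.om_comp one_le_om)
  refine ⟨key.1, fun z hz => ?_⟩
  have := key.2 z hz
  rwa [(inc P E).fderiv] at this

lemma DefFam.pb_fp (h : DefFam W n r δ c K) :
    PB (n + 1) om (tube W r (eps δ c K)) (fp W (rad δ c K)) :=
  h.pb_ft.1.map (pr P E)

/-- the linearised foot point equation -/
lemma DefFam.dft (h : DefFam W n r δ c K) {z : P × E} (hz : z ∈ tube W r (eps δ c K))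
    (u : P × E) : (fderiv ℝ (fp W (rad δ c K)) z u).1 = u.1 ∧
      (fderiv ℝ (fp W (rad δ c K)) z u).2
        + fderiv ℝ (ht W (rad δ c K)) z u • nx W (fp W (rad δ c K) z)
        + ht W (rad δ c K) z • fderiv ℝ (nx W) (fp W (rad δ c K) z)
          (fderiv ℝ (fp W (rad δ c K)) z u) = u.2 ∧
      fderiv ℝ W (fp W (rad δ c K) z) (fderiv ℝ (fp W (rad δ c K)) z u) = 0 := by
  have hδ := h.δpos
  have hd := h.pb_ft.2 z hz
  have hU := isUnit_of_lower (h.lower_ft hz)
  have h1 : HasFDerivAt (fp W (rad δ c K)) _ z := (pr P E).hasFDerivAt.comp z hd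
  have h2 : HasFDerivAt (ht W (rad δ c K)) _ z := hd.snd.snd
  rw [h1.fderiv, h2.fderiv]
  have h3 := apply_ringInverse hU (inc P E u)
  set y := Ring.inverse (fderiv ℝ (Psi W) (ft W (rad δ c K) z)) (inc P E u) with hy
  have h4 := h.fderiv_Psi (y := ft W (rad δ c K) z) (h.fp_mem hz hδ) y.1 y.2.1 y.2.2
  rw [show (y.1, y.2.1, y.2.2) = y from rfl, h3, inc_apply, Prod.mk.injEq, Prod.mk.injEq] at h4
  obtain ⟨e1, e2, e3⟩ := h4
  exact ⟨e1.symm, e2.symm, e3.symm⟩

/-- **the derivative of the signed distance** in the parameter and the point -/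
lemma DefFam.fderiv_ht (h : DefFam W n r δ c K) {z : P × E} (hz : z ∈ tube W r (eps δ c K)) :
    fderiv ℝ (ht W (rad δ c K)) z
      = ‖gx W (fp W (rad δ c K) z)‖⁻¹ • fderiv ℝ W (fp W (rad δ c K) z) := by
  have hm := h.fp_mem hz h.δpos
  have hγ : 0 < ‖gx W (fp W (rad δ c K) z)‖ := h.cpos.trans_le (h.lo _ hm)
  refine ContinuousLinearMap.ext fun u => ?_
  obtain ⟨e1, e2, e3⟩ := h.dft hz u
  set y := fderiv ℝ (fp W (rad δ c K)) z u
  set N := nx W (fp W (rad δ c K) z)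
  have hL : ∀ v, fderiv ℝ W (fp W (rad δ c K) z) (0, v)
      = ‖gx W (fp W (rad δ c K) z)‖ * ⟪N, v⟫ := fun v => by
    rw [← inner_gx (h.pb.diffAt hm), ← real_inner_smul_left, ← h.gx_eq_smul hm]
  have e4 := congrArg (fun v => ⟪N, v⟫) e2
  simp only [inner_add_right, real_inner_smul_right, h.inner_dnx hm, real_inner_self_eq_norm_sq,
    h.norm_nx hm, N] at e4
  have e5 : u = y + (0, u.2 - y.2) := Prod.ext (by simp [e1]) (by simp)
  rw [smul_apply, smul_eq_mul]
  conv_rhs => rw [e5, map_add, e3, hL, inner_sub_right]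
  rw [zero_add, ← mul_assoc, inv_mul_cancel₀ hγ.ne']
  simp only [N]
  linarith

lemma DefFam.diffAt_ht (h : DefFam W n r δ c K) {z : P × E} (hz : z ∈ tube W r (eps δ c K)) :
    DifferentiableAt ℝ (ht W (rad δ c K)) z :=
  (h.pb_ft.1.snd.snd).diffAt hz

theorem DefFam.pb_ht (h : DefFam W n r δ c K) :
    PB (n + 2) om (tube W r (eps δ c K)) (ht W (rad δ c K)) := by
  have hm := h.maps_fp
  refine PB.succ (fun z hz => h.diffAt_ht hz) h.pb_ft.1.snd.snd.bd0 ?_
  have h1 := ((h.pb.gx.norm h.cpos h.lo).inv_of_le h.cpos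
    fun z hz => by rw [abs_norm]; exact h.lo z hz).smul h.pb.fderiv
  exact (h1.comp_om h.pb_fp hm).congr fun z hz => h.fderiv_ht hz

lemma DefFam.gx_ht (h : DefFam W n r δ c K) {z : P × E} (hz : z ∈ tube W r (eps δ c K)) :
    gx (ht W (rad δ c K)) z = nx W (fp W (rad δ c K) z) := by
  rw [gx_eq (h.diffAt_ht hz), h.fderiv_ht hz, map_smul,
    ← gx_eq (h.pb.diffAt (h.fp_mem hz h.δpos))]
  rfl

/-- the derivative of the foot point in the space variable is bounded -/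
lemma DefFam.norm_dfp (h : DefFam W n r δ c K) {z : P × E} (hz : z ∈ tube W r (eps δ c K))
    (v : E) : ‖(fderiv ℝ (fp W (rad δ c K)) z (0, v)).2‖ ≤ 2 * ‖v‖ := by
  have hδ := h.δpos
  have hc := h.cpos
  have hm := h.fp_mem hz hδ
  have hm2 := h.fp_mem hz (by positivity : 0 < δ / 2)
  obtain ⟨e1, e2, e3⟩ := h.dft hz (0, v)
  set y := fderiv ℝ (fp W (rad δ c K)) z (0, v)
  have ey : y = (0, y.2) := Prod.ext e1 rfl
  rw [ey, ← inner_gx (h.pb.diffAt hm), h.gx_eq_smul hm, real_inner_smul_left] at e3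
  have hγ : 0 < ‖gx W (fp W (rad δ c K) z)‖ := hc.trans_le (h.lo _ hm)
  have e4 : ⟪nx W (fp W (rad δ c K) z), y.2⟫ = 0 := by
    rcases mul_eq_zero.1 e3 with h0 | h0
    · exact absurd h0 hγ.ne'
    · exact h0
  have e5 := congrArg (fun u => ⟪u, y.2⟫) e2
  simp only [inner_add_left, real_inner_smul_left, e4, real_inner_self_eq_norm_sq] at e5
  have hl := h.lev hz.1
  have hK := hl.Kpos
  have hr := hl.rad_pos
  have e6 : |ht W (rad δ c K) z * ⟪fderiv ℝ (nx W) (fp W (rad δ c K) z) y, y.2⟫|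
      ≤ 1 / 4 * ‖y.2‖ ^ 2 := by
    rw [abs_mul]
    calc _ ≤ rad δ c K * (2 * K / c * ‖y.2‖ * ‖y.2‖) := by
          gcongr
          · exact (h.foot_spec hz).2.1.le
          · refine (abs_real_inner_le_norm _ _).trans ?_
            gcongr
            rw [ey]; exact h.norm_dnx hm2 _
      _ = 2 * (K * rad δ c K) / c * ‖y.2‖ ^ 2 := by ring
      _ ≤ 2 * (c / 8) / c * ‖y.2‖ ^ 2 := by gcongr; exact hl.rad_le.2
      _ = _ := by field_simp; ring
  have e7 := neg_abs_le (ht W (rad δ c K) z * ⟪fderiv ℝ (nx W) (fp W (rad δ c K) z) y, y.2⟫)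
  have e8 := real_inner_le_norm v y.2
  rcases (norm_nonneg y.2).eq_or_lt with h0 | h0
  · rw [← h0]; positivity
  · by_contra hcon
    push Not at hcon
    nlinarith

/-- the Hessian of the signed distance in the space variable -/
lemma DefFam.hess_ht (h : DefFam W n r δ c K) {z : P × E} (hz : z ∈ tube W r (eps δ c K))
    (v : E) : fderiv ℝ (gradient (sec (ht W (rad δ c K)) z.1)) z.2 v
      = fderiv ℝ (nx W) (fp W (rad δ c K) z) (0, (fderiv ℝ (fp W (rad δ c K)) z (0, v)).2) := by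
  have hm := h.fp_mem hz h.δpos
  have hU := isOpen_tube h.cont (eps δ c K)
  have h1 : gradient (sec (ht W (rad δ c K)) z.1)
      =ᶠ[𝓝 z.2] sec (fun y => nx W (fp W (rad δ c K) y)) z.1 := by
    have : ∀ᶠ x in 𝓝 z.2, (z.1, x) ∈ tube W r (eps δ c K) :=
      (continuous_const.prodMk continuous_id).continuousAt.eventually (hU.mem_nhds hz)
    filter_upwards [this] with x hx
    exact h.gx_ht hx
  have h2 : HasFDerivAt (fun y => nx W (fp W (rad δ c K) y)) _ z :=
    (h.pb_nx.diffAt hm).hasFDerivAt.comp z (h.pb_fp.diffAt hz).hasFDerivAt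
  rw [h1.fderiv_eq, fderiv_sec h2.differentiableAt, h2.fderiv, ContinuousLinearMap.comp_apply]
  congr 1
  exact Prod.ext (h.dft hz (0, v)).1 rfl

lemma DefFam.norm_hess_ht (h : DefFam W n r δ c K) {z : P × E} (hz : z ∈ tube W r (eps δ c K)) :
    ‖fderiv ℝ (gradient (sec (ht W (rad δ c K)) z.1)) z.2‖ ≤ 4 * K / c := by
  have hδ := h.δpos
  have hc := h.cpos
  have hK := hc.trans_le h.cK
  refine ContinuousLinearMap.opNorm_le_bound _ (by positivity) fun v => ?_
  rw [h.hess_ht hz]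
  refine (h.norm_dnx (h.fp_mem hz (by positivity)) _).trans ?_
  calc _ ≤ 2 * K / c * (2 * ‖v‖) := by gcongr; exact h.norm_dfp hz v
    _ = _ := by ring

end Vale.Agent.P218GE
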