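import Vale.Agent.P218GE.Supp

/-! # P218, block GE: the geometric family -/

open Set Filter Topology Metric Asymptotics
open scoped RealInnerProductSpace Real

set_option linter.unusedSectionVars false

namespace Vale.Agent.P218GE

open Vale.Agent.P218GA hiding IsTube
open Vale.Agent.P218VA (E2)
open Vale.Agent.P218DY (IsTube)

variable {S : Set E3} {w : E3 → ℝ} {δ C : ℝ} {ι κ M : Type} [TopologicalSpace M]
  [ChartedSpace E2 M] {Q P : Type} [TopologicalSpace Q] [NormedAddCommGroup P] [NormedSpace ℝ P]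
  {m : Model S w δ C ι κ M} {pa : Par Q P}

/-- diffeomorphisms which move all ends -/
theorem RealFam.exists_ends [Finite ι] [Finite κ] (R : RealFam m pa)
    (hL : ∀ L : Link, ∃ τ z t, 0 < τ ∧ LC L τ z t) :
    ∃ (ρ ε : ℝ) (T : Q × E3 → E3), R.Adm ρ ε ∧ GM pa.l T ∧ (∀ x, D2 pa T (fun x => x) x) ∧
      ∀ᶠ q in pa.l, ∀ p : ℝ × ℝ, ρ ^ 2 ≤ p.1 →
        (∀ i, T (q, m.F (pt m (.inl i) p)) = R.A i q (xiCyl p.1 p.2 (R.us i 1 (q, p)))) ∧
        ∀ j, T (q, m.F (pt m (.inr j) p)) = xiCone (m.L j) p.1 p.2 (R.t j (q, p)) := by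
  classical
  have := Fintype.ofFinite ι
  have := Fintype.ofFinite κ
  choose τ z t hτ hc using fun j => hL (m.L j)
  have h2 : ∀ {a : ℝ}, 0 < a → ∀ᶠ x in 𝓝[>] (0 : ℝ), 2 * x < a := fun {a} ha =>
    mem_nhdsWithin_of_mem_nhds ((eventually_lt_nhds (half_pos ha)).mono fun x hx => by linarith)
  obtain ⟨ε, ⟨hs, hε1⟩, hε⟩ := (((exists_sep m).and (h2 one_pos)).and self_mem_nhdsWithin).exists
  obtain ⟨σ, ⟨hσ1, hσ2⟩, hσ⟩ := (((eventually_all.2 fun j => h2 (hτ j)).and (h2 hε)).and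
    self_mem_nhdsWithin).exists
  have hε0 : 0 < ε := hε
  have hσ0 : 0 < σ := hσ
  obtain ⟨ρ, ⟨⟨⟨a1, a2⟩, a3⟩, a4⟩, a5⟩ := (((((eventually_ge_atTop 2).and
    (eventually_ge_atTop (2 / ε))).and (((tendsto_pow_atTop two_ne_zero).atTop_div_const
      four_pos).eventually_gt_atTop R.s)).and (eventually_all.2 fun i => jb_of_lim
        (fun p hp => ((m.U_smooth i p hp).of_le two_le_top).sub contDiffAt_const) (m.U_lim i)
        one_half_pos)).and (eventually_all.2 fun j => jb_of_lim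
          (fun p hp => (m.t_smooth j p hp).of_le two_le_top) (m.t_lim j) hσ0)).exists
  have hA : R.Adm ρ ε := ⟨a1, hε0, hε1.le, by rwa [div_le_iff₀' hε0] at a2, a3, a4,
    fun i i' h => hs (.inl i) (.inl i') (fun e => h (Sum.inl.inj e)) _ rfl _ rfl⟩
  have hK : ∀ j, R.AdmK j ρ σ (τ j) (z j) (t j) := fun j =>
    ⟨hc j, hA.rpos, hσ0, hσ1 j, a3, a5 j⟩
  obtain ⟨T, e1, e2, e3, e4⟩ := hA.exists_cyl
  refine ⟨ρ, ε, _, hA, e1.add_sm (Sm.sum fun j => (hK j).sm_kd), fun x =>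
    ((e2 x).add (D2.sum fun j => (hK j).d2_kd x)).congr EventuallyEq.rfl
      (Eventually.of_forall fun x => by simp), ?_⟩
  filter_upwards [e3] with q b1 p hp
  have hρ := hA.rpos
  have hp0 : 0 < p.1 := lt_of_lt_of_le (by positivity) hp
  have hp1 : ρ ^ 2 / 4 ≤ p.1 := by linarith
  have hp2 : m.w0 < p.1 := (R.w0_le.trans_lt a3).trans_le hp1
  have hz : ∀ {e x a}, x ≠ 0 → a ∈ dirs m e → dist (dir x) a ≤ ε → ∀ j, .inr j ≠ e →
      R.kd j ρ σ (z j) (t j) (q, x) = 0 := fun hx ha hd j hj =>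
    (hK j).kd_zero hx fun θ => lt_trans (by linarith) (sep_le hε0 (hs _ _ hj _ ⟨θ, rfl⟩ _ ha) hd)
  refine ⟨fun i => ?_, fun j => ?_⟩
  · have h3 := abs_le.1 (a4 i p hp1).b0
    have h4 := hA.dir_cyl (m.Q i) p.2 hp (U := m.U i p) ⟨by linarith [h3.1], by linarith [h3.2]⟩
    have h5 : m.Q i (xiCyl p.1 p.2 (m.U i p)) ≠ 0 := norm_pos_iff.1 (by
      rw [(m.Q i).norm_map, norm_xiCyl]; positivity)
    rw [pt, m.cyl i p hp2, ← b1 i p hp]
    exact add_eq_left.2 (Finset.sum_eq_zero fun j _ => hz (e := .inl i) h5 rfl h4 j (by simp))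
  · have h4 : dist (dir (xiCone (m.L j) p.1 p.2 (m.t j p))) ((m.L j).γ p.2) ≤ ε :=
      (dist_xiCone _ hp0 _ _).trans (by linarith [(a5 j p hp1).b0])
    have h5 : xiCone (m.L j) p.1 p.2 (m.t j p) ≠ 0 := norm_pos_iff.1 (by
      rw [norm_xiCone]; positivity)
    rw [pt, m.cone j p hp2, ← (hK j).kd_val q hp]
    exact congrArg₂ _ (e4 q _ fun i => (sep_le hε0 (hs (.inl i) (.inr j) (by simp) _ rfl _
      ⟨p.2, rfl⟩) h4).le) (Finset.sum_eq_single j (fun j' _ hj => hz (e := .inr j) h5 ⟨p.2, rfl⟩ h4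
        j' fun e => hj (Sum.inr.inj e)) fun hj => absurd (Finset.mem_univ j) hj)

/-- diffeomorphisms which map `S` onto the completed surfaces -/
theorem RealFam.exists_phi [Finite ι] [Finite κ] (R : RealFam m pa)
    (hL : ∀ L : Link, ∃ τ z t, 0 < τ ∧ LC L τ z t) :
    ∃ (ρ ε : ℝ) (Φ : Q × E3 → E3), R.Adm ρ ε ∧ GM pa.l Φ ∧ (∀ x, D2 pa Φ (fun x => x) x) ∧
      (∀ᶠ q in pa.l, ∀ y ∈ R.Ex q, Φ (q, m.F y) = R.X q y) ∧
      ∀ᶠ q in pa.l, ∀ p : ℝ × ℝ, 4 * ρ ^ 2 ≤ p.1 →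
        (∀ i, Φ (q, m.F (pt m (.inl i) p)) = R.A i q (xiCyl p.1 p.2 (R.us i 1 (q, p)))) ∧
        ∀ j, Φ (q, m.F (pt m (.inr j) p)) = xiCone (m.L j) p.1 p.2 (R.t j (q, p)) := by
  obtain ⟨ρ, ε, T, hA, e1, e2, e3⟩ := R.exists_ends hL
  have hρ := hA.rpos
  have h0 : m.w0 < ρ ^ 2 / 4 := R.w0_le.trans_lt hA.lev
  obtain ⟨D, e4, e5, e6⟩ := R.exists_core e2 (r := 2 * ρ) (by positivity)
  refine ⟨ρ, ε, _, hA, e1.add_sm e4, fun x => ((e2 x).add (e5 x)).congr EventuallyEq.rfl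
    (Eventually.of_forall fun x => by simp), ?_, ?_⟩
  · filter_upwards [e3, R.cyl, R.cone, R.W_top.eventually_gt_atTop 0] with q a1 a2 a3 a4 y hy
    rw [e6 q y hy.1]
    rcases le_or_gt ‖m.F y‖ (2 * ρ) with h1 | h1
    · rw [rad0_zero (by positivity) h1, sub_zero, one_smul, add_sub_cancel]
    have h2 : 4 * ρ ^ 2 < ‖m.F y‖ ^ 2 := by nlinarith
    obtain ⟨j, p, -, rfl, h3⟩ := far_cases m hy.1 (by nlinarith)
    have h4 : ρ ^ 2 ≤ p.1 := by linarith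
    have h5 : R.s < p.1 := hA.lev.trans_le (by nlinarith)
    suffices h : T (q, m.F (pt m j p)) = R.X q (pt m j p) by
      rw [h, sub_self, smul_zero, add_zero]
    cases j with
    | inl i =>
      have h6 : p.1 < R.W q / 4 := lt_of_not_ge fun h => hy.2 i p h rfl
      rw [(a1 p h4).1, a2 i p h5 (by linarith), RealFam.us, RealFam.dl,
        cw_one (by rw [div_le_iff₀ a4]; linarith), one_mul, one_mul, add_sub_cancel]
    | inr j => rw [(a1 p h4).2, a3 j p h5]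
  · filter_upwards [e3] with q a1 p hp
    have h1 : m.w0 < p.1 := by nlinarith
    have h2 : ∀ j, D (q, m.F (pt m j p)) = 0 := fun j => by
      rw [pt, e6 q _ (m.pol_mem_reg j h1), rad0_one (by positivity), sub_self, zero_smul]
      refine (pow_le_pow_iff_left₀ (by positivity) (norm_nonneg _) two_ne_zero).1 ?_
      rw [m.norm_F_pol j h1]
      linarith
    simp only [h2, add_zero]
    exact a1 p (by nlinarith)

/-- **The geometric family exists.** -/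
theorem RealFam.exists_geo_of [Finite ι] [Finite κ] (R : RealFam m pa)
    (hL : ∀ L : Link, ∃ τ z t, 0 < τ ∧ LC L τ z t) : Nonempty (Geo R) := by
  obtain ⟨ρ, ε, Φ, hA, e1, e2, e3, e4⟩ := R.exists_phi hL
  have hρ := hA.rpos
  have h0 : m.w0 < ρ ^ 2 / 4 := R.w0_le.trans_lt hA.lev
  have hT := tubeDY m
  obtain ⟨c, K, hc, l0, l1⟩ := e1.lev hT
  obtain ⟨K1, hK1⟩ := hA.deriv_us
  have hb := l0.defFam.b_pos
  obtain ⟨C', c1, c2, c3, c4, c5⟩ : ∃ C' : ℝ, 4 * K / c ≤ C' ∧ max C (6 * C) ≤ C' ∧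
      4 * ρ + 1 ≤ C' ∧ 8 * K1 ≤ C' ∧ 8 * R.K ≤ C' :=
    ⟨max (4 * K / c) (max (max C (6 * C)) (max (4 * ρ + 1) (max (8 * K1) (8 * R.K)))),
      by simp, by simp, by simp, by simp, by simp⟩
  have hz : ∀ᶠ q in pa.l, ∀ x, w (ginv Φ (q, x)) = 0 ↔ ∃ y ∈ m.reg, Φ (q, m.F y) = x := by
    filter_upwards [e1.diffeo] with q hq x
    constructor
    · intro h
      obtain ⟨y, hy, e⟩ := m.image.superset ((m.shr.mem_iff _).2 h)
      exact ⟨y, hy, by rw [e]; exact hq.2.2.2.2 x⟩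
    · rintro ⟨y, hy, rfl⟩
      rw [hq.2.2.2.1]
      exact m.w_F hy
  have hnear := ev_compact (p := fun z => ‖Φ z - z.2‖ ≤ 1) (isCompact_closedBall (0 : E3) (4 * ρ))
    fun x _ => ev_close (f₀ := fun x => x) (e2 x).tendsto continuousAt_id one_pos
  refine ⟨⟨sd1 hb w, fun z => sd1 hb (sec (fun z => w (ginv Φ z)) z.1) z.2, Φ, _, C',
    l0.isTube hb c1 fun x hx => ?_, fun x hx => l0.sd1_self hb hc hT hx, l0.sd1_zero hb, ?_,
    fun x => D2.of_sd1 hb l1 l0 (fun x => D2.map_cd (f₀ := fun x => x) hT.smooth.contDiffAt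
      (e1.d2_inv (e2 x))) x, e2, e1.diffeo.mono fun q hq => ⟨hq.1, hq.2.1, hq.2.2.1⟩, ?_, e3, ?_⟩⟩
  · rw [hT.norm_grad x (by rw [hx, abs_zero]; exact hT.pos), mul_one]
    exact (hT.supp_le x hx).trans c2
  · filter_upwards [l1, hz, hnear, e4, hK1, R.deriv_t, R.A_iso] with q a1 a2 a3 a4 a5 a6 a7
    refine a1.isTube hb c1 fun x hx => ?_
    have hd := a1.diffAt (x := x) (by rw [hx, abs_zero]; exact hT.pos)
    obtain ⟨y, hy, rfl⟩ := (a2 x).1 hx
    rcases le_or_gt ‖m.F y‖ (4 * ρ) with h1 | h1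
    · refine (abs_real_inner_le_norm _ _).trans (mul_le_mul_of_nonneg_right ?_ (norm_nonneg _))
      linarith [a3 _ (mem_closedBall_zero_iff.2 h1), norm_sub_norm_le (Φ (q, m.F y)) (m.F y)]
    have h2 : 16 * ρ ^ 2 < ‖m.F y‖ ^ 2 := by nlinarith
    obtain ⟨j, p, h3, rfl, h4⟩ := far_cases m hy (by nlinarith)
    have h5 : 4 * ρ ^ 2 < p.1 := by linarith
    have h6 : 0 < p.1 := lt_trans (by positivity) h5
    have h7 : ∀ᶠ b in 𝓝 p.1, 4 * ρ ^ 2 ≤ b ∧
        sec (fun z => w (ginv Φ z)) q (Φ (q, m.F (pt m j (b, p.2)))) = 0 := by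
      filter_upwards [eventually_gt_nhds h5, eventually_gt_nhds h3] with b b1 b2
      exact ⟨b1.le, (a2 _).2 ⟨_, m.pol_mem_reg j (p := (b, p.2)) b2, rfl⟩⟩
    cases j with
    | inl i =>
      obtain ⟨t', h8, h9⟩ := a5 i p (by nlinarith)
      rw [(a4 p h5.le).1] at hd ⊢
      refine (supp_xi norm_e3 (norm_eth _) (eth_e3 _) (a7 i) h6 h8 hd (h7.mono fun b hb => ?_)).trans
        (mul_le_mul_of_nonneg_right (by linarith) (norm_nonneg _))
      exact (congrArg _ ((a4 (b, p.2) hb.1).1 i).symm).trans hb.2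
    | inr j =>
      obtain ⟨t', h8, h9⟩ := a6 j p (hA.lev.trans (by nlinarith))
      rw [(a4 p h5.le).2] at hd ⊢
      refine (supp_xi ((m.L j).γ_unit _) ((m.L j).n_unit _) ((m.L j).orth _)
        (A := ContinuousLinearMap.id ℝ E3) (fun _ => rfl) h6 h8 hd (h7.mono fun b hb => ?_)).trans
        (mul_le_mul_of_nonneg_right (by linarith) (norm_nonneg _))
      exact (congrArg _ ((a4 (b, p.2) hb.1).2 j).symm).trans hb.2
  · filter_upwards [l1, hz] with q a1 a2 x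
    exact (a1.sd1_zero hb x).trans (a2 x)
  · filter_upwards [e4, R.A_iso, R.W_top.eventually_ge_atTop (16 * ρ ^ 2)] with q a1 a2 a3 i p hp
    have h1 : 4 * ρ ^ 2 ≤ p.1 := by linarith
    rw [(a1 p h1).1, a2, norm_xiCyl_sq (le_trans (by positivity) h1)]

end Vale.Agent.P218GE
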