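import Vale.Agent.P218GE.DJI
import Vale.Agent.P218GA.Model
import Vale.Agent.P218DY.Defs2

/-! # P218, block GE: the interface between the static construction and the geometric family

`RealFam m π` is the input: real surfaces `X q`, parametrised on the model, which are given by
the end coordinates beyond the level `s`. `Geo R` is the output: signed distance functions with a
uniform tube. -/

open Set Filter Topology Metric Asymptotics
open scoped RealInnerProductSpace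

namespace Vale.Agent.P218GE

open Vale.Agent.P218GA
open Vale.Agent.P218VA (E2)
open Vale.Agent.P218DY (IsTube)

/-- the parameter space of a sequence of families -/
def seqPar (P : Type) [NormedAddCommGroup P] : Par (ℕ × P) P where
  l := atTop ×ˢ 𝓝 0
  α := Prod.snd
  s q := ‖q.2‖
  σ q := (q.1, 0)
  le _ := le_rfl
  lim := tendsto_fst.prodMk tendsto_const_nhds
  op p h := by
    obtain ⟨pa, ha, pb, hb, h⟩ := eventually_prod_iff.1 h
    filter_upwards [ha.prod_mk hb.eventually_nhds] with q hq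
    rw [← Prod.mk.eta (p := q), nhds_prod_eq, nhds_discrete]
    exact ((eventually_pure.2 hq.1).prod_mk hq.2).mono fun q' hq' => h hq'.1 hq'.2

/-- bounds for the jets of `f` at `p`, the variable `w` being measured on the scale `l` -/
structure JB (f : ℝ × ℝ → ℝ) (p : ℝ × ℝ) (l K : ℝ) : Prop where
  cd : ContDiffAt ℝ 2 f p
  b0 : |f p| ≤ K
  bw : |l * dw f p| ≤ K
  bt : |dth f p| ≤ K
  bww : |l ^ 2 * dw (dw f) p| ≤ K
  bwt : |l * dw (dth f) p| ≤ K
  btt : |dth (dth f) p| ≤ K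

variable {S : Set E3} {w : E3 → ℝ} {δ C : ℝ} {ι κ M : Type} [TopologicalSpace M]
  [ChartedSpace E2 M] {Q P : Type} [TopologicalSpace Q] [NormedAddCommGroup P] [NormedSpace ℝ P]

/-- the point of the end `j` with coordinates `p = (w, θ)` -/
noncomputable def pt (m : Model S w δ C ι κ M) (j : ι ⊕ κ) (p : ℝ × ℝ) : M := (m.φ j).symm (pol p)

/-- `X q → F` in `C²` near `x`, continuously in `q` and differentiably at the base point in `C¹`,
in some local parametrisation -/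
def LocD (m : Model S w δ C ι κ M) (π : Par Q P) (X : Q → M → E3) (x : M) : Prop :=
  ∃ (ψ : ℝ × ℝ → M) (y : ℝ × ℝ), ψ y = x ∧ (∀ᶠ y' in 𝓝 y, ψ y' ∈ m.reg) ∧
    Function.Injective (fderiv ℝ (fun y' => m.F (ψ y')) y) ∧
    D2 π (fun z => X z.1 (ψ z.2)) (fun y' => m.F (ψ y')) y

/-- the real family delivered by the static construction -/
structure RealFam (m : Model S w δ C ι κ M) (π : Par Q P) where
  /-- the surfaces -/
  X : Q → M → E3
  /-- the level beyond which the ends are pure -/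
  s : ℝ
  /-- the level where the cylindrical ends are cut -/
  W : Q → ℝ
  /-- the tilted positions of the axes -/
  A : ι → Q → E3 →L[ℝ] E3
  /-- the cylindrical ends -/
  u : ι → Q × ℝ × ℝ → ℝ
  /-- the conical ends -/
  t : κ → Q × ℝ × ℝ → ℝ
  /-- a uniform bound -/
  K : ℝ
  w0_le : m.w0 ≤ s
  W_top : Tendsto W π.l atTop
  A_iso : ∀ᶠ q in π.l, ∀ i v, ‖A i q v‖ = ‖v‖
  A_D : ∀ i, DP π (A i) (m.Q i).toContinuousLinearEquiv
  core : ∀ x ∈ m.reg, (∀ j p, s < p.1 → x ≠ pt m j p) → LocD m π X x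
  cyl : ∀ᶠ q in π.l, ∀ i p, s < p.1 → p.1 < W q →
    X q (pt m (.inl i) p) = A i q (xiCyl p.1 p.2 (u i (q, p)))
  cone : ∀ᶠ q in π.l, ∀ j p, s < p.1 →
    X q (pt m (.inr j) p) = xiCone (m.L j) p.1 p.2 (t j (q, p))
  u_per : ∀ i q a θ, u i (q, a, θ + 2 * Real.pi) = u i (q, a, θ)
  t_per : ∀ j q a θ, t j (q, a, θ + 2 * Real.pi) = t j (q, a, θ)
  u_D : ∀ i p, s < p.1 → D2 π (u i) (m.U i) p
  t_D : ∀ j p, s < p.1 → D2 π (t j) (m.t j) p
  u_bd : ∀ᶠ q in π.l, ∀ i p, s < p.1 → p.1 ≤ W q / 2 → JB (sec (u i) q) p √p.1 K ∧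
    1 / 2 ≤ u i (q, p) ∧ u i (q, p) ≤ 2 ∧ |p.1 * dw (sec (u i) q) p| ≤ K
  t_bd : ∀ ε : ℝ, 0 < ε → ∀ᶠ q in π.l, ∀ j p, s < p.1 →
    JB (fun y => t j (q, y) - m.t j y) p p.1 ε
  t_supp : ∀ᶠ q in π.l, ∀ j p, s < p.1 → |p.1 ^ 2 * dw (sec (t j) q) p| ≤ K

/-- the part of the model on which the completed surface is `X q` -/
def RealFam.Ex {m : Model S w δ C ι κ M} {π : Par Q P} (R : RealFam m π) (q : Q) : Set M :=
  {x | x ∈ m.reg ∧ ∀ i p, R.W q / 4 ≤ p.1 → x ≠ pt m (.inl i) p}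

/-- the geometric family -/
structure Geo {m : Model S w δ C ι κ M} {π : Par Q P} (R : RealFam m π) where
  /-- the signed distance to `S`, truncated -/
  w₀ : E3 → ℝ
  /-- the signed distances to the completed surfaces, truncated -/
  wq : Q × E3 → ℝ
  /-- diffeomorphisms of space which map `S` onto the completed surfaces -/
  Φ : Q × E3 → E3
  /-- the width of the tubes -/
  δ' : ℝ
  /-- the uniform bound -/
  C' : ℝ
  tube0 : IsTube w₀ δ' C'
  eq0 : ∀ x, |w₀ x| < δ' → w₀ =ᶠ[𝓝 x] w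
  zero0 : ∀ x, w₀ x = 0 ↔ w x = 0
  tube : ∀ᶠ q in π.l, IsTube (sec wq q) δ' C'
  d2 : ∀ x, D2 π wq w₀ x
  dΦ : ∀ x, D2 π Φ (fun x => x) x
  diffeo : ∀ᶠ q in π.l, ContDiff ℝ 2 (sec Φ q) ∧ Function.Injective (sec Φ q) ∧
    ∀ x, Function.Injective (dx Φ (q, x))
  zero : ∀ᶠ q in π.l, ∀ x, wq (q, x) = 0 ↔ ∃ y ∈ m.reg, Φ (q, m.F y) = x
  exact : ∀ᶠ q in π.l, ∀ y ∈ R.Ex q, Φ (q, m.F y) = R.X q y
  far : ∀ᶠ q in π.l, ∀ i p, R.W q / 4 ≤ p.1 → ‖Φ (q, m.F (pt m (.inl i) p))‖ ^ 2 = 4 * p.1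

end Vale.Agent.P218GE
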