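import Vale.Agent.P218GE.SB
import Vale.Agent.P218GE.RF

/-! # P218, block GE: functions of the radius and of an angle as functions in space -/

open Set Filter Topology Metric Asymptotics Complex
open scoped RealInnerProductSpace Real

set_option linter.unusedSectionVars false

namespace Vale.Agent.P218GE

open Vale.Agent.P218GA
open Vale.Agent.P218VA (pd pd_pd_eq pd_comm)

section Arg

variable {F : Type}

lemma per_of_angle {h : ℝ → F} (hp : Function.Periodic h (2 * π)) {a b : ℝ}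
    (e : (a : Real.Angle) = b) : h a = h b := by
  obtain ⟨k, hk⟩ := Real.Angle.angle_eq_iff_two_pi_dvd_sub.1 e
  rw [show a = b + k * (2 * π) by linarith]
  exact hp.int_mul k b

lemma per_branch {h : ℝ → F} (hp : Function.Periodic h (2 * π)) {ζ ζ₀ : ℂ} (h0 : ζ₀ ≠ 0)
    (h1 : ζ ≠ 0) : h (arg ζ) = h (arg ζ₀ + arg (ζ / ζ₀)) :=
  per_of_angle hp (by rw [Real.Angle.coe_add, arg_div_coe_angle h1 h0]; abel)

lemma per_arg_exp {h : ℝ → F} (hp : Function.Periodic h (2 * π)) {ρ : ℝ} (hρ : 0 < ρ) (θ : ℝ) :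
    h (arg (ρ * exp (θ * I))) = h θ :=
  per_of_angle hp (by rw [arg_real_mul _ hρ, arg_exp_mul_I, Real.Angle.coe_toIocMod])

lemma cd_arg_one {n : WithTop ℕ∞} : ContDiffAt ℝ n arg 1 := by
  have h1 : ContDiffAt ℝ n Complex.log 1 := (contDiffAt_log one_mem_slitPlane).restrict_scalars ℝ
  exact (imCLM.contDiff.contDiffAt.comp 1 h1).congr_of_eventuallyEq
    (Eventually.of_forall fun z => (log_im z).symm)

lemma cd_branch {n : WithTop ℕ∞} {ζ₀ : ℂ} (h0 : ζ₀ ≠ 0) :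
    ContDiffAt ℝ n (fun ζ => arg ζ₀ + arg (ζ / ζ₀)) ζ₀ :=
  contDiffAt_const.add (ContDiffAt.comp (g := arg) ζ₀ (by rw [div_self h0]; exact cd_arg_one)
    (contDiffAt_id.div_const ζ₀))

lemma cd_per_arg [NormedAddCommGroup F] [NormedSpace ℝ F] {γ : ℝ → F} (hγ : ContDiff ℝ 2 γ)
    (hp : Function.Periodic γ (2 * π)) {ζ₀ : ℂ} (h0 : ζ₀ ≠ 0) :
    ContDiffAt ℝ 2 (fun ζ => γ (arg ζ)) ζ₀ := by
  refine (hγ.contDiffAt.comp ζ₀ (cd_branch h0)).congr_of_eventuallyEq ?_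
  filter_upwards [eventually_ne_nhds h0] with ζ hζ using per_branch hp h0 hζ

end Arg

variable {E : Type} [NormedAddCommGroup E] [InnerProductSpace ℝ E] [FiniteDimensional ℝ E]

/-- the level and the angle of a point -/
noncomputable def lc (ζ : E → ℂ) (x : E) : ℝ × ℝ := (‖x‖ ^ 2 / 4, arg (ζ x))

lemma D2.lift {Q P F : Type} [TopologicalSpace Q] [NormedAddCommGroup P] [NormedSpace ℝ P]
    [NormedAddCommGroup F] [NormedSpace ℝ F] {pa : Par Q P} {h : Q × ℝ × ℝ → F} {h₀ : ℝ × ℝ → F}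
    (hp : ∀ q a θ, h (q, a, θ + 2 * π) = h (q, a, θ)) (hp0 : ∀ a θ, h₀ (a, θ + 2 * π) = h₀ (a, θ))
    {ζ : E → ℂ} {x₀ : E} (hζ : ContDiffAt ℝ 2 ζ x₀) (h0 : ζ x₀ ≠ 0) (hD : D2 pa h h₀ (lc ζ x₀)) :
    D2 pa (fun z => h (z.1, lc ζ z.2)) (fun x => h₀ (lc ζ x)) x₀ := by
  have h1 : ContDiffAt ℝ 2 (fun x => (‖x‖ ^ 2 / 4, arg (ζ x₀) + arg (ζ x / ζ x₀))) x₀ :=
    ((contDiff_norm_sq ℝ).contDiffAt.div_const 4).prodMk ((cd_branch h0).comp x₀ hζ)
  have h2 : ∀ᶠ x in 𝓝 x₀, ζ x ≠ 0 := hζ.continuousAt.eventually_ne h0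
  refine (D2.comp (f₀ := fun x => (‖x‖ ^ 2 / 4, arg (ζ x₀) + arg (ζ x / ζ x₀)))
    (by simpa [div_self h0, lc] using hD) (D2.of_cd h1)).congr ?_ ?_
  · filter_upwards [tendsto_snd.eventually h2] with z hz
    exact per_branch (h := fun θ => h (z.1, ‖z.2‖ ^ 2 / 4, θ)) (hp z.1 (‖z.2‖ ^ 2 / 4)) h0 hz
  · filter_upwards [h2] with x hx
    exact per_branch (h := fun θ => h₀ (‖x‖ ^ 2 / 4, θ)) (hp0 (‖x‖ ^ 2 / 4)) h0 hx

/-- scaling of the first variable -/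
noncomputable def scl (l : ℝ) : ℝ × ℝ →L[ℝ] ℝ × ℝ :=
  (l • ContinuousLinearMap.fst ℝ ℝ ℝ).prod (ContinuousLinearMap.snd ℝ ℝ ℝ)

lemma scl_eq (l : ℝ) (v : ℝ × ℝ) : scl l v = (v.1 * l) • (1, 0) + v.2 • (0, 1) := by
  simp [scl, mul_comm]

variable {f : ℝ × ℝ → ℝ} {p : ℝ × ℝ} {l K : ℝ}

lemma abs_fst_le (v : ℝ × ℝ) : |v.1| ≤ ‖v‖ := norm_fst_le v

lemma abs_snd_le (v : ℝ × ℝ) : |v.2| ≤ ‖v‖ := norm_snd_le v

lemma JB.scaled (h : JB f p l K) : ContDiffAt ℝ 2 (fun y => f (p + scl l y)) 0 ∧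
    ‖fderiv ℝ (fun y => f (p + scl l y)) 0‖ ≤ 2 * K ∧
    ‖fderiv ℝ (fderiv ℝ fun y => f (p + scl l y)) 0‖ ≤ 4 * K := by
  have hK : 0 ≤ K := (abs_nonneg _).trans h.b0
  have ha : ∀ y, HasFDerivAt (fun y => p + scl l y) (scl l) y := fun y =>
    (scl l).hasFDerivAt.const_add p
  have h0 : p + scl l 0 = p := by simp
  have h1 : ContDiffAt ℝ 2 f (p + scl l 0) := h0.symm ▸ h.cd
  have h2 : fderiv ℝ (fun y => f (p + scl l y)) =ᶠ[𝓝 0]
      fun y => (fderiv ℝ f (p + scl l y)).comp (scl l) := by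
    filter_upwards [(ha 0).continuousAt.eventually (h1.eventually (by simp))] with y hy
    exact ((hy.differentiableAt (by norm_num)).hasFDerivAt.comp y (ha y)).fderiv
  refine ⟨h1.comp 0 (contDiffAt_const.add (scl l).contDiff.contDiffAt), ?_, ?_⟩
  · rw [h2.eq_of_nhds, h0]
    refine ContinuousLinearMap.opNorm_le_bound _ (by positivity) fun v => ?_
    have e : (fderiv ℝ f p).comp (scl l) v = v.1 * (l * dw f p) + v.2 * dth f p := by
      rw [ContinuousLinearMap.comp_apply, scl_eq, map_add, map_smul, map_smul, ← mul_assoc]; rfl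
    rw [e, Real.norm_eq_abs]
    refine (abs_add_le _ _).trans ?_
    rw [abs_mul, abs_mul v.2]
    nlinarith [mul_le_mul (abs_fst_le v) h.bw (abs_nonneg _) (norm_nonneg _),
      mul_le_mul (abs_snd_le v) h.bt (abs_nonneg _) (norm_nonneg _)]
  · have h3 := (((h1.fderiv_right (m := 1) (by norm_num)).differentiableAt
      one_ne_zero).hasFDerivAt.comp 0 (ha 0)).clm_comp (hasFDerivAt_const (scl l) 0)
    rw [h2.fderiv_eq, show fderiv ℝ (fun y => (fderiv ℝ f (p + scl l y)).comp (scl l)) 0 = _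
      from h3.fderiv, h0]
    refine ContinuousLinearMap.opNorm_le_bound₂ _ (by positivity) fun v u => ?_
    have e1 : fderiv ℝ (fderiv ℝ f) p (1, 0) (1, 0) = dw (dw f) p := (pd_pd_eq h.cd _ _).symm
    have e2 : fderiv ℝ (fderiv ℝ f) p (1, 0) (0, 1) = dw (dth f) p := (pd_pd_eq h.cd _ _).symm
    have e3 : fderiv ℝ (fderiv ℝ f) p (0, 1) (1, 0) = dw (dth f) p :=
      (pd_pd_eq h.cd _ _).symm.trans (pd_comm h.cd _ _)
    have e4 : fderiv ℝ (fderiv ℝ f) p (0, 1) (0, 1) = dth (dth f) p := (pd_pd_eq h.cd _ _).symm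
    have e : fderiv ℝ (fderiv ℝ f) p (scl l v) (scl l u) = v.1 * u.1 * (l ^ 2 * dw (dw f) p)
        + (v.1 * u.2 * (l * dw (dth f) p) + (v.2 * u.1 * (l * dw (dth f) p)
          + v.2 * u.2 * dth (dth f) p)) := by
      rw [scl_eq, scl_eq]
      simp only [map_add, map_smul, add_apply, smul_apply, smul_eq_mul, e1, e2, e3, e4]
      ring
    have hb : ∀ a b c : ℝ, |a| ≤ ‖v‖ → |b| ≤ ‖u‖ → |c| ≤ K → |a * b * c| ≤ K * ‖v‖ * ‖u‖ :=
      fun a b c h1 h2 h3 => by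
        rw [abs_mul, abs_mul]
        calc |a| * |b| * |c| ≤ ‖v‖ * ‖u‖ * K := by gcongr
          _ = _ := by ring
    have e5 := hb _ _ _ (abs_fst_le v) (abs_fst_le u) h.bww
    have e6 := hb _ _ _ (abs_fst_le v) (abs_snd_le u) h.bwt
    have e7 := hb _ _ _ (abs_snd_le v) (abs_fst_le u) h.bwt
    have e8 := hb _ _ _ (abs_snd_le v) (abs_snd_le u) h.btt
    have e9 : ‖fderiv ℝ (fderiv ℝ f) p (scl l v) (scl l u)‖ ≤ 4 * K * ‖v‖ * ‖u‖ := by
      rw [e, Real.norm_eq_abs, abs_le]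
      rw [abs_le] at e5 e6 e7 e8
      constructor <;> linarith [e5.1, e5.2, e6.1, e6.2, e7.1, e7.2, e8.1, e8.2]
    simpa using e9

/-- **Functions of the level and of the angle.** -/
theorem SB.lift {I : Type} {𝓕 : Filter (I × E)} {h : I × ℝ × ℝ → ℝ} {ζ : E → ℂ}
    {μ a l : I × E → ℝ} {c : ℝ} (hp : ∀ q b θ, h (q, b, θ + 2 * π) = h (q, b, θ))
    (hζ : SB 𝓕 (fun _ => 1) a fun z => ζ z.2) (hc : 0 < c) (h0 : ∀ᶠ z in 𝓕, c ≤ ‖ζ z.2‖)
    (hl : ∀ᶠ z in 𝓕, 0 < l z) (h1 : (fun z => (l z)⁻¹ * ‖z.2‖) =O[𝓕] a)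
    (h2 : (fun z => (l z)⁻¹) =O[𝓕] fun z => a z * a z)
    (hJ : ∀ᶠ z in 𝓕, JB (sec h z.1) (lc ζ z.2) (l z) (μ z)) :
    SB 𝓕 μ a fun z => h (z.1, lc ζ z.2) := by
  have hk : SB (Filter.map (fun z => (z, (0 : ℝ × ℝ))) 𝓕) (fun y => μ y.1) (fun _ => 1)
      fun y : (I × E) × ℝ × ℝ => h (y.1.1, lc ζ y.1.2 + scl (l y.1) y.2) := by
    refine ⟨⟨eventually_map.2 (hJ.mono fun z hz => hz.scaled.1), eventually_map.2
      (hJ.mono fun z hz => hz.scaled.1.fderiv_right (by norm_num)), isBigO_map.2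
      (IsBigO.of_bound 2 (hJ.mono fun z hz => hz.scaled.2.1.trans ?_)), isBigO_map.2
      (IsBigO.of_bound 4 (hJ.mono fun z hz => hz.scaled.2.2.trans ?_))⟩, isBigO_map.2
      (IsBigO.of_bound 1 (hJ.mono fun z hz => ?_))⟩
    · simpa using le_abs_self _
    · simpa using le_abs_self _
    · simpa [sec] using hz.b0.trans (le_abs_self _)
  have i1 : SB (diag 𝓕) (fun _ => 1) (fun z => a z.1)
      fun z => (4 * l z.1)⁻¹ * (‖z.2‖ ^ 2 - ‖z.1.2‖ ^ 2) := by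
    have j1 : S2 (diag 𝓕) (fun z => a z.1 * a z.1) (fun _ => 1)
        fun z => ((4 * l z.1)⁻¹ • (2 • innerSL ℝ : E →L[ℝ] E →L[ℝ] ℝ)) z.2 + 0 :=
      S2.affine (A := fun z : I × E => (4 * l z)⁻¹ • (2 • innerSL ℝ : E →L[ℝ] E →L[ℝ] ℝ))
        (c := fun _ => 0) (isBigO_map.2 (IsBigO.trans (IsBigO.of_bound
          (4⁻¹ * ‖(2 • innerSL ℝ : E →L[ℝ] E →L[ℝ] ℝ)‖) (Eventually.of_forall fun z => by
            simp only [Function.comp_apply, norm_smul, mul_inv, norm_mul]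
            exact le_of_eq (by norm_num; ring))) h2))
    have j2 : ∀ (z : I × E) (x : E), HasFDerivAt (fun x => (4 * l z)⁻¹ * (‖x‖ ^ 2 - ‖z.2‖ ^ 2))
        (((4 * l z)⁻¹ • (2 • innerSL ℝ : E →L[ℝ] E →L[ℝ] ℝ)) x + 0) x := fun z x => by
      simpa using ((hasStrictFDerivAt_norm_sq x).hasFDerivAt.sub_const _).const_mul _
    have j3 : ∀ z : I × E, ContDiff ℝ 2 fun x : E => (4 * l z)⁻¹ * (‖x‖ ^ 2 - ‖z.2‖ ^ 2) :=
      fun z => contDiff_const.mul ((contDiff_norm_sq ℝ).sub contDiff_const)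
    refine ⟨⟨Eventually.of_forall fun z => (j3 z.1).contDiffAt, S1.congr ⟨j1.cd1, ?_,
        j1.d1.b0.congr_right fun z => by ring⟩
      (Eventually.of_forall fun z => Eventually.of_forall fun x => (j2 z.1 x).fderiv)⟩,
      isBigO_map.2 ((isBigO_zero _ _).congr_left fun z => by simp)⟩
    refine isBigO_map.2 (IsBigO.trans (IsBigO.of_bound 1 (Eventually.of_forall fun z => ?_))
      (h1.congr_right fun z => (one_mul _).symm))
    simp only [Function.comp_apply, add_zero, smul_apply, norm_smul, mul_inv, norm_mul,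
      norm_norm, RCLike.norm_nsmul (K := ℝ), nsmul_eq_mul]
    rw [show ‖innerSL ℝ z.2‖ = ‖z.2‖ from innerSL_apply_norm ℝ z.2]
    norm_num
    nlinarith [mul_nonneg (inv_nonneg.2 (abs_nonneg (l z))) (norm_nonneg z.2)]
  have i2 : SB (diag 𝓕) (fun _ => 1) (fun z => a z.1) fun z => arg (ζ z.2 / ζ z.1.2) := by
    have j1 : SB (diag 𝓕) (fun _ => 1) (fun z => a z.1) fun z => (ζ z.1.2)⁻¹ :=
      SB.param (c := fun z : I × E => (ζ z.2)⁻¹) (isBigO_map.2 (IsBigO.of_bound c⁻¹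
        (h0.mono fun z hz => by simpa using inv_anti₀ hc hz)))
    have j2 := (SB.bilin (ContinuousLinearMap.mul ℝ ℂ) hζ.to_diag j1).monoW
      (μ' := fun _ => 1) (isBigO_const_const _ one_ne_zero _)
    exact j2.inner.map_compact (k := arg) (isCompact_singleton (x := 1))
      (fun y hy => hy ▸ cd_arg_one) (eventually_map.2 (h0.mono fun z hz =>
        mul_inv_cancel₀ (norm_pos_iff.1 (hc.trans_le hz))))
  have i3 := hk.comp (i1.prodMk i2).inner (tendsto_map'_iff.2 (tendsto_map.congr' (h0.mono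
    fun z hz => by simp [div_self (norm_pos_iff.1 (hc.trans_le hz)), Prod.ext_iff])))
  refine SB.of_diag i3 ?_
  filter_upwards [h0, hl, hζ.cd] with z e1 e2 e3
  have e4 := norm_pos_iff.1 (hc.trans_le e1)
  filter_upwards [e3.continuousAt.eventually_ne e4] with x hx
  have e5 : lc ζ z.2 + scl (l z) ((4 * l z)⁻¹ * (‖x‖ ^ 2 - ‖z.2‖ ^ 2), arg (ζ x / ζ z.2))
      = (‖x‖ ^ 2 / 4, arg (ζ z.2) + arg (ζ x / ζ z.2)) := by
    refine Prod.ext ?_ rfl
    simp only [lc, scl, Prod.fst_add, ContinuousLinearMap.prod_apply, smul_apply,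
      ContinuousLinearMap.coe_fst', smul_eq_mul]
    field_simp
    ring
  simp only [sec, e5]
  exact per_branch (h := fun θ => h (z.1, ‖x‖ ^ 2 / 4, θ)) (hp z.1 (‖x‖ ^ 2 / 4)) e4 hx

end Vale.Agent.P218GE
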