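import Vale.Agent.P218GE.Geo

/-! # P218, block GE: tubular coordinates around the cone over a link; the gauge exists -/

open Set Filter Topology Metric Complex
open scoped RealInnerProductSpace Real

set_option linter.unusedSectionVars false

namespace Vale.Agent.P218GE

open Vale.Agent.P218GA
open Vale.Agent.P218VA (E2)

/-- the parametrisation of a neighbourhood of the cone -/
noncomputable def lkP (L : Link) (y : E3) : E3 := y 0 • xiCone L (1 / 4) (y 1) (y 2)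

lemma xi_quarter (γ n : E3) (t : ℝ) :
    xi γ n (1 / 4) t = γ + (2 * t / (1 + t ^ 2)) • (n - t • γ) := by
  have h0 : √(1 / 4 : ℝ) = 1 / 2 := by
    rw [show (1 / 4 : ℝ) = (1 / 2) ^ 2 by norm_num, Real.sqrt_sq (by norm_num)]
  have h1 : 1 + t ^ 2 ≠ 0 := by positivity
  rw [xi, h0]
  match_scalars
  · field_simp; ring
  · field_simp

lemma contDiff_xiQ (L : Link) : ContDiff ℝ 2 fun p : ℝ × ℝ => xiCone L (1 / 4) p.1 p.2 := by
  have h1 := L.γ_smooth.of_le two_le_top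
  have h2 := L.n_smooth.of_le two_le_top
  have h3 : ContDiff ℝ 2 fun p : ℝ × ℝ => 2 * p.2 / (1 + p.2 ^ 2) :=
    ContDiff.div (by fun_prop) (by fun_prop) fun y => by positivity
  simp only [xiCone, xi_quarter]
  exact (h1.comp contDiff_fst).add (h3.smul
    ((h2.comp contDiff_fst).sub (contDiff_snd.smul (h1.comp contDiff_fst))))

lemma contDiff_lkP (L : Link) : ContDiff ℝ 2 (lkP L) := by
  have h1 : ∀ i, ContDiff ℝ 2 fun y : E3 => y i := fun i =>
    (EuclideanSpace.proj i : E3 →L[ℝ] ℝ).contDiff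
  exact (h1 0).smul ((contDiff_xiQ L).comp ((h1 1).prodMk (h1 2)))

lemma xiCone_angle (L : Link) (a b : ℝ) {θ θ' : ℝ} (h : (θ : Real.Angle) = θ') :
    xiCone L a θ b = xiCone L a θ' b := by
  rw [xiCone, xiCone, per_of_angle L.γ_periodic h, per_of_angle L.n_periodic h]

lemma isUnit_lkP (L : Link) (θ : ℝ) : IsUnit (fderiv ℝ (lkP L) !₂[1, θ, 0]) := by
  set y : E3 := !₂[1, θ, 0] with hy
  have hγ : HasDerivAt L.γ (deriv L.γ θ) θ :=
    (L.γ_smooth.differentiable (by simp) θ).hasDerivAt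
  have hn : HasDerivAt L.n (deriv L.n θ) θ :=
    (L.n_smooth.differentiable (by simp) θ).hasDerivAt
  have ho : ⟪L.γ θ, deriv L.γ θ⟫ = 0 := by
    have h1 := hγ.inner ℝ hγ
    have h2 : (fun s => ⟪L.γ s, L.γ s⟫) = fun _ => (1 : ℝ) := by
      ext s; rw [real_inner_self_eq_norm_sq, L.γ_unit, one_pow]
    rw [h2] at h1
    have h3 := h1.unique (hasDerivAt_const θ 1)
    rw [real_inner_comm (L.γ θ)] at h3
    linarith
  have key : ∀ v : E3, fderiv ℝ (lkP L) y v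
      = v 0 • L.γ θ + v 1 • deriv L.γ θ + (2 * v 2) • L.n θ := fun v => by
    have h0 : HasDerivAt (fun s : ℝ => y + s • v) v 0 := by
      simpa using ((hasDerivAt_id (0 : ℝ)).smul_const v).const_add y
    have h1 := (((contDiff_lkP L).differentiable (by norm_num)
      (y + (0 : ℝ) • v)).hasFDerivAt.comp_hasDerivAt (0 : ℝ) h0)
    have l : ∀ c d : ℝ, HasDerivAt (fun s : ℝ => c + s * d) d 0 := fun c d => by
      simpa using ((hasDerivAt_id (0 : ℝ)).mul_const d).const_add c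
    have g1 : HasDerivAt (fun s : ℝ => L.γ (θ + s * v 1)) (v 1 • deriv L.γ θ) 0 :=
      HasDerivAt.scomp (0 : ℝ) (by simpa using hγ) (l θ (v 1))
    have g2 : HasDerivAt (fun s : ℝ => L.n (θ + s * v 1)) (v 1 • deriv L.n θ) 0 :=
      HasDerivAt.scomp (0 : ℝ) (by simpa using hn) (l θ (v 1))
    have g3 := (((l 0 (v 2)).const_mul 2).div (((l 0 (v 2)).pow 2).const_add 1) (by simp))
    have h2 := (l 1 (v 0)).smul (g1.add (g3.smul (g2.sub ((l 0 (v 2)).smul g1))))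
    have h3 := h1.unique (h2.congr_of_eventuallyEq (Eventually.of_forall fun s => by
      simp [lkP, xiCone, xi_quarter, hy, -one_div]))
    simp only [zero_smul, add_zero] at h3
    rw [h3]
    simp
    module
  have hinj : Function.Injective (fderiv ℝ (lkP L) y) := by
    refine (injective_iff_map_eq_zero _).2 fun v hv => ?_
    rw [key] at hv
    have h0 := congrArg (fun x => ⟪L.γ θ, x⟫) hv
    have h1 := congrArg (fun x => ⟪deriv L.γ θ, x⟫) hv
    have h2 := congrArg (fun x => ⟪L.n θ, x⟫) hv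
    simp only [inner_add_right, inner_smul_right, inner_zero_right, real_inner_self_eq_norm_sq,
      L.γ_unit, L.n_unit, L.speed, L.orth, L.orth', ho, real_inner_comm (L.n θ),
      real_inner_comm (L.γ θ) (deriv L.γ θ)] at h0 h1 h2
    have hc := L.c_pos
    have h3 : v 1 = 0 := by
      have : v 1 * L.c ^ 2 = 0 := by linarith
      exact (mul_eq_zero.1 this).resolve_right (by positivity)
    ext i
    fin_cases i
    · simpa using h0
    · simpa using h3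
    · simpa using h2
  exact ContinuousLinearMap.isUnit_iff_bijective.2
    ⟨hinj, (LinearMap.injective_iff_surjective (f := (fderiv ℝ (lkP L) y).toLinearMap)).1 hinj⟩

lemma link_angle (L : Link) {θ θ' : ℝ} (h : L.γ θ = L.γ θ') : (θ : Real.Angle) = θ' := by
  have h1 : ∀ s : ℝ, toIcoMod Real.two_pi_pos 0 s ∈ Ico 0 (2 * π) := fun s => by
    simpa using toIcoMod_mem_Ico Real.two_pi_pos 0 s
  rw [← Real.Angle.coe_toIcoMod θ 0, ← Real.Angle.coe_toIcoMod θ' 0]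
  refine congrArg _ (L.inj (h1 θ) (h1 θ') ?_)
  rw [per_of_angle L.γ_periodic (Real.Angle.coe_toIcoMod θ 0),
    per_of_angle L.γ_periodic (Real.Angle.coe_toIcoMod θ' 0), h]

lemma tendsto_vec {α : Type} {l : Filter α} {f g : α → ℝ} {a b : ℝ} (hf : Tendsto f l (𝓝 a))
    (hg : Tendsto g l (𝓝 b)) :
    Tendsto (fun x => (!₂[1, f x, g x] : E3)) l (𝓝 !₂[1, a, b]) := by
  have h : Continuous fun p : ℝ × ℝ => (!₂[1, p.1, p.2] : E3) := by fun_prop
  exact (h.tendsto (a, b)).comp (hf.prodMk_nhds hg)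

lemma lkP_vec (L : Link) (θ b : ℝ) : lkP L !₂[1, θ, b] = xiCone L (1 / 4) θ b := by
  simp [lkP]

lemma xiCone_zero (L : Link) (θ : ℝ) : xiCone L (1 / 4) θ 0 = L.γ θ := by
  simp [xiCone, xi_quarter, -one_div]

lemma ev_lk_inj (L : Link) : ∀ᶠ b : ℝ × ℝ in 𝓝 0, ∀ θ θ' : ℝ,
    xiCone L (1 / 4) θ b.1 = xiCone L (1 / 4) θ' b.2 → (θ : Real.Angle) = θ' ∧ b.1 = b.2 := by
  have hK := (isCompact_Icc (a := (0 : ℝ)) (b := 2 * π)).prod
    (isCompact_Icc (a := (0 : ℝ)) (b := 2 * π))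
  have h := ev_compact (l := 𝓝 (0 : ℝ × ℝ)) hK (p := fun z => xiCone L (1 / 4) z.2.1 z.1.1
      = xiCone L (1 / 4) z.2.2 z.1.2 → (z.2.1 : Real.Angle) = z.2.2 ∧ z.1.1 = z.1.2) ?_
  · filter_upwards [h] with b hb θ θ' e
    have h1 : ∀ s : ℝ, toIcoMod Real.two_pi_pos 0 s ∈ Icc 0 (2 * π) := fun s =>
      Ico_subset_Icc_self (by simpa using toIcoMod_mem_Ico Real.two_pi_pos 0 s)
    have h2 := hb (toIcoMod Real.two_pi_pos 0 θ, toIcoMod Real.two_pi_pos 0 θ') ⟨h1 θ, h1 θ'⟩ (by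
      rw [xiCone_angle L _ _ (Real.Angle.coe_toIcoMod θ 0),
        xiCone_angle L _ _ (Real.Angle.coe_toIcoMod θ' 0), e])
    simpa only [Real.Angle.coe_toIcoMod] using h2
  rintro ⟨θ, θ'⟩ -
  rw [← nhds_prod_eq]
  have c1 : Tendsto (fun z : (ℝ × ℝ) × ℝ × ℝ => z.1.1) (𝓝 (0, θ, θ')) (𝓝 0) :=
    (by fun_prop : Continuous _).tendsto _
  have c2 : Tendsto (fun z : (ℝ × ℝ) × ℝ × ℝ => z.1.2) (𝓝 (0, θ, θ')) (𝓝 0) :=
    (by fun_prop : Continuous _).tendsto _
  have c3 : Tendsto (fun z : (ℝ × ℝ) × ℝ × ℝ => z.2.1) (𝓝 (0, θ, θ')) (𝓝 θ) :=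
    (by fun_prop : Continuous _).tendsto _
  have c4 : Tendsto (fun z : (ℝ × ℝ) × ℝ × ℝ => z.2.2) (𝓝 (0, θ, θ')) (𝓝 θ') :=
    (by fun_prop : Continuous _).tendsto _
  by_cases e : L.γ θ = L.γ θ'
  · obtain ⟨k, hk⟩ := Real.Angle.angle_eq_iff_two_pi_dvd_sub.1 (link_angle L e)
    obtain ⟨Φ, -, -, -, h4⟩ := exists_local_inv_cd (contDiff_lkP L).contDiffAt (by norm_num)
      (isUnit_lkP L θ)
    have c5 := c4.add_const (2 * π * k)
    rw [show θ' + 2 * π * k = θ by linarith] at c5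
    filter_upwards [(tendsto_vec c3 c1).eventually h4, (tendsto_vec c5 c2).eventually h4]
      with z h1 h2 h3
    have h5 : ((z.2.2 + 2 * π * k : ℝ) : Real.Angle) = z.2.2 :=
      Real.Angle.angle_eq_iff_two_pi_dvd_sub.2 ⟨k, by ring⟩
    rw [lkP_vec] at h1 h2
    rw [xiCone_angle L _ _ h5, ← h3, h1] at h2
    have h6 : z.2.1 = z.2.2 + 2 * π * k := by simpa using congrArg (fun x : E3 => x 1) h2
    exact ⟨by rw [h6, h5], by simpa using congrArg (fun x : E3 => x 2) h2⟩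
  · have d1 := ((contDiff_xiQ L).continuous.tendsto (θ, 0)).comp (c3.prodMk_nhds c1)
    have d2 := ((contDiff_xiQ L).continuous.tendsto (θ', 0)).comp (c4.prodMk_nhds c2)
    rw [xiCone_zero] at d1 d2
    filter_upwards [(d1.prodMk_nhds d2).eventually (isOpen_ne_fun continuous_fst
      continuous_snd |>.mem_nhds (show (L.γ θ, L.γ θ') ∈ {x : E3 × E3 | x.1 ≠ x.2} from e))]
      with z h1 h2
    exact absurd h2 h1

lemma ev_lk_inv (L : Link) : ∀ᶠ b : ℝ in 𝓝 0, ∀ θ : ℝ, ∃ (θ' : ℝ) (Φ : E3 → E3),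
    (θ : Real.Angle) = θ' ∧ ContDiffAt ℝ 2 Φ (xiCone L (1 / 4) θ' b) ∧
      Φ (xiCone L (1 / 4) θ' b) = !₂[1, θ', b] ∧
      ∀ᶠ u in 𝓝 (xiCone L (1 / 4) θ' b), lkP L (Φ u) = u := by
  have h := ev_compact (l := 𝓝 (0 : ℝ)) (isCompact_Icc (a := (0 : ℝ)) (b := 2 * π))
    (p := fun z => ∃ Φ : E3 → E3, ContDiffAt ℝ 2 Φ (lkP L !₂[1, z.2, z.1]) ∧
      Φ (lkP L !₂[1, z.2, z.1]) = !₂[1, z.2, z.1] ∧
      ∀ᶠ u in 𝓝 (lkP L !₂[1, z.2, z.1]), lkP L (Φ u) = u) ?_
  · filter_upwards [h] with b hb θ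
    obtain ⟨Φ, h1⟩ := hb (toIcoMod Real.two_pi_pos 0 θ)
      (Ico_subset_Icc_self (by simpa using toIcoMod_mem_Ico Real.two_pi_pos 0 θ))
    rw [lkP_vec] at h1
    exact ⟨_, Φ, (Real.Angle.coe_toIcoMod θ 0).symm, h1⟩
  intro θ _
  obtain ⟨Φ, h1, -, h3, h4⟩ := exists_local_inv_cd (contDiff_lkP L).contDiffAt (by norm_num)
    (isUnit_lkP L θ)
  have c := tendsto_vec (l := 𝓝 (0 : ℝ) ×ˢ 𝓝 θ) tendsto_snd tendsto_fst
  have c' := ((contDiff_lkP L).continuous.tendsto _).comp c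
  filter_upwards [c'.eventually (h1.eventually (by simp)), c.eventually h4,
    c'.eventually h3.eventually_nhds] with z e1 e2 e3 using ⟨Φ, e1, e2, e3⟩

lemma exp_angle {θ θ' : ℝ} (h : (θ : Real.Angle) = θ') : exp (θ * I) = exp (θ' * I) :=
  per_of_angle (h := fun s : ℝ => exp (s * I))
    (fun s => by simp only [ofReal_add, add_mul, exp_add]; simp) h

theorem exists_LC (L : Link) : ∃ τ z t, 0 < τ ∧ LC L τ z t := by
  classical
  obtain ⟨τ1, h1, H1⟩ := Metric.eventually_nhds_iff.1 (ev_lk_inj L)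
  obtain ⟨τ2, h2, H2⟩ := Metric.eventually_nhds_iff.1 (ev_lk_inv L)
  obtain ⟨τ, hτ, t1, t2⟩ : ∃ τ, 0 < τ ∧ τ ≤ τ1 ∧ τ ≤ τ2 :=
    ⟨min τ1 τ2, lt_min h1 h2, min_le_left _ _, min_le_right _ _⟩
  obtain ⟨G, G1, G2⟩ : ∃ G : E3 → ℝ × ℝ, (∀ x, |(G x).2| < τ →
      x = xiCone L (1 / 4) (G x).1 (G x).2) ∧ ∀ θ b, |b| < τ →
      |(G (xiCone L (1 / 4) θ b)).2| < τ := by
    refine ⟨fun x => if h : ∃ p : ℝ × ℝ, |p.2| < τ ∧ x = xiCone L (1 / 4) p.1 p.2 then h.choose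
      else (0, τ), fun x hx => ?_, fun θ b hb => ?_⟩
    · beta_reduce at hx ⊢
      split_ifs at hx ⊢ with h
      · exact h.choose_spec.2
      · exact absurd hx (by rw [abs_of_pos hτ]; exact lt_irrefl _)
    · have h : ∃ p : ℝ × ℝ, |p.2| < τ ∧ xiCone L (1 / 4) θ b = xiCone L (1 / 4) p.1 p.2 :=
        ⟨(θ, b), hb, rfl⟩
      simp only [dif_pos h]
      exact h.choose_spec.1
  have G3 : ∀ θ b, |b| < τ → exp ((G (xiCone L (1 / 4) θ b)).1 * I) = exp (θ * I) ∧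
      (G (xiCone L (1 / 4) θ b)).2 = b := fun θ b hb => by
    have h := H1 (y := (b, (G (xiCone L (1 / 4) θ b)).2)) (by
      rw [dist_zero_right, Prod.norm_def]
      exact max_lt (hb.trans_le t1) ((G2 θ b hb).trans_le t1)) θ _ (G1 _ (G2 θ b hb))
    exact ⟨(exp_angle h.1).symm, h.2.symm⟩
  refine ⟨τ, fun x => exp ((G (dir x)).1 * I), fun x => (G (dir x)).2, hτ,
    fun c x hc => by simp only [dir_smul hc, and_self], fun a θ b ha hb => ?_, fun x hx h => ?_⟩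
  · have h0 : xiCone L a θ b ≠ 0 := norm_pos_iff.1 (by rw [norm_xiCone]; positivity)
    obtain ⟨θ', Φ, e0, e1, e2, e3⟩ := H2 (y := b) (by
      rw [dist_zero_right]; exact hb.trans_le t2) θ
    rw [← xiCone_angle L _ _ e0, ← dir_xiCone L ha] at e1 e2 e3
    have hd := cd_dir h0
    have p1 : ∀ i, ContDiffAt ℝ 2 (fun x => Φ (dir x) i) (xiCone L a θ b) := fun i =>
      (EuclideanSpace.proj i : E3 →L[ℝ] ℝ).contDiff.contDiffAt.comp _ (e1.comp _ hd)
    have e4 : ∀ᶠ x in 𝓝 (xiCone L a θ b), exp ((G (dir x)).1 * I) = exp (Φ (dir x) 1 * I) ∧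
        (G (dir x)).2 = Φ (dir x) 2 := by
      have k2 : ∀ᶠ x in 𝓝 (xiCone L a θ b), |Φ (dir x) 2| < τ :=
        (p1 2).continuousAt.abs.eventually (eventually_lt_nhds (by simpa [e2] using hb))
      have k0 : ∀ᶠ x in 𝓝 (xiCone L a θ b), 0 < Φ (dir x) 0 :=
        (p1 0).continuousAt.eventually (eventually_gt_nhds (by simp [e2]))
      filter_upwards [hd.continuousAt.eventually e3, k2, k0, eventually_ne_nhds h0]
        with x j1 j2 j3 j4
      have j5 : dir x = xiCone L (1 / 4) (Φ (dir x) 1) (Φ (dir x) 2) := by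
        have j6 := congrArg dir j1
        rw [lkP, dir_smul j3, dir_xiCone L (by norm_num)] at j6
        rw [j6]
        exact (dir_smul (inv_pos.2 (norm_pos_iff.2 j4)) x).symm
      have := G3 (Φ (dir x) 1) _ j2
      rwa [← j5] at this
    refine ⟨by rw [dir_xiCone L ha]; exact (G3 θ b hb).1, by
      rw [dir_xiCone L ha]; exact (G3 θ b hb).2, ?_, ?_⟩
    · refine ContDiffAt.congr_of_eventuallyEq ?_ (e4.mono fun x hx => hx.1)
      exact (Complex.contDiff_exp (𝕜 := ℝ)).contDiffAt.comp _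
        ((ofRealCLM.contDiff.contDiffAt.comp _ (p1 1)).mul contDiffAt_const)
    · exact (p1 2).congr_of_eventuallyEq (e4.mono fun x hx => hx.2)
  · refine ⟨(G (dir x)).1, ?_⟩
    have h0 := norm_pos_iff.2 hx
    rw [xiCone, xi_scale, ← xiCone, ← G1 _ h, show ‖x‖ ^ 2 / 4 = (‖x‖ / 2) ^ 2 by ring,
      Real.sqrt_sq (by positivity), dir, smul_smul,
      show 2 * (‖x‖ / 2) * ‖x‖⁻¹ = 1 by field_simp, one_smul]

variable {S : Set E3} {w : E3 → ℝ} {δ C : ℝ} {ι κ M : Type} [TopologicalSpace M]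
  [ChartedSpace E2 M] {m : Model S w δ C ι κ M}

theorem RealFam.exists_geo [Finite ι] [Finite κ] {Q P : Type} [TopologicalSpace Q]
    [NormedAddCommGroup P] [NormedSpace ℝ P] {pa : Par Q P}
    (R : RealFam m pa) : Nonempty (Geo R) :=
  R.exists_geo_of exists_LC

end Vale.Agent.P218GE
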