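import Mathlib

/-! # P218, block GE: functions whose derivatives are bounded by powers of a weight

`PB n ω U f`: `f` is `C^n` on the open set `U` and its derivatives of order `≤ n` are bounded on
`U` by `K ω^q`. With `ω = 1` these are the bounded `C^n` functions, with `ω z = 1 + ‖z‖` the
functions of polynomial growth. -/

open Set Filter Topology

namespace Vale.Agent.P218GE

variable {X Y F G H : Type} [NormedAddCommGroup X] [NormedAddCommGroup Y]
  [NormedAddCommGroup F] [NormedAddCommGroup G] [NormedAddCommGroup H]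

/-- `f` is bounded on `U` by a multiple of a power of `ω` -/
def Bd {X F : Type} [NormedAddCommGroup F] (ω : X → ℝ) (U : Set X) (f : X → F) : Prop :=
  ∃ (K : ℝ) (q : ℕ), 0 ≤ K ∧ ∀ z ∈ U, ‖f z‖ ≤ K * ω z ^ q

section Bd

variable {X : Type} {ω : X → ℝ} {U V : Set X} {f : X → F} {g : X → G}

lemma Bd.of_le (h : Bd ω U g) (hf : ∀ z ∈ U, ‖f z‖ ≤ ‖g z‖) : Bd ω U f := by
  obtain ⟨K, q, hK, h⟩ := h
  exact ⟨K, q, hK, fun z hz => (hf z hz).trans (h z hz)⟩

lemma Bd.subset (h : Bd ω U f) (hV : V ⊆ U) : Bd ω V f := by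
  obtain ⟨K, q, hK, h⟩ := h
  exact ⟨K, q, hK, fun z hz => h z (hV hz)⟩

lemma Bd.congr {f' : X → F} (h : Bd ω U f) (hf : EqOn f' f U) : Bd ω U f' :=
  h.of_le fun z hz => by rw [hf hz]

lemma Bd.const (c : F) : Bd ω U fun _ => c :=
  ⟨‖c‖, 0, norm_nonneg _, fun _ _ => by simp⟩

lemma Bd.of_bound {C : ℝ} (h : ∀ z ∈ U, ‖f z‖ ≤ C) : Bd ω U f :=
  (Bd.const (ω := ω) (U := U) C).of_le fun z hz => (h z hz).trans (le_abs_self C)

lemma Bd.weight (hω : ∀ z, 1 ≤ ω z) : Bd ω U ω :=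
  ⟨1, 1, zero_le_one, fun z _ => by
    rw [Real.norm_eq_abs, abs_of_nonneg (zero_le_one.trans (hω z))]; simp⟩

lemma Bd.add_le (hω : ∀ z, 1 ≤ ω z) {k : X → H} (hf : Bd ω U f) (hg : Bd ω U g)
    (hk : ∀ z ∈ U, ‖k z‖ ≤ ‖f z‖ + ‖g z‖) : Bd ω U k := by
  obtain ⟨K, q, hK, h⟩ := hf
  obtain ⟨K', q', hK', h'⟩ := hg
  refine ⟨K + K', q + q', by positivity, fun z hz => (hk z hz).trans ?_⟩
  have h1 : ω z ^ q ≤ ω z ^ (q + q') := pow_le_pow_right₀ (hω z) (by omega)
  have h2 : ω z ^ q' ≤ ω z ^ (q + q') := pow_le_pow_right₀ (hω z) (by omega)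
  have := h z hz
  have := h' z hz
  nlinarith [mul_le_mul_of_nonneg_left h1 hK, mul_le_mul_of_nonneg_left h2 hK']

lemma Bd.mul_le (hω : ∀ z, 1 ≤ ω z) {k : X → H} (hf : Bd ω U f) (hg : Bd ω U g) {C : ℝ}
    (hk : ∀ z ∈ U, ‖k z‖ ≤ C * ‖f z‖ * ‖g z‖) : Bd ω U k := by
  obtain ⟨K, q, hK, h⟩ := hf
  obtain ⟨K', q', hK', h'⟩ := hg
  refine ⟨|C| * K * K', q + q', by positivity, fun z hz => (hk z hz).trans ?_⟩
  have h0 : 0 ≤ ω z := zero_le_one.trans (hω z)
  calc C * ‖f z‖ * ‖g z‖ ≤ |C| * ‖f z‖ * ‖g z‖ := by gcongr; exact le_abs_self C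
    _ ≤ |C| * (K * ω z ^ q) * (K' * ω z ^ q') := by
        gcongr
        · exact h z hz
        · exact h' z hz
    _ = _ := by rw [pow_add]; ring

lemma Bd.smul_le (hf : Bd ω U f) {C : ℝ} (hk : ∀ z ∈ U, ‖g z‖ ≤ C * ‖f z‖)
    (hω : ∀ z, 1 ≤ ω z) : Bd ω U g :=
  Bd.mul_le hω hf (Bd.const (1 : ℝ)) (C := C) fun z hz => by simpa using hk z hz

lemma Bd.comp {Y : Type} {ω' : Y → ℝ} {V : Set Y} {g : Y → G} {f : X → Y}
    (hω : ∀ z, 1 ≤ ω z) (hω' : ∀ y, 1 ≤ ω' y) (hg : Bd ω' V g)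
    (hV : MapsTo f U V) (hw : Bd ω U fun z => ω' (f z)) : Bd ω U fun z => g (f z) := by
  obtain ⟨K, q, hK, h⟩ := hg
  obtain ⟨K', q', hK', h'⟩ := hw
  refine ⟨K * K' ^ q, q' * q, by positivity, fun z hz => (h _ (hV hz)).trans ?_⟩
  have h0 : 0 ≤ ω' (f z) := zero_le_one.trans (hω' _)
  have h1 : ω' (f z) ≤ K' * ω z ^ q' := (le_abs_self _).trans (h' z hz)
  have h2 := hω z
  calc K * ω' (f z) ^ q ≤ K * (K' * ω z ^ q') ^ q := by gcongr
    _ = _ := by rw [mul_pow, ← pow_mul]; ring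

/-- finitely many bounds can be given with the same constants -/
lemma Bd.uniform (hω : ∀ z, 1 ≤ ω z) {n : ℕ} {u : ℕ → X → ℝ} (h : ∀ i ≤ n, Bd ω U (u i)) :
    ∃ (K : ℝ) (q : ℕ), 0 ≤ K ∧ ∀ i ≤ n, ∀ z ∈ U, u i z ≤ K * ω z ^ q := by
  induction n with
  | zero =>
    obtain ⟨K, q, hK, h⟩ := h 0 le_rfl
    refine ⟨K, q, hK, fun i hi z hz => ?_⟩
    obtain rfl : i = 0 := by omega
    exact (le_abs_self _).trans (h z hz)
  | succ n ih =>
    obtain ⟨K, q, hK, h1⟩ := ih fun i hi => h i (by omega)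
    obtain ⟨K', q', hK', h2⟩ := h (n + 1) le_rfl
    refine ⟨K + K', q + q', by positivity, fun i hi z hz => ?_⟩
    have e1 : ω z ^ q ≤ ω z ^ (q + q') := pow_le_pow_right₀ (hω z) (by omega)
    have e2 : ω z ^ q' ≤ ω z ^ (q + q') := pow_le_pow_right₀ (hω z) (by omega)
    have e0 : 0 ≤ ω z ^ (q + q') := pow_nonneg (zero_le_one.trans (hω z)) _
    rcases Nat.lt_or_ge i (n + 1) with hi' | hi'
    · have := h1 i (by omega) z hz
      nlinarith [mul_le_mul_of_nonneg_left e1 hK, mul_nonneg hK' e0]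
    · obtain rfl : i = n + 1 := by omega
      have := (le_abs_self _).trans (h2 z hz)
      nlinarith [mul_le_mul_of_nonneg_left e2 hK', mul_nonneg hK e0]

end Bd

variable [NormedSpace ℝ X] [NormedSpace ℝ Y] [NormedSpace ℝ F] [NormedSpace ℝ G]
  [NormedSpace ℝ H]

/-- `f` is `C^n` on the open set `U`, with derivatives bounded by powers of the weight `ω ≥ 1` -/
structure PB (n : ℕ) (ω : X → ℝ) (U : Set X) (f : X → F) : Prop where
  op : IsOpen U
  one : ∀ z, 1 ≤ ω z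
  cd : ContDiffOn ℝ n f U
  bd : ∀ i ≤ n, Bd ω U (iteratedFDeriv ℝ i f)

variable {n : ℕ} {ω : X → ℝ} {U V : Set X} {f : X → F} {g : X → G}

lemma PB.bd0 (h : PB n ω U f) : Bd ω U f :=
  (h.bd 0 (Nat.zero_le _)).of_le fun z _ => by rw [norm_iteratedFDeriv_zero]

lemma PB.zero (hU : IsOpen U) (hω : ∀ z, 1 ≤ ω z) (hc : ContinuousOn f U) (hb : Bd ω U f) :
    PB 0 ω U f := by
  refine ⟨hU, hω, by simpa using hc, fun i hi => ?_⟩
  obtain rfl : i = 0 := by omega
  exact hb.of_le fun z _ => by rw [norm_iteratedFDeriv_zero]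

lemma PB.of_le {m : ℕ} (h : PB n ω U f) (hm : m ≤ n) : PB m ω U f :=
  ⟨h.op, h.one, h.cd.of_le (by exact_mod_cast hm), fun i hi => h.bd i (hi.trans hm)⟩

lemma PB.cont (h : PB n ω U f) : ContinuousOn f U := h.cd.continuousOn

lemma PB.cdAt (h : PB n ω U f) {z : X} (hz : z ∈ U) : ContDiffAt ℝ n f z :=
  h.cd.contDiffAt (h.op.mem_nhds hz)

lemma PB.diffAt (h : PB (n + 1) ω U f) {z : X} (hz : z ∈ U) : DifferentiableAt ℝ f z :=
  (h.cdAt hz).differentiableAt (by simp)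

lemma PB.fderiv (h : PB (n + 1) ω U f) : PB n ω U (fderiv ℝ f) := by
  refine ⟨h.op, h.one, ?_, fun i hi => ?_⟩
  · have := h.cd
    push_cast at this
    exact ((contDiffOn_succ_iff_fderiv_of_isOpen h.op).1 this).2.2
  · exact (h.bd (i + 1) (by omega)).of_le fun z _ => by rw [norm_iteratedFDeriv_fderiv]

lemma PB.succ (hd : ∀ z ∈ U, DifferentiableAt ℝ f z) (hb : Bd ω U f)
    (h : PB n ω U (_root_.fderiv ℝ f)) : PB (n + 1) ω U f := by
  refine ⟨h.op, h.one, ?_, fun i hi => ?_⟩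
  · push_cast
    refine (contDiffOn_succ_iff_fderiv_of_isOpen h.op).2
      ⟨fun z hz => (hd z hz).differentiableWithinAt, by simp, h.cd⟩
  · rcases i with _ | i
    · exact hb.of_le fun z _ => by rw [norm_iteratedFDeriv_zero]
    · exact (h.bd i (by omega)).of_le fun z _ => by rw [norm_iteratedFDeriv_fderiv]

lemma PB.subset (h : PB n ω U f) (hV : IsOpen V) (hVU : V ⊆ U) : PB n ω V f :=
  ⟨hV, h.one, h.cd.mono hVU, fun i hi => (h.bd i hi).subset hVU⟩

lemma PB.congr {f' : X → F} (h : PB n ω U f) (hf : EqOn f' f U) : PB n ω U f' := by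
  refine ⟨h.op, h.one, h.cd.congr hf, fun i hi => (h.bd i hi).congr fun z hz => ?_⟩
  have : f' =ᶠ[𝓝 z] f := (eventually_of_mem (h.op.mem_nhds hz) hf)
  exact (this.iteratedFDeriv ℝ i).eq_of_nhds

/-- a larger weight -/
lemma PB.weaken {ω' : X → ℝ} (h : PB n ω U f) (hω' : ∀ z, 1 ≤ ω' z) (hw : Bd ω' U ω) :
    PB n ω' U f :=
  ⟨h.op, hω', h.cd, fun i hi =>
    Bd.comp (f := fun z => z) hω' h.one (h.bd i hi) (fun _ hz => hz) hw⟩

/-- successor with a given derivative -/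
lemma PB.succ' {f' : X → X →L[ℝ] F} (hd : ∀ z ∈ U, HasFDerivAt f (f' z) z) (hb : Bd ω U f)
    (h : PB n ω U f') : PB (n + 1) ω U f :=
  PB.succ (fun z hz => (hd z hz).differentiableAt) hb (h.congr fun z hz => (hd z hz).fderiv)

/-- the bootstrap: if the derivative is as good as the function, the function is good -/
lemma PB.boot {f' : X → X →L[ℝ] F} (hU : IsOpen U) (hω : ∀ z, 1 ≤ ω z)
    (hd : ∀ z ∈ U, HasFDerivAt f (f' z) z) (hb : Bd ω U f)
    (h : ∀ k < n, PB k ω U f → PB k ω U f') : PB n ω U f := by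
  induction n with
  | zero => exact PB.zero hU hω (fun z hz => (hd z hz).continuousAt.continuousWithinAt) hb
  | succ n ih => exact PB.succ' hd hb (h n (by omega) (ih fun k hk => h k (by omega)))

lemma PB.const (hU : IsOpen U) (hω : ∀ z, 1 ≤ ω z) (c : F) : PB n ω U fun _ => c := by
  induction n generalizing F with
  | zero => exact PB.zero hU hω continuousOn_const (Bd.const c)
  | succ n ih =>
    exact PB.succ' (f' := fun _ => 0) (fun z _ => hasFDerivAt_const c z) (Bd.const c) (ih 0)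

lemma PB.clm (hU : IsOpen U) (hω : ∀ z, 1 ≤ ω z) (L : X →L[ℝ] F) (hb : Bd ω U L) :
    PB n ω U L := by
  rcases n with _ | n
  · exact PB.zero hU hω L.continuous.continuousOn hb
  · exact PB.succ' (f' := fun _ => L) (fun z _ => L.hasFDerivAt) hb (PB.const hU hω L)

lemma PB.id (hU : IsOpen U) (hω : ∀ z, 1 ≤ ω z) (hb : Bd ω U fun z => z) :
    PB n ω U fun z => z :=
  PB.clm hU hω (ContinuousLinearMap.id ℝ X) hb

lemma PB.add {f' : X → F} (hf : PB n ω U f) (hg : PB n ω U f') :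
    PB n ω U fun z => f z + f' z := by
  induction n generalizing F with
  | zero =>
    exact PB.zero hf.op hf.one (hf.cont.add hg.cont)
      (Bd.add_le hf.one hf.bd0 hg.bd0 fun z _ => norm_add_le _ _)
  | succ n ih =>
    exact PB.succ' (fun z hz => (hf.diffAt hz).hasFDerivAt.add (hg.diffAt hz).hasFDerivAt)
      (Bd.add_le hf.one hf.bd0 hg.bd0 fun z _ => norm_add_le _ _) (ih hf.fderiv hg.fderiv)

lemma PB.bilin (B : F →L[ℝ] G →L[ℝ] H) (hf : PB n ω U f) (hg : PB n ω U g) :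
    PB n ω U fun z => B (f z) (g z) := by
  induction n generalizing F G H with
  | zero =>
    exact PB.zero hf.op hf.one ((B.continuous.comp_continuousOn hf.cont).clm_apply hg.cont)
      (Bd.mul_le hf.one hf.bd0 hg.bd0 fun z _ => B.le_opNorm₂ _ _)
  | succ n ih =>
    exact PB.succ'
      (fun z hz => B.hasFDerivAt_of_bilinear (hf.diffAt hz).hasFDerivAt (hg.diffAt hz).hasFDerivAt)
      (Bd.mul_le hf.one hf.bd0 hg.bd0 fun z _ => B.le_opNorm₂ _ _)
      ((ih (B.precompR X) (hf.of_le (Nat.le_succ n)) hg.fderiv).add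
        (ih (B.precompL X) hf.fderiv (hg.of_le (Nat.le_succ n))))

lemma PB.map (L : F →L[ℝ] G) (hf : PB n ω U f) : PB n ω U fun z => L (f z) :=
  PB.bilin (ContinuousLinearMap.apply ℝ G) hf (PB.const hf.op hf.one L)

lemma PB.neg (hf : PB n ω U f) : PB n ω U fun z => -f z :=
  hf.map (-ContinuousLinearMap.id ℝ F)

lemma PB.sub {f' : X → F} (hf : PB n ω U f) (hg : PB n ω U f') :
    PB n ω U fun z => f z - f' z := by
  simpa only [sub_eq_add_neg] using hf.add hg.neg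

lemma PB.smul {c : X → ℝ} (hc : PB n ω U c) (hf : PB n ω U f) :
    PB n ω U fun z => c z • f z :=
  PB.bilin (ContinuousLinearMap.lsmul ℝ ℝ) hc hf

lemma PB.const_smul (c : ℝ) (hf : PB n ω U f) : PB n ω U fun z => c • f z :=
  (PB.const hf.op hf.one c).smul hf

lemma PB.mul {c d : X → ℝ} (hc : PB n ω U c) (hd : PB n ω U d) :
    PB n ω U fun z => c z * d z :=
  hc.smul hd

lemma PB.const_mul (c : ℝ) {d : X → ℝ} (hd : PB n ω U d) : PB n ω U fun z => c * d z :=
  (PB.const hd.op hd.one c).mul hd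

lemma PB.pow {c : X → ℝ} (hc : PB n ω U c) (k : ℕ) : PB n ω U fun z => c z ^ k := by
  induction k with
  | zero => simpa using PB.const hc.op hc.one (1 : ℝ)
  | succ k ih => simpa only [pow_succ] using ih.mul hc

lemma PB.sum {ι : Type*} (s : Finset ι) (hU : IsOpen U) (hω : ∀ z, 1 ≤ ω z) {u : ι → X → F}
    (h : ∀ i ∈ s, PB n ω U (u i)) : PB n ω U fun z => ∑ i ∈ s, u i z := by
  classical
  induction s using Finset.induction_on with
  | empty => simpa using PB.const hU hω (0 : F)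
  | insert a s ha ih =>
    simp only [Finset.sum_insert ha]
    exact (h a (by simp)).add (ih fun i hi => h i (by simp [hi]))

lemma PB.prodMk (hf : PB n ω U f) (hg : PB n ω U g) : PB n ω U fun z => (f z, g z) := by
  simpa using (hf.map (ContinuousLinearMap.inl ℝ F G)).add (hg.map (ContinuousLinearMap.inr ℝ F G))

lemma PB.fst {k : X → F × G} (h : PB n ω U k) : PB n ω U fun z => (k z).1 :=
  h.map (ContinuousLinearMap.fst ℝ F G)

lemma PB.snd {k : X → F × G} (h : PB n ω U k) : PB n ω U fun z => (k z).2 :=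
  h.map (ContinuousLinearMap.snd ℝ F G)

lemma PB.clm_apply {A : X → F →L[ℝ] G} (hA : PB n ω U A) (hf : PB n ω U f) :
    PB n ω U fun z => A z (f z) :=
  PB.bilin (ContinuousLinearMap.apply ℝ G) hf hA

lemma PB.clm_comp {A : X → G →L[ℝ] H} {B : X → F →L[ℝ] G} (hA : PB n ω U A) (hB : PB n ω U B) :
    PB n ω U fun z => (A z).comp (B z) :=
  PB.bilin (ContinuousLinearMap.compL ℝ F G H) hA hB

lemma PB.comp {ω' : Y → ℝ} {V : Set Y} {g : Y → G} {f : X → Y} (hg : PB n ω' V g)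
    (hf : PB n ω U f) (hV : MapsTo f U V) (hw : Bd ω U fun z => ω' (f z)) :
    PB n ω U fun z => g (f z) := by
  induction n generalizing G with
  | zero =>
    exact PB.zero hf.op hf.one (hg.cont.comp hf.cont hV) (Bd.comp hf.one hg.one hg.bd0 hV hw)
  | succ n ih =>
    exact PB.succ' (fun z hz => (hg.diffAt (hV hz)).hasFDerivAt.comp z (hf.diffAt hz).hasFDerivAt)
      (Bd.comp hf.one hg.one hg.bd0 hV hw)
      ((ih hg.fderiv (hf.of_le (Nat.le_succ n))).clm_comp hf.fderiv)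

/-- composition when only the derivative of the inner function is bounded -/
lemma PB.comp' {ω' : Y → ℝ} {V : Set Y} {g : Y → G} {f : X → Y} {f' : X → X →L[ℝ] Y}
    (hg : PB (n + 1) ω' V g) (hd : ∀ z ∈ U, HasFDerivAt f (f' z) z)
    (hf : PB n ω U f') (hV : MapsTo f U V) (hw : Bd ω U fun z => ω' (f z)) :
    PB (n + 1) ω U fun z => g (f z) := by
  induction n generalizing G with
  | zero =>
    refine PB.succ' (fun z hz => (hg.diffAt (hV hz)).hasFDerivAt.comp z (hd z hz))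
      (Bd.comp hf.one hg.one hg.bd0 hV hw) (PB.clm_comp ?_ hf)
    exact PB.zero hf.op hf.one (hg.fderiv.cont.comp
      (fun z hz => (hd z hz).continuousAt.continuousWithinAt) hV)
      (Bd.comp hf.one hg.one hg.fderiv.bd0 hV hw)
  | succ n ih =>
    exact PB.succ' (fun z hz => (hg.diffAt (hV hz)).hasFDerivAt.comp z (hd z hz))
      (Bd.comp hf.one hg.one hg.bd0 hV hw)
      ((ih hg.fderiv (hf.of_le (Nat.le_succ n))).clm_comp hf)

/-- the inverse in a Banach algebra -/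
lemma PB.ringInverse {R : Type} [NormedRing R] [NormedAlgebra ℝ R] [CompleteSpace R] {A : X → R}
    (hA : PB n ω U A) (hu : ∀ z ∈ U, IsUnit (A z)) (hb : Bd ω U fun z => Ring.inverse (A z)) :
    PB n ω U fun z => Ring.inverse (A z) := by
  rcases n with _ | n
  · refine PB.zero hA.op hA.one (fun z hz => ?_) hb
    obtain ⟨u, hu⟩ := hu z hz
    have h1 : ContinuousAt Ring.inverse (A z) := hu ▸ NormedRing.inverse_continuousAt u
    exact h1.comp_continuousWithinAt (hA.cont z hz)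
  refine PB.boot (f' := fun z => (-ContinuousLinearMap.mulLeftRight ℝ R (Ring.inverse (A z))
    (Ring.inverse (A z))).comp (_root_.fderiv ℝ A z)) hA.op hA.one (fun z hz => ?_) hb
    fun k hk h => ?_
  · obtain ⟨u, hu⟩ := hu z hz
    have h1 := hasFDerivAt_ringInverse (𝕜 := ℝ) u
    rw [← Ring.inverse_unit, hu] at h1
    exact h1.comp z (hA.diffAt hz).hasFDerivAt
  · exact (PB.bilin (ContinuousLinearMap.mulLeftRight ℝ R) h h).neg.clm_comp
      (hA.fderiv.of_le (by omega))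

lemma PB.inv {c : X → ℝ} (hc : PB n ω U c) (hu : ∀ z ∈ U, c z ≠ 0)
    (hb : Bd ω U fun z => (c z)⁻¹) : PB n ω U fun z => (c z)⁻¹ := by
  simpa only [Ring.inverse_eq_inv] using
    hc.ringInverse (fun z hz => (hu z hz).isUnit) (by simpa only [Ring.inverse_eq_inv] using hb)

lemma PB.inv_of_le {c : X → ℝ} (hc : PB n ω U c) {ε : ℝ} (hε : 0 < ε) (hu : ∀ z ∈ U, ε ≤ |c z|) :
    PB n ω U fun z => (c z)⁻¹ := by
  refine hc.inv (fun z hz h => ?_) (Bd.of_bound (C := ε⁻¹) fun z hz => ?_)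
  · have := hu z hz
    rw [h, abs_zero] at this
    linarith
  · rw [norm_inv, Real.norm_eq_abs]
    exact inv_anti₀ hε (hu z hz)

lemma PB.sqrt {c : X → ℝ} (hc : PB n ω U c) (hu : ∀ z ∈ U, 0 < c z)
    (hb : Bd ω U fun z => (c z)⁻¹) : PB n ω U fun z => √(c z) := by
  have hb0 : Bd ω U fun z => √(c z) := by
    refine Bd.add_le hc.one (Bd.const (1 : ℝ)) hc.bd0 fun z hz => ?_
    rw [Real.norm_eq_abs, abs_of_nonneg (Real.sqrt_nonneg _), norm_one, Real.norm_eq_abs,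
      abs_of_pos (hu z hz)]
    nlinarith [Real.sq_sqrt (hu z hz).le, sq_nonneg (√(c z) - 1), hu z hz]
  rcases n with _ | n
  · exact PB.zero hc.op hc.one hc.cont.sqrt hb0
  refine PB.boot (f' := fun z => ((1 / 2 : ℝ) * (√(c z) * (c z)⁻¹)) • _root_.fderiv ℝ c z)
    hc.op hc.one (fun z hz => ?_) hb0 fun k hk h => ?_
  · have h1 := Real.sqrt_pos.2 (hu z hz)
    have h2 := Real.mul_self_sqrt (hu z hz).le
    have h3 := hu z hz
    have e : (1 / 2 : ℝ) * (√(c z) * (c z)⁻¹) = 1 / (2 * √(c z)) := by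
      field_simp
      nlinarith
    rw [e]
    exact (hc.diffAt hz).hasFDerivAt.sqrt (hu z hz).ne'
  · exact ((h.mul ((hc.inv (fun z hz => (hu z hz).ne') hb).of_le (by omega))).const_mul _).smul
      (hc.fderiv.of_le (by omega))

/-- all bounds with the same constants -/
lemma PB.uniform (h : PB n ω U f) :
    ∃ (K : ℝ) (q : ℕ), 0 ≤ K ∧ ∀ i ≤ n, ∀ z ∈ U, ‖iteratedFDeriv ℝ i f z‖ ≤ K * ω z ^ q :=
  Bd.uniform h.one (u := fun i z => ‖iteratedFDeriv ℝ i f z‖) fun i hi =>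
    (h.bd i hi).of_le fun z _ => by rw [norm_norm]

/-- a function which is good on two open sets is good on their union -/
lemma PB.union (h1 : PB n ω U f) (h2 : PB n ω V f) : PB n ω (U ∪ V) f := by
  refine ⟨h1.op.union h2.op, h1.one, fun z hz => ?_, fun i hi => ?_⟩
  · rcases hz with hz | hz
    · exact (h1.cdAt hz).contDiffWithinAt
    · exact (h2.cdAt hz).contDiffWithinAt
  · obtain ⟨K, q, hK, h⟩ := h1.bd i hi
    obtain ⟨K', q', hK', h'⟩ := h2.bd i hi
    refine ⟨K + K', q + q', by positivity, fun z hz => ?_⟩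
    have e1 : ω z ^ q ≤ ω z ^ (q + q') := pow_le_pow_right₀ (h1.one z) (by omega)
    have e2 : ω z ^ q' ≤ ω z ^ (q + q') := pow_le_pow_right₀ (h1.one z) (by omega)
    have e0 : 0 ≤ ω z ^ (q + q') := pow_nonneg (zero_le_one.trans (h1.one z)) _
    rcases hz with hz | hz
    · nlinarith [mul_le_mul_of_nonneg_left e1 hK, mul_nonneg hK' e0, h z hz]
    · nlinarith [mul_le_mul_of_nonneg_left e2 hK', mul_nonneg hK e0, h' z hz]

end Vale.Agent.P218GE
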