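import Vale.Agent.P218GE.DJI

/-! # P218, block GE: families of functions with uniform bounds of two derivatives

`SB 𝓕 μ a f`: along the filter `𝓕` on (index, point), `f = O(μ)`, `D f = O(μ a)`,
`D² f = O(μ a²)`. `S1` has one derivative only, `S2 𝓕 ν a f` has no bound for `f` itself:
`D f = O(ν)`, `D² f = O(ν a)`. -/

open Set Filter Topology Metric Asymptotics

set_option linter.unusedSectionVars false

namespace Vale.Agent.P218GE

variable {I J X F G H : Type} [NormedAddCommGroup X] [NormedSpace ℝ X]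
  [NormedAddCommGroup F] [NormedSpace ℝ F] [NormedAddCommGroup G] [NormedSpace ℝ G]
  [NormedAddCommGroup H] [NormedSpace ℝ H]

/-- see the header -/
structure S1 (𝓕 : Filter (I × X)) (μ a : I × X → ℝ) (f : I × X → F) : Prop where
  cd : ∀ᶠ z in 𝓕, ContDiffAt ℝ 1 (sec f z.1) z.2
  b0 : f =O[𝓕] μ
  b1 : dx f =O[𝓕] fun z => μ z * a z

/-- see the header -/
structure S2 (𝓕 : Filter (I × X)) (ν a : I × X → ℝ) (f : I × X → F) : Prop where
  cd : ∀ᶠ z in 𝓕, ContDiffAt ℝ 2 (sec f z.1) z.2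
  d1 : S1 𝓕 ν a (dx f)

/-- see the header -/
structure SB (𝓕 : Filter (I × X)) (μ a : I × X → ℝ) (f : I × X → F) : Prop
    extends S2 𝓕 (fun z => μ z * a z) a f where
  b0 : f =O[𝓕] μ

variable {𝓕 : Filter (I × X)} {μ ν a μ' a' : I × X → ℝ} {f f' : I × X → F} {g : I × X → G}

section S1

lemma S1.reindex {𝓖 : Filter (J × X)} {k : J × X → F} {φ : J × X → I} (h : S1 𝓕 μ a f)
    (hφ : Tendsto (fun z => (φ z, z.2)) 𝓖 𝓕)
    (he : ∀ᶠ z in 𝓖, sec k z.1 =ᶠ[𝓝 z.2] sec f (φ z)) :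
    S1 𝓖 (fun z => μ (φ z, z.2)) (fun z => a (φ z, z.2)) k := by
  refine ⟨?_, (h.b0.comp_tendsto hφ).congr' ?_ EventuallyEq.rfl,
    (h.b1.comp_tendsto hφ).congr' ?_ EventuallyEq.rfl⟩
  · filter_upwards [hφ.eventually h.cd, he] with z h1 h2 using h1.congr_of_eventuallyEq h2
  · filter_upwards [he] with z h2 using h2.eq_of_nhds.symm
  · filter_upwards [he] with z h2 using h2.fderiv_eq.symm

lemma S1.congr (h : S1 𝓕 μ a f) (he : ∀ᶠ z in 𝓕, sec f' z.1 =ᶠ[𝓝 z.2] sec f z.1) :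
    S1 𝓕 μ a f' := h.reindex (φ := Prod.fst) tendsto_id he

lemma S1.mono (h : S1 𝓕 μ a f) (h0 : μ =O[𝓕] μ')
    (h1 : (fun z => μ z * a z) =O[𝓕] fun z => μ' z * a' z) : S1 𝓕 μ' a' f :=
  ⟨h.cd, h.b0.trans h0, h.b1.trans h1⟩

lemma S1.monoW (h : S1 𝓕 μ a f) (h0 : μ =O[𝓕] μ') : S1 𝓕 μ' a f :=
  h.mono h0 (h0.mul (isBigO_refl _ _))

lemma S1.diff (h : S1 𝓕 μ a f) : ∀ᶠ z in 𝓕, HasFDerivAt (sec f z.1) (dx f z) z.2 :=
  h.cd.mono fun _ hz => (hz.differentiableAt one_ne_zero).hasFDerivAt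

lemma S1.add (h : S1 𝓕 μ a f) (h' : S1 𝓕 μ a f') : S1 𝓕 μ a fun z => f z + f' z := by
  refine ⟨?_, h.b0.add h'.b0, (h.b1.add h'.b1).congr' ?_ EventuallyEq.rfl⟩
  · filter_upwards [h.cd, h'.cd] with z h1 h2 using h1.add h2
  · filter_upwards [h.diff, h'.diff] with z h1 h2 using (h1.add h2).fderiv.symm

lemma bigO_bilin {Z : Type} {l : Filter Z} (B : F →L[ℝ] G →L[ℝ] H) {u : Z → F} {v : Z → G}
    {p q : Z → ℝ} (hu : u =O[l] p) (hv : v =O[l] q) :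
    (fun z => B (u z) (v z)) =O[l] fun z => p z * q z := by
  refine IsBigO.trans (IsBigO.of_bound ‖B‖ (Eventually.of_forall fun z => ?_))
    (hu.norm_left.mul hv.norm_left)
  rw [norm_mul, norm_norm, norm_norm, ← mul_assoc]
  exact B.le_opNorm₂ _ _

lemma S1.bilin (B : F →L[ℝ] G →L[ℝ] H) (h : S1 𝓕 μ a f) (h' : S1 𝓕 ν a g) :
    S1 𝓕 (fun z => μ z * ν z) a fun z => B (f z) (g z) := by
  refine ⟨?_, bigO_bilin B h.b0 h'.b0, ?_⟩
  · filter_upwards [h.cd, h'.cd] with z h1 h2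
    exact (B.contDiff.contDiffAt.comp z.2 h1).clm_apply h2
  · have h1 := (bigO_bilin (B.precompR X) h.b0 h'.b1).congr_right
      (g₂ := fun z => μ z * ν z * a z) fun z => by ring
    have h2 := (bigO_bilin (B.precompL X) h.b1 h'.b0).congr_right
      (g₂ := fun z => μ z * ν z * a z) fun z => by ring
    refine (h1.add h2).congr' ?_ EventuallyEq.rfl
    filter_upwards [h.diff, h'.diff] with z e1 e2
    exact (B.hasFDerivAt_of_bilinear e1 e2).fderiv.symm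

lemma S1.comp {𝓖 : Filter (I × F)} {k : I × F → G} {m : I × F → ℝ} (hk : S1 𝓖 m (fun _ => 1) k)
    (hc : ∀ᶠ z in 𝓕, ContDiffAt ℝ 1 (sec f z.1) z.2) (hf : dx f =O[𝓕] a)
    (hg : Tendsto (fun z => (z.1, f z)) 𝓕 𝓖) :
    S1 𝓕 (fun z => m (z.1, f z)) a fun z => k (z.1, f z) := by
  refine ⟨?_, hk.b0.comp_tendsto hg, ?_⟩
  · filter_upwards [hg.eventually hk.cd, hc] with z e1 e2
    exact ContDiffAt.comp (g := sec k z.1) z.2 e1 e2
  · refine (bigO_bilin (ContinuousLinearMap.compL ℝ X F G) (hk.b1.comp_tendsto hg) hf).congr' ?_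
      (Eventually.of_forall fun z => by simp)
    filter_upwards [hg.eventually hk.diff, hc] with z e1 e2
    exact (HasFDerivAt.comp (g := sec k z.1) z.2 e1
      (e2.differentiableAt one_ne_zero).hasFDerivAt).fderiv.symm

lemma S1.param {c : I → F} (hc : (fun z : I × X => c z.1) =O[𝓕] μ) :
    S1 𝓕 μ a fun z => c z.1 :=
  ⟨Eventually.of_forall fun z => contDiffAt_const (c := c z.1), hc,
    (isBigO_zero _ _).congr_left fun z => (hasFDerivAt_const (c z.1) z.2).fderiv.symm⟩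

lemma bigO_compact {Z : Type} [TopologicalSpace Z] {k : Z → G} {K : Set Z} (hK : IsCompact K)
    (hk : ∀ y ∈ K, ContinuousAt k y) :
    (fun z : I × Z => k z.2) =O[𝓟 (Prod.snd ⁻¹' K)] fun _ => (1 : ℝ) := by
  obtain ⟨C, hC⟩ := hK.exists_bound_of_continuousOn fun y hy => (hk y hy).continuousWithinAt
  exact IsBigO.of_bound C (eventually_principal.2 fun z hz => by simpa using hC _ hz)

lemma S1.of_compact {k : F → G} {K : Set F} (hK : IsCompact K)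
    (hk : ∀ y ∈ K, ContDiffAt ℝ 1 k y) :
    S1 (𝓟 (Prod.snd ⁻¹' K)) (fun _ => 1) (fun _ => 1) fun z : I × F => k z.2 :=
  ⟨eventually_principal.2 fun _ hz => hk _ hz, bigO_compact hK fun y hy => (hk y hy).continuousAt,
    (bigO_compact hK fun y hy => (hk y hy).continuousAt_fderiv one_ne_zero).congr_right
      fun _ => (mul_one _).symm⟩

lemma S1.map_compact {k : F → G} {K : Set F} (hK : IsCompact K)
    (hk : ∀ y ∈ K, ContDiffAt ℝ 1 k y) (h : S1 𝓕 (fun _ => 1) a f) (hm : ∀ᶠ z in 𝓕, f z ∈ K) :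
    S1 𝓕 (fun _ => 1) a fun z => k (f z) :=
  (S1.of_compact hK hk).comp h.cd (h.b1.congr_right fun _ => one_mul _) (tendsto_principal.2 hm)

lemma S1.sup {𝓖 : Filter (I × X)} (h : S1 𝓕 μ a f) (h' : S1 𝓖 μ a f) : S1 (𝓕 ⊔ 𝓖) μ a f :=
  ⟨eventually_sup.2 ⟨h.cd, h'.cd⟩, h.b0.sup h'.b0, h.b1.sup h'.b1⟩

end S1

section S2

lemma ev_dx {J : Type} {k : J × X → F} {j : J} {i : I} {x : X}
    (h : sec k j =ᶠ[𝓝 x] sec f i) : sec (dx k) j =ᶠ[𝓝 x] sec (dx f) i := h.fderiv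

lemma S2.reindex {𝓖 : Filter (J × X)} {k : J × X → F} {φ : J × X → I} (h : S2 𝓕 ν a f)
    (hφ : Tendsto (fun z => (φ z, z.2)) 𝓖 𝓕)
    (he : ∀ᶠ z in 𝓖, sec k z.1 =ᶠ[𝓝 z.2] sec f (φ z)) :
    S2 𝓖 (fun z => ν (φ z, z.2)) (fun z => a (φ z, z.2)) k := by
  refine ⟨?_, h.d1.reindex hφ (he.mono fun _ => ev_dx)⟩
  filter_upwards [hφ.eventually h.cd, he] with z h1 h2 using h1.congr_of_eventuallyEq h2

lemma S2.congr (h : S2 𝓕 ν a f) (he : ∀ᶠ z in 𝓕, sec f' z.1 =ᶠ[𝓝 z.2] sec f z.1) :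
    S2 𝓕 ν a f' := h.reindex (φ := Prod.fst) tendsto_id he

lemma S2.filter {𝓖 : Filter (I × X)} (h : S2 𝓕 ν a f) (hl : 𝓖 ≤ 𝓕) : S2 𝓖 ν a f :=
  h.reindex (φ := Prod.fst) hl (Eventually.of_forall fun _ => EventuallyEq.rfl)

lemma S2.mono (h : S2 𝓕 μ a f) (h0 : μ =O[𝓕] μ')
    (h1 : (fun z => μ z * a z) =O[𝓕] fun z => μ' z * a' z) : S2 𝓕 μ' a' f :=
  ⟨h.cd, h.d1.mono h0 h1⟩

lemma S2.cd1 (h : S2 𝓕 ν a f) : ∀ᶠ z in 𝓕, ContDiffAt ℝ 1 (sec f z.1) z.2 :=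
  h.cd.mono fun _ hz => hz.of_le (by norm_num)

lemma S2.diff (h : S2 𝓕 ν a f) :
    ∀ᶠ z in 𝓕, ∀ᶠ x in 𝓝 z.2, HasFDerivAt (sec f z.1) (dx f (z.1, x)) x :=
  h.cd.mono fun _ hz => (hz.eventually (by simp)).mono fun _ hx =>
    (hx.differentiableAt (by norm_num)).hasFDerivAt

lemma S2.add (h : S2 𝓕 ν a f) (h' : S2 𝓕 ν a f') : S2 𝓕 ν a fun z => f z + f' z := by
  refine ⟨?_, (h.d1.add h'.d1).congr ?_⟩
  · filter_upwards [h.cd, h'.cd] with z h1 h2 using h1.add h2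
  · filter_upwards [h.diff, h'.diff] with z h1 h2
    filter_upwards [h1, h2] with x e1 e2 using (e1.add e2).fderiv

lemma S2.comp {𝓖 : Filter (I × F)} {k : I × F → G} {m : I × F → ℝ} (hk : S2 𝓖 m (fun _ => 1) k)
    (hf : S2 𝓕 a a f) (hg : Tendsto (fun z => (z.1, f z)) 𝓕 𝓖) :
    S2 𝓕 (fun z => m (z.1, f z) * a z) a fun z => k (z.1, f z) := by
  refine ⟨?_, (S1.bilin (ContinuousLinearMap.compL ℝ X F G)
    (hk.d1.comp hf.cd1 hf.d1.b0 hg) hf.d1).congr ?_⟩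
  · filter_upwards [hg.eventually hk.cd, hf.cd] with z e1 e2
    exact ContDiffAt.comp (g := sec k z.1) z.2 e1 e2
  · filter_upwards [hg.eventually hk.diff, hf.diff] with z e1 e2
    filter_upwards [e2.self_of_nhds.continuousAt.eventually e1, e2] with x e3 e4
    exact (HasFDerivAt.comp (g := sec k z.1) x e3 e4).fderiv

lemma S2.sup {𝓖 : Filter (I × X)} (h : S2 𝓕 ν a f) (h' : S2 𝓖 ν a f) : S2 (𝓕 ⊔ 𝓖) ν a f :=
  ⟨eventually_sup.2 ⟨h.cd, h'.cd⟩, h.d1.sup h'.d1⟩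

/-- a family of affine maps -/
lemma S2.affine {A : I → X →L[ℝ] F} {c : I → F} (hA : (fun z : I × X => A z.1) =O[𝓕] ν) :
    S2 𝓕 ν a fun z => A z.1 z.2 + c z.1 :=
  ⟨Eventually.of_forall fun z => (A z.1).contDiff.contDiffAt.add (contDiffAt_const (c := c z.1)),
    (S1.param hA).congr (Eventually.of_forall fun z => Eventually.of_forall fun _ =>
      ((A z.1).hasFDerivAt.add_const (c z.1)).fderiv)⟩

end S2

section SB

lemma SB.toS1 (h : SB 𝓕 μ a f) : S1 𝓕 μ a f := ⟨h.cd1, h.b0, h.d1.b0⟩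

lemma SB.reindex {𝓖 : Filter (J × X)} {k : J × X → F} {φ : J × X → I} (h : SB 𝓕 μ a f)
    (hφ : Tendsto (fun z => (φ z, z.2)) 𝓖 𝓕)
    (he : ∀ᶠ z in 𝓖, sec k z.1 =ᶠ[𝓝 z.2] sec f (φ z)) :
    SB 𝓖 (fun z => μ (φ z, z.2)) (fun z => a (φ z, z.2)) k :=
  ⟨h.toS2.reindex hφ he, (h.toS1.reindex hφ he).b0⟩

lemma SB.congr (h : SB 𝓕 μ a f) (he : ∀ᶠ z in 𝓕, sec f' z.1 =ᶠ[𝓝 z.2] sec f z.1) :
    SB 𝓕 μ a f' := h.reindex (φ := Prod.fst) tendsto_id he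

lemma SB.filter {𝓖 : Filter (I × X)} (h : SB 𝓕 μ a f) (hl : 𝓖 ≤ 𝓕) : SB 𝓖 μ a f :=
  h.reindex (φ := Prod.fst) hl (Eventually.of_forall fun _ => EventuallyEq.rfl)

lemma SB.mono (h : SB 𝓕 μ a f) (h0 : μ =O[𝓕] μ') (h1 : a =O[𝓕] a') : SB 𝓕 μ' a' f :=
  ⟨h.toS2.mono (h0.mul h1) ((h0.mul h1).mul h1), h.b0.trans h0⟩

lemma SB.monoW (h : SB 𝓕 μ a f) (h0 : μ =O[𝓕] μ') : SB 𝓕 μ' a f := h.mono h0 (isBigO_refl _ _)

lemma SB.add (h : SB 𝓕 μ a f) (h' : SB 𝓕 μ a f') : SB 𝓕 μ a fun z => f z + f' z :=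
  ⟨h.toS2.add h'.toS2, h.b0.add h'.b0⟩

lemma SB.bilin (B : F →L[ℝ] G →L[ℝ] H) (h : SB 𝓕 μ a f) (h' : SB 𝓕 ν a g) :
    SB 𝓕 (fun z => μ z * ν z) a fun z => B (f z) (g z) := by
  refine ⟨⟨?_, ?_⟩, bigO_bilin B h.b0 h'.b0⟩
  · filter_upwards [h.cd, h'.cd] with z h1 h2
    exact (B.contDiff.contDiffAt.comp z.2 h1).clm_apply h2
  · have h1 := (S1.bilin (B.precompR X) h.toS1 h'.d1).monoW (μ' := fun z => μ z * ν z * a z)
      ((isBigO_refl _ _).congr_right fun z => by ring)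
    have h2 := (S1.bilin (B.precompL X) h.d1 h'.toS1).monoW (μ' := fun z => μ z * ν z * a z)
      ((isBigO_refl _ _).congr_right fun z => by ring)
    refine (h1.add h2).congr ?_
    filter_upwards [h.diff, h'.diff] with z e1 e2
    filter_upwards [e1, e2] with x e3 e4
    exact (B.hasFDerivAt_of_bilinear e3 e4).fderiv

lemma SB.param {c : I → F} (hc : (fun z : I × X => c z.1) =O[𝓕] μ) :
    SB 𝓕 μ a fun z => c z.1 :=
  ⟨(S2.affine (A := fun _ => 0) (c := c) (isBigO_zero _ _)).congr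
    (Eventually.of_forall fun z => Eventually.of_forall fun x => by simp [sec]), hc⟩

lemma SB.const (c : F) : SB 𝓕 (fun _ => 1) a fun _ => c :=
  SB.param (c := fun _ => c) (isBigO_const_const _ one_ne_zero _)

lemma SB.zero (he : ∀ᶠ z in 𝓕, sec f z.1 =ᶠ[𝓝 z.2] fun _ => 0) : SB 𝓕 μ a f :=
  (SB.param (c := fun _ => 0) (isBigO_zero _ _)).congr he

lemma SB.smul {c : I × X → ℝ} (hc : SB 𝓕 μ a c) (h : SB 𝓕 ν a f) :
    SB 𝓕 (fun z => μ z * ν z) a fun z => c z • f z :=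
  SB.bilin (ContinuousLinearMap.lsmul ℝ ℝ) hc h

/-- multiplication by a factor of size one -/
lemma SB.smul1 {c : I × X → ℝ} (hc : SB 𝓕 (fun _ => 1) a c) (h : SB 𝓕 ν a f) :
    SB 𝓕 ν a fun z => c z • f z :=
  (hc.smul h).monoW ((isBigO_refl _ _).congr_left fun _ => (one_mul _).symm)

lemma SB.map (L : F →L[ℝ] G) (h : SB 𝓕 μ a f) : SB 𝓕 μ a fun z => L (f z) :=
  (SB.bilin (ContinuousLinearMap.apply ℝ G) h (SB.const L)).monoW
    ((isBigO_refl _ _).congr_left fun _ => (mul_one _).symm)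

lemma SB.sub (h : SB 𝓕 μ a f) (h' : SB 𝓕 μ a f') : SB 𝓕 μ a fun z => f z - f' z :=
  (h.add (h'.map (-ContinuousLinearMap.id ℝ F))).congr
    (Eventually.of_forall fun z => Eventually.of_forall fun x => by simp [sec, sub_eq_add_neg])

lemma SB.prodMk (h : SB 𝓕 μ a f) (h' : SB 𝓕 μ a g) : SB 𝓕 μ a fun z => (f z, g z) :=
  ((h.map (ContinuousLinearMap.inl ℝ F G)).add (h'.map (ContinuousLinearMap.inr ℝ F G))).congr
    (Eventually.of_forall fun z => Eventually.of_forall fun x => by simp [sec])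

lemma SB.inner (h : SB 𝓕 (fun _ => 1) a f) : S2 𝓕 a a f :=
  h.toS2.mono ((isBigO_refl _ _).congr_left fun _ => (one_mul _).symm)
    ((isBigO_refl _ _).congr_left fun _ => by rw [one_mul])

lemma SB.comp {𝓖 : Filter (I × F)} {k : I × F → G} {m : I × F → ℝ} (hk : SB 𝓖 m (fun _ => 1) k)
    (hf : S2 𝓕 a a f) (hg : Tendsto (fun z => (z.1, f z)) 𝓕 𝓖) :
    SB 𝓕 (fun z => m (z.1, f z)) a fun z => k (z.1, f z) :=
  ⟨(hk.toS2.comp hf hg).mono ((isBigO_refl _ _).congr_left fun _ => by rw [mul_one])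
    ((isBigO_refl _ _).congr_left fun _ => by rw [mul_one]), hk.b0.comp_tendsto hg⟩

lemma SB.of_compact {k : F → G} {K : Set F} (hK : IsCompact K)
    (hk : ∀ y ∈ K, ContDiffAt ℝ 2 k y) :
    SB (𝓟 (Prod.snd ⁻¹' K)) (fun _ => 1) (fun _ => 1) fun z : I × F => k z.2 :=
  ⟨⟨eventually_principal.2 fun _ hz => hk _ hz,
    (S1.of_compact hK fun y hy => (hk y hy).fderiv_right (by norm_num)).monoW
      ((isBigO_refl _ _).congr_right fun _ => (mul_one _).symm)⟩,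
    bigO_compact hK fun y hy => (hk y hy).continuousAt⟩

lemma S2.map_compact {k : F → G} {K : Set F} (hK : IsCompact K)
    (hk : ∀ y ∈ K, ContDiffAt ℝ 2 k y) (h : S2 𝓕 a a f) (hm : ∀ᶠ z in 𝓕, f z ∈ K) :
    SB 𝓕 (fun _ => 1) a fun z => k (f z) :=
  (SB.of_compact hK hk).comp h (tendsto_principal.2 hm)

lemma SB.map_smooth [ProperSpace F] {k : F → G} (hk : ContDiff ℝ 2 k)
    (h : SB 𝓕 (fun _ => 1) a f) : SB 𝓕 (fun _ => 1) a fun z => k (f z) := by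
  obtain ⟨C, hC⟩ := h.b0.bound
  exact h.inner.map_compact (isCompact_closedBall 0 C) (fun y _ => hk.contDiffAt)
    (hC.mono fun z hz => by simpa using hz)

lemma SB.sup {𝓖 : Filter (I × X)} (h : SB 𝓕 μ a f) (h' : SB 𝓖 μ a f) : SB (𝓕 ⊔ 𝓖) μ a f :=
  ⟨h.toS2.sup h'.toS2, h.b0.sup h'.b0⟩

/-- a function which vanishes near the points outside `A` -/
lemma SB.cut {A : Set (I × X)} (h : SB (𝓕 ⊓ 𝓟 A) μ a f)
    (he : ∀ᶠ z in 𝓕, z ∉ A → sec f z.1 =ᶠ[𝓝 z.2] fun _ => 0) : SB 𝓕 μ a f := by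
  refine (h.sup (SB.zero (𝓕 := 𝓕 ⊓ 𝓟 Aᶜ) (eventually_inf_principal.2 he))).filter ?_
  rw [← inf_sup_left, sup_principal, union_compl_self, principal_univ, inf_top_eq]

lemma SB.sum {ι : Type} {u : ι → I × X → F} (s : Finset ι) (h : ∀ i ∈ s, SB 𝓕 μ a (u i)) :
    SB 𝓕 μ a fun z => ∑ i ∈ s, u i z := by
  classical
  induction s using Finset.induction_on with
  | empty => exact SB.zero (Eventually.of_forall fun z => Eventually.of_forall fun x => by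
      simp [sec])
  | insert i s hi ih =>
    simp only [Finset.sum_insert hi]
    exact (h i (Finset.mem_insert_self _ _)).add
      (ih fun j hj => h j (Finset.mem_insert_of_mem hj))

/-- the base point as an additional index -/
def diag (𝓕 : Filter (I × X)) : Filter ((I × X) × X) := map (fun z => (z, z.2)) 𝓕

lemma SB.to_diag (h : SB 𝓕 μ a f) :
    SB (diag 𝓕) (fun z => μ z.1) (fun z => a z.1) fun z => f (z.1.1, z.2) := by
  have h1 := h.reindex (𝓖 := diag 𝓕) (k := fun z => f (z.1.1, z.2)) (φ := fun z => z.1.1)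
    (tendsto_map'_iff.2 tendsto_id) (Eventually.of_forall fun _ => EventuallyEq.rfl)
  exact h1.mono (isBigO_map.2 (isBigO_refl _ _)) (isBigO_map.2 (isBigO_refl _ _))

lemma SB.of_diag {k : (I × X) × X → F} (h : SB (diag 𝓕) (fun z => μ z.1) (fun z => a z.1) k)
    (he : ∀ᶠ z in 𝓕, sec f z.1 =ᶠ[𝓝 z.2] sec k z) : SB 𝓕 μ a f :=
  h.reindex (φ := fun z => z) tendsto_map he

/-- homogeneous functions -/
lemma SB.hom {k : X → F} {m : ℝ → ℝ} (hm : ∀ c x, 0 < c → k (c • x) = m c • k x) {K : Set X}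
    (hK : IsCompact K) (hk : ∀ y ∈ K, ContDiffAt ℝ 2 k y)
    (h : ∀ᶠ z in 𝓕, z.2 ≠ 0 ∧ ‖z.2‖⁻¹ • z.2 ∈ K) :
    SB 𝓕 (fun z => m ‖z.2‖) (fun z => ‖z.2‖⁻¹) fun z => k z.2 := by
  have h1 : S2 (diag 𝓕) (fun z => ‖z.1.2‖⁻¹) (fun z => ‖z.1.2‖⁻¹)
      fun z => (‖z.1.2‖⁻¹ • ContinuousLinearMap.id ℝ X) z.2 + 0 :=
    S2.affine (A := fun z : I × X => ‖z.2‖⁻¹ • ContinuousLinearMap.id ℝ X) (c := fun _ => 0)
      (IsBigO.of_bound 1 (Eventually.of_forall fun z => by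
        rw [norm_smul, one_mul]
        exact mul_le_of_le_one_right (norm_nonneg _) ContinuousLinearMap.norm_id_le))
  have h2 := h1.map_compact hK hk (eventually_map.2 (h.mono fun z hz => by simpa using hz.2))
  have h3 := (SB.param (𝓕 := diag 𝓕) (a := fun z => ‖z.1.2‖⁻¹) (c := fun z => m ‖z.2‖)
    (isBigO_refl _ _)).smul h2
  refine SB.of_diag (h3.monoW ((isBigO_refl _ _).congr_left fun _ => (mul_one _).symm)) ?_
  filter_upwards [h] with z hz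
  refine Eventually.of_forall fun x => ?_
  have h4 := norm_pos_iff.2 hz.1
  simp only [sec, add_zero, smul_apply, ContinuousLinearMap.id_apply]
  rw [← hm _ _ h4, smul_inv_smul₀ h4.ne']

end SB

end Vale.Agent.P218GE
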