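import Vale.Agent.P218GE.Cyl

/-! # P218, block GE: small displacements; the tilt -/

open Set Filter Topology Metric Asymptotics Complex
open scoped RealInnerProductSpace Real

set_option linter.unusedSectionVars false

namespace Vale.Agent.P218GE

open Vale.Agent.P218GA
open Vale.Agent.P218VA (E2)

lemma exists_rate {Q : Type} {l : Filter Q} {p : Q → ℝ → Prop}
    (hm : ∀ q a b, p q a → a ≤ b → p q b) (hc : ∀ q a, (∀ b, a < b → p q b) → p q a)
    (h : ∀ ε : ℝ, 0 < ε → ∀ᶠ q in l, p q ε) :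
    ∃ e : Q → ℝ, Tendsto e l (𝓝 0) ∧ ∀ᶠ q in l, p q (e q) := by
  have hb : ∀ q, BddBelow {ε : ℝ | 0 < ε ∧ p q ε} := fun q => ⟨0, fun _ h => h.1.le⟩
  refine ⟨fun q => sInf {ε : ℝ | 0 < ε ∧ p q ε}, Metric.tendsto_nhds.2 fun ε hε => ?_, ?_⟩
  · filter_upwards [h _ (half_pos hε)] with q hq
    rw [Real.dist_eq, sub_zero, abs_of_nonneg (Real.sInf_nonneg fun _ h => h.1.le)]
    exact (csInf_le (hb q) ⟨half_pos hε, hq⟩).trans_lt (half_lt_self hε)
  · filter_upwards [h 1 one_pos] with q hq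
    refine hc _ _ fun b hb' => ?_
    obtain ⟨a, ha, hab⟩ := exists_lt_of_csInf_lt (s := {ε : ℝ | 0 < ε ∧ p q ε})
      ⟨1, one_pos, hq⟩ hb'
    exact hm _ _ _ ha.2 hab.le

section S2

variable {I X F : Type} [NormedAddCommGroup X] [NormedSpace ℝ X] [NormedAddCommGroup F]
  [NormedSpace ℝ F] {𝓕 : Filter (I × X)} {ν a : I × X → ℝ} {f : I × X → F}

lemma S2.zero (he : ∀ᶠ z in 𝓕, sec f z.1 =ᶠ[𝓝 z.2] fun _ => 0) : S2 𝓕 ν a f :=
  (S2.affine (A := fun _ => 0) (c := fun _ => 0) (isBigO_zero _ _)).congr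
    (he.mono fun _ hz => hz.mono fun x hx => hx.trans (by simp [sec]))

lemma S2.cut {A : Set (I × X)} (h : S2 (𝓕 ⊓ 𝓟 A) ν a f)
    (he : ∀ᶠ z in 𝓕, z ∉ A → sec f z.1 =ᶠ[𝓝 z.2] fun _ => 0) : S2 𝓕 ν a f := by
  refine (h.sup (S2.zero (𝓕 := 𝓕 ⊓ 𝓟 Aᶜ) (eventually_inf_principal.2 he))).filter ?_
  rw [← inf_sup_left, sup_principal, union_compl_self, principal_univ, inf_top_eq]

end S2

/-- families of maps whose first two derivatives tend to zero uniformly -/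
def Sm {Q : Type} (l : Filter Q) (D : Q × E3 → E3) : Prop :=
  ∃ e : Q → ℝ, Tendsto e l (𝓝 0) ∧ S2 (l ×ˢ ⊤) (fun z => e z.1) (fun _ => 1) D

lemma Sm.add {Q : Type} {l : Filter Q} {D D' : Q × E3 → E3} (h : Sm l D) (h' : Sm l D') :
    Sm l fun z => D z + D' z := by
  obtain ⟨e, h1, h2⟩ := h
  obtain ⟨e', h3, h4⟩ := h'
  have h5 : ∀ {u : Q → ℝ}, (∀ q, |u q| ≤ |e q| + |e' q|) →
      (fun z : Q × E3 => u z.1) =O[l ×ˢ ⊤] fun z => |e z.1| + |e' z.1| := fun hu =>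
    IsBigO.of_bound 1 (Eventually.of_forall fun z => by
      rw [one_mul]; exact (hu _).trans (le_abs_self _))
  have h6 := h5 (u := e) fun q => le_add_of_nonneg_right (abs_nonneg _)
  have h7 := h5 (u := e') fun q => le_add_of_nonneg_left (abs_nonneg _)
  exact ⟨fun q => |e q| + |e' q|, by simpa using h1.abs.add h3.abs,
    (h2.mono h6 (h6.mul (isBigO_refl _ _))).add (h4.mono h7 (h7.mul (isBigO_refl _ _)))⟩

lemma Sm.sum {Q ι : Type} [Fintype ι] {l : Filter Q} {D : ι → Q × E3 → E3} (h : ∀ i, Sm l (D i)) :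
    Sm l fun z => ∑ i, D i z := by
  classical
  induction (Finset.univ : Finset ι) using Finset.induction_on with
  | empty => exact ⟨fun _ => 0, tendsto_const_nhds, S2.zero (Eventually.of_forall fun z =>
      Eventually.of_forall fun x => by simp [sec])⟩
  | insert i s hi ih =>
    simp only [Finset.sum_insert hi]
    exact (h i).add ih

lemma GM.add_sm {Q : Type} {l : Filter Q} {Φ D : Q × E3 → E3} (h : GM l Φ) (hD : Sm l D) :
    GM l fun z => Φ z + D z := by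
  obtain ⟨e, h1, h2⟩ := hD
  exact h.add_small h2 (h1.comp tendsto_fst)

variable {Q P : Type} [TopologicalSpace Q] [NormedAddCommGroup P] [NormedSpace ℝ P] {pa : Par Q P}

/-- displacements with a common compact support -/
lemma Sm.of_d2 {D : Q × E3 → E3} {r : ℝ} (h : ∀ x, D2 pa D (fun _ => 0) x)
    (h0 : ∀ q x, r < ‖x‖ → D (q, x) = 0) : Sm pa.l D := by
  have hz : ∀ q x, x ∉ closedBall (0 : E3) r → sec D q =ᶠ[𝓝 x] fun _ => 0 := fun q x hx => by
    filter_upwards [isClosed_closedBall.isOpen_compl.mem_nhds hx] with y hy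
    exact h0 q y (by simpa using hy)
  have hK := isCompact_closedBall (0 : E3) r
  obtain ⟨e, h1, h2⟩ := exists_rate (l := pa.l) (p := fun q ε => ∀ x ∈ closedBall (0 : E3) r,
      ‖dx D (q, x)‖ ≤ ε ∧ ‖dx (dx D) (q, x)‖ ≤ ε)
    (fun q a b h hab x hx => ⟨(h x hx).1.trans hab, (h x hx).2.trans hab⟩)
    (fun q a h x hx => ⟨le_of_forall_gt_imp_ge_of_dense fun b hb => (h b hb x hx).1,
      le_of_forall_gt_imp_ge_of_dense fun b hb => (h b hb x hx).2⟩) fun ε hε =>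
    ev_compact (p := fun z => ‖dx D z‖ ≤ ε ∧ ‖dx (dx D) z‖ ≤ ε) hK fun x _ => by
      have e1 := (h x).d1.tendsto.norm
      have e2 := (h x).d1.lim.norm
      simp only [fderiv_fun_const, Pi.zero_apply, norm_zero, fderiv_zero] at e1 e2
      exact (e1.eventually (eventually_le_nhds hε)).and (e2.eventually (eventually_le_nhds hε))
  have h3 := ev_compact (p := fun z => ContDiffAt ℝ 2 (sec D z.1) z.2) hK fun x _ => (h x).cd
  have h4 : ∀ {p : Q × E3 → Prop}, (∀ᶠ q in pa.l, ∀ x ∈ closedBall (0 : E3) r, p (q, x)) →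
      ∀ᶠ z in (pa.l ×ˢ ⊤) ⊓ 𝓟 (Prod.snd ⁻¹' closedBall (0 : E3) r), p z := fun hp =>
    eventually_inf_principal.2 (ev_top.2 hp)
  refine ⟨e, h1, S2.cut (A := Prod.snd ⁻¹' closedBall 0 r) ⟨h4 h3, h4 (h3.mono fun q hq x hx =>
    (hq x hx).fderiv_right (by norm_num)), IsBigO.of_bound 1 (h4 (h2.mono fun q hq x hx => ?_)),
    IsBigO.of_bound 1 (h4 (h2.mono fun q hq x hx => ?_))⟩
    (Eventually.of_forall fun z => hz z.1 z.2)⟩
  · rw [one_mul]; exact (hq x hx).1.trans (le_abs_self _)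
  · rw [one_mul, mul_one]; exact (hq x hx).2.trans (le_abs_self _)

variable {S : Set E3} {w : E3 → ℝ} {δ C : ℝ} {ι κ M : Type} [TopologicalSpace M]
  [ChartedSpace E2 M] {m : Model S w δ C ι κ M} {R : RealFam m pa} {ρ ε : ℝ}

/-- the displacement which tilts the end `i` -/
noncomputable def RealFam.td (R : RealFam m pa) (i : ι) (ρ ε : ℝ) (z : Q × E3) : E3 :=
  (rad0 ρ z.2 * ang (m.Q i e3) ε z.2) • (R.A i z.1 ((m.Q i).symm z.2) - z.2)

lemma RealFam.Adm.sm_td (h : R.Adm ρ ε) (i : ι) : Sm pa.l (R.td i ρ ε) := by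
  have hρ := h.rpos
  set B : Q → E3 →L[ℝ] E3 := fun q => (R.A i q).comp
    (m.Q i).symm.toContinuousLinearEquiv.toContinuousLinearMap - ContinuousLinearMap.id ℝ E3
  refine ⟨fun q => ‖B q‖, ?_, S2.cut (A := {z | ρ ≤ ‖z.2‖}) ?_
    (Eventually.of_forall fun z hz => ?_)⟩
  · have h1 := (((ContinuousLinearMap.compL ℝ E3 E3 E3).flip
      (m.Q i).symm.toContinuousLinearEquiv.toContinuousLinearMap).continuous.tendsto _).comp
      (R.A_D i).tendsto
    refine tendsto_iff_norm_sub_tendsto_zero.1 (h1.congr' EventuallyEq.rfl |>.trans ?_)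
    exact le_of_eq (congrArg _ (ContinuousLinearMap.ext fun v => (m.Q i).apply_symm_apply v))
  · have hr : ∀ᶠ z in (pa.l ×ˢ ⊤) ⊓ 𝓟 {z : Q × E3 | ρ ≤ ‖z.2‖}, ρ ≤ ‖z.2‖ :=
      mem_inf_of_right (mem_principal_self _)
    have h0 := hr.mono fun z hz => norm_pos_iff.1 (hρ.trans_le hz)
    exact SB.unit hρ hr (((sb_rad0 hρ hr).smul1 (sb_ang _ ε h0)).smul1
      (SB.bilin (ContinuousLinearMap.id ℝ (E3 →L[ℝ] E3))
        (SB.param (c := B) (isBigO_refl _ _).norm_right) (sb_id h0)))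
  · filter_upwards [ev_rad0 hρ (not_le.1 hz)] with y hy
    rw [sec, RealFam.td, hy, zero_mul, zero_smul]

lemma RealFam.Adm.d2_td (h : R.Adm ρ ε) (i : ι) (x₀ : E3) :
    D2 pa (R.td i ρ ε) (fun _ => 0) x₀ := by
  have hρ := h.rpos
  rcases lt_or_ge ‖x₀‖ ρ with hx | hx
  · refine (D2.const 0).congr ?_ EventuallyEq.rfl
    filter_upwards [tendsto_snd.eventually (ev_rad0 hρ hx)] with z hz
    rw [RealFam.td, hz, zero_mul, zero_smul]
  exact ((D2.of_cd ((contDiff_rad0 ρ).contDiffAt.mul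
    (cd_ang _ ε (norm_pos_iff.1 (hρ.trans_le hx))))).smul (((D2.param (R.A_D i)).clm_apply
      (D2.of_cd (m.Q i).symm.contDiff.contDiffAt)).sub D2.pt)).congr EventuallyEq.rfl
    (Eventually.of_forall fun x => by simp)

lemma RealFam.Adm.td_zero (h : R.Adm ρ ε) {i : ι} {q : Q} {x : E3}
    (hz : 2 * ε ≤ dist (dir x) (m.Q i e3)) : R.td i ρ ε (q, x) = 0 := by
  rw [RealFam.td, ang_zero h.pos hz, mul_zero, zero_smul]

/-- **Shift and tilt of the cylindrical ends.** -/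
theorem RealFam.Adm.exists_cyl [Fintype ι] (h : R.Adm ρ ε) : ∃ T : Q × E3 → E3, GM pa.l T ∧
    (∀ x, D2 pa T (fun x => x) x) ∧
    (∀ᶠ q in pa.l, ∀ i p, ρ ^ 2 ≤ p.1 → T (q, m.Q i (xiCyl p.1 p.2 (m.U i p)))
      = R.A i q (xiCyl p.1 p.2 (R.us i 1 (q, p)))) ∧
    ∀ q x, (∀ i, 2 * ε ≤ dist (dir x) (m.Q i e3)) → T (q, x) = x := by
  classical
  have hρ := h.rpos
  obtain ⟨Sh, e1, e2, e3, e4⟩ := h.exists_shift
  refine ⟨_, (GM.id.add_sm (Sm.sum h.sm_td)).comp e1, fun x => ?_, ?_, fun q x hx => ?_⟩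
  · exact D2.comp (f₀ := fun x => x) ((D2.pt.add (D2.sum fun i => h.d2_td i x)).congr
      EventuallyEq.rfl (Eventually.of_forall fun x => by simp)) (e2 x)
  · filter_upwards [e3, h.us_mem] with q a1 a2 i p hp
    have h5 := h.dir_cyl (m.Q i) p.2 hp (a2 i p 1 (by nlinarith) ⟨zero_le_one, le_rfl⟩)
    have h6 : 2 * ρ ≤ ‖m.Q i (xiCyl p.1 p.2 (R.us i 1 (q, p)))‖ := by
      rw [(m.Q i).norm_map, norm_xiCyl]; linarith [Real.le_sqrt_of_sq_le hp]
    have h7 : R.td i ρ ε (q, m.Q i (xiCyl p.1 p.2 (R.us i 1 (q, p))))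
        = R.A i q (xiCyl p.1 p.2 (R.us i 1 (q, p))) - m.Q i (xiCyl p.1 p.2 (R.us i 1 (q, p))) := by
      rw [RealFam.td, rad0_one hρ h6, ang_one h.pos h5, mul_one, one_smul,
        (m.Q i).symm_apply_apply]
    rw [← a1 i p hp] at h5 h7
    exact (congrArg _ (Finset.sum_eq_single i (fun j _ hj => h.td_zero
      (sep_le h.pos (h.sep j i hj) h5).le) fun hi => absurd (Finset.mem_univ i) hi)).trans
      (eq_sub_iff_add_eq'.1 h7)
  · simp only [e4 q x hx]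
    rw [Finset.sum_eq_zero fun i _ => h.td_zero (hx i), add_zero]

end Vale.Agent.P218GE
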