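import Vale.Agent.P218GE.Core

/-! # P218, block GE: the support function on the ends; choice of the constants -/

open Set Filter Topology Metric Asymptotics
open scoped RealInnerProductSpace Real

set_option linter.unusedSectionVars false

namespace Vale.Agent.P218GE

open Vale.Agent.P218GA hiding IsTube
open Vale.Agent.P218VA (E2)

lemma supp_xi {γ n : E3} (hγ : ‖γ‖ = 1) (hn : ‖n‖ = 1) (ho : ⟪n, γ⟫ = 0) {A : E3 →L[ℝ] E3}
    (hA : ∀ v, ‖A v‖ = ‖v‖) {f : E3 → ℝ} {t : ℝ → ℝ} {a t' : ℝ} (ha : 0 < a)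
    (ht : HasDerivAt t t' a) (hf : DifferentiableAt ℝ f (A (xi γ n a (t a))))
    (h0 : ∀ᶠ b in 𝓝 a, f (A (xi γ n b (t b))) = 0) :
    |⟪A (xi γ n a (t a)), gradient f (A (xi γ n a (t a)))⟫|
      ≤ 8 * (a * √a * |t'|) * ‖gradient f (A (xi γ n a (t a)))‖ := by
  have hs : 0 < √a := Real.sqrt_pos.2 ha
  have h1 : HasDerivAt (fun b => 2 * √b) (2 * (1 / (2 * √a))) a :=
    (Real.hasDerivAt_sqrt ha.ne').const_mul 2
  have h2 : DifferentiableAt ℝ (fun b => gd ((γ, n), t b, t a)) a :=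
    (contDiff_gd.differentiable (by norm_num) _).comp a ((differentiableAt_const _).prodMk
      (ht.differentiableAt.prodMk (differentiableAt_const _)))
  have h3 := (h1.smul_const (xi γ n (1 / 4) (t a))).add
    ((h1.mul (ht.sub_const (t a))).smul h2.hasDerivAt)
  have h4 : HasDerivAt (fun b => xi γ n b (t b)) _ a := h3.congr_of_eventuallyEq
    (Eventually.of_forall fun b => (xi_sub γ n b (t b) (t a)).trans (by rw [xi_scale]; rfl))
  have h5 := (hf.hasFDerivAt.comp_hasDerivAt a (A.hasFDerivAt.comp_hasDerivAt a h4)).unique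
    ((hasDerivAt_const a (0 : ℝ)).congr_of_eventuallyEq h0)
  simp only [Pi.mul_apply, sub_self, mul_zero, zero_smul, zero_add, map_add, map_smul,
    ← inner_grad, smul_eq_mul] at h5
  set g := gradient f (A (xi γ n a (t a)))
  have h6 : ⟪A (xi γ n a (t a)), g⟫ = -(4 * (a * √a * t')) * ⟪g, A (gd ((γ, n), t a, t a))⟫ := by
    rw [xi_scale, map_smul, real_inner_comm, inner_smul_right]
    have h7 := Real.mul_self_sqrt ha.le
    field_simp at h5
    linear_combination (2 * √a) * h5 - 4 * √a * t' * ⟪g, A (gd ((γ, n), t a, t a))⟫ * h7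
  have h7 := abs_real_inner_le_norm g (A (gd ((γ, n), t a, t a)))
  rw [hA] at h7
  have h8 := h7.trans (mul_le_mul_of_nonneg_left (norm_gd_le hγ hn ho) (norm_nonneg g))
  rw [h6, abs_mul, abs_neg, abs_mul, abs_mul, abs_of_pos (mul_pos ha hs), abs_of_pos four_pos]
  nlinarith [mul_le_mul_of_nonneg_left h8 (by positivity : 0 ≤ a * √a * |t'|)]

lemma hasDerivAt_dw {f : ℝ × ℝ → ℝ} {p : ℝ × ℝ} (hf : ContDiffAt ℝ 2 f p) :
    HasDerivAt (fun b => f (b, p.2)) (dw f p) p.1 :=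
  HasFDerivAt.comp_hasDerivAt (l := f) (f := fun b => (b, p.2)) p.1
    (hf.differentiableAt (by norm_num)).hasFDerivAt
    ((hasDerivAt_id p.1).prodMk (hasDerivAt_const p.1 p.2))

lemma jb_of_lim {f : ℝ × ℝ → ℝ} {s : ℝ} (hf : ∀ p : ℝ × ℝ, s < p.1 → ContDiffAt ℝ 2 f p)
    (h : ∀ a b : ℕ, ToZero fun p => p.1 ^ a * dw^[a] (dth^[b] f) p) {ε : ℝ} (hε : 0 < ε) :
    ∀ᶠ ρ : ℝ in atTop, ∀ p : ℝ × ℝ, ρ ^ 2 / 4 ≤ p.1 → JB f p p.1 ε := by
  have h0 : Tendsto (fun ρ : ℝ => ρ ^ 2 / 4) atTop atTop :=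
    (tendsto_pow_atTop two_ne_zero).atTop_div_const four_pos
  have h1 : ∀ a b : ℕ, ∀ᶠ ρ : ℝ in atTop, ∀ p : ℝ × ℝ, ρ ^ 2 / 4 ≤ p.1 →
      |p.1 ^ a * dw^[a] (dth^[b] f) p| ≤ ε := fun a b => by
    obtain ⟨W, hW⟩ := h a b ε hε
    exact (h0.eventually_ge_atTop W).mono fun ρ hρ p hp => hW p (hρ.trans hp)
  filter_upwards [h0.eventually_gt_atTop s, h1 0 0, h1 1 0, h1 0 1, h1 2 0, h1 1 1, h1 0 2]
    with ρ e a1 a2 a3 a4 a5 a6 p hp
  exact ⟨hf p (e.trans_le hp), by simpa using a1 p hp, by simpa using a2 p hp,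
    by simpa using a3 p hp, a4 p hp, by simpa using a5 p hp, by simpa using a6 p hp⟩

variable {S : Set E3} {w : E3 → ℝ} {δ C : ℝ} {ι κ M : Type} [TopologicalSpace M]
  [ChartedSpace E2 M] {Q P : Type} [TopologicalSpace Q] [NormedAddCommGroup P] [NormedSpace ℝ P]
  {m : Model S w δ C ι κ M} {pa : Par Q P} {R : RealFam m pa} {ρ ε : ℝ}

lemma RealFam.Adm.deriv_us (h : R.Adm ρ ε) : ∃ K : ℝ, ∀ᶠ q in pa.l, ∀ i (p : ℝ × ℝ),
    ρ ^ 2 / 4 ≤ p.1 → ∃ t', HasDerivAt (fun b => R.us i 1 (q, b, p.2) / √(8 * b)) t' p.1 ∧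
      p.1 * √p.1 * |t'| ≤ K := by
  obtain ⟨B, hB⟩ := (isCompact_Icc (a := (0 : ℝ)) (b := 1)).exists_bound_of_continuousOn
    (contDiff_cw.continuous_deriv (by norm_num)).continuousOn
  have hB0 : 0 ≤ B := (norm_nonneg _).trans (hB 0 ⟨le_rfl, zero_le_one⟩)
  refine ⟨2 * B + |R.K| + 2, ?_⟩
  filter_upwards [R.u_bd, R.W_top.eventually_gt_atTop 0, h.us_mem] with q h1 h2 h3 i p hp
  have ha : 0 < p.1 := lt_of_lt_of_le (by have := h.rpos; positivity) hp
  have hJ := h.jb i p hp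
  have hU : HasDerivAt (fun b => m.U i (b, p.2)) (dw (fun y => m.U i y - 1) p) p.1 := by
    simpa using (hasDerivAt_dw hJ.cd).add_const 1
  have hU1 := hJ.bw
  obtain ⟨u', e1, e2⟩ : ∃ u', HasDerivAt (fun b => R.us i 1 (q, b, p.2)) u' p.1 ∧
      |p.1 * u'| ≤ 2 * B + |R.K| + 1 := by
    rcases le_or_gt p.1 (R.W q / 2) with h4 | h4
    · obtain ⟨h5, h6, h7, h8⟩ := h1 i p (h.lev.trans_le hp) h4
      have h9 := ((contDiff_cw.differentiable (by norm_num) _).hasDerivAt.comp p.1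
        ((hasDerivAt_id p.1).div_const (R.W q))).mul ((hasDerivAt_dw h5.cd).sub hU)
      refine ⟨_, hU.add (h9.const_mul 1), ?_⟩
      have a1 : p.1 / R.W q ∈ Icc (0 : ℝ) 1 :=
        ⟨by positivity, by rw [div_le_one h2]; linarith⟩
      have a2 : |deriv cw (p.1 / R.W q)| ≤ B := hB _ a1
      have a3 := cw_mem (p.1 / R.W q)
      have a4 := abs_le.1 hJ.b0
      have a5 : |R.u i (q, p) - m.U i p| ≤ 2 := abs_le.2 ⟨by linarith [a4.2], by linarith [a4.1]⟩
      have a6 : |p.1 / R.W q * deriv cw (p.1 / R.W q) * (R.u i (q, p) - m.U i p)| ≤ 1 * B * 2 := by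
        rw [abs_mul, abs_mul, abs_of_nonneg a1.1]
        gcongr
        exact a1.2
      have a7 : |cw (p.1 / R.W q) * (p.1 * dw (sec (R.u i) q) p)| ≤ 1 * |R.K| := by
        rw [abs_mul, abs_of_nonneg a3.1]
        exact mul_le_mul a3.2 (h8.trans (le_abs_self _)) (abs_nonneg _) zero_le_one
      have a8 : |(1 - cw (p.1 / R.W q)) * (p.1 * dw (fun y => m.U i y - 1) p)| ≤ 1 * (1 / 2) := by
        rw [abs_mul, abs_of_nonneg (sub_nonneg.2 a3.2)]
        exact mul_le_mul (by linarith [a3.1]) hU1 (abs_nonneg _) zero_le_one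
      rw [abs_le] at a6 a7 a8 ⊢
      simp only [Function.comp_apply, id, sec, Pi.sub_apply, Prod.mk.eta]
      generalize deriv cw (p.1 / R.W q) = v at *
      generalize cw (p.1 / R.W q) = v' at *
      rw [← mul_one_div] at a6
      constructor <;> linarith [a6.1, a6.2, a7.1, a7.2, a8.1, a8.2]
    · refine ⟨_, hU.congr_of_eventuallyEq ?_, hU1.trans (by linarith [abs_nonneg R.K])⟩
      filter_upwards [eventually_gt_nhds h4] with b hb
      rw [RealFam.us, RealFam.dl, cw_zero (by rw [le_div_iff₀ h2]; linarith), zero_mul, mul_zero,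
        add_zero]
  have hs : 0 < √p.1 := Real.sqrt_pos.2 ha
  have h4 : 1 ≤ √2 := Real.one_le_sqrt.2 one_le_two
  have h5 : HasDerivAt (fun b => √(8 * b)) (√2 * (2 * (1 / (2 * √p.1)))) p.1 := by
    simpa only [sqrt8] using ((Real.hasDerivAt_sqrt ha.ne').const_mul 2).const_mul √2
  refine ⟨_, e1.div h5 (by positivity), ?_⟩
  have h6 := h3 i p 1 hp ⟨zero_le_one, le_rfl⟩
  have h7 := Real.mul_self_sqrt ha.le
  have h8 : p.1 * √p.1 * ((u' * √(8 * p.1) - R.us i 1 (q, p.1, p.2) * (√2 * (2 * (1 / (2 * √p.1)))))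
      / √(8 * p.1) ^ 2) = (2 * (p.1 * u') - R.us i 1 (q, p)) / (4 * √2) := by
    rw [sqrt8]
    field_simp
    rw [Real.sq_sqrt ha.le]
    ring
  rw [← abs_of_pos (mul_pos ha hs), ← abs_mul, h8, abs_div, abs_of_pos (by positivity : 0 < 4 * √2),
    div_le_iff₀ (by positivity), abs_le]
  rw [abs_le] at e2
  constructor <;> nlinarith [e2.1, e2.2, h6.1, h6.2, abs_nonneg R.K]

lemma RealFam.deriv_t (R : RealFam m pa) : ∀ᶠ q in pa.l, ∀ j (p : ℝ × ℝ), R.s < p.1 →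
    ∃ t', HasDerivAt (fun b => R.t j (q, b, p.2)) t' p.1 ∧ p.1 * √p.1 * |t'| ≤ R.K := by
  filter_upwards [R.t_bd 1 one_pos, R.t_supp] with q h1 h2 j p hp
  have h3 := R.w0_le.trans_lt hp
  have h4 : 1 ≤ p.1 := by linarith [m.one_le]
  have h5 : ContDiffAt ℝ 2 (sec (R.t j) q) p := by
    have := (h1 j p hp).cd.add ((m.t_smooth j p h3).of_le two_le_top)
    simp only [sub_add_cancel] at this
    exact this
  refine ⟨_, hasDerivAt_dw h5, le_trans ?_ (h2 j p hp)⟩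
  rw [abs_mul, abs_of_nonneg (sq_nonneg p.1), sq]
  gcongr
  exact Real.sqrt_le_iff.2 ⟨by linarith, by nlinarith⟩

/-- the asymptotic directions of an end -/
def dirs (m : Model S w δ C ι κ M) : ι ⊕ κ → Set E3
  | .inl i => {m.Q i e3}
  | .inr j => range (m.L j).γ

lemma exists_sep [Finite ι] [Finite κ] (m : Model S w δ C ι κ M) : ∀ᶠ ε in 𝓝[>] (0 : ℝ),
    ∀ e e', e ≠ e' → ∀ a ∈ dirs m e, ∀ a' ∈ dirs m e', 4 * ε ≤ dist a a' := by
  have h1 : ∀ e, IsCompact (dirs m e) := fun e => by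
    cases e with
    | inl i => exact isCompact_singleton
    | inr j =>
      exact (m.L j).γ_periodic.compact_of_continuous Real.two_pi_pos.ne' (m.L j).γ_smooth.continuous
  refine eventually_all.2 fun e => eventually_all.2 fun e' => eventually_all.2 fun he => ?_
  have h2 : Disjoint (dirs m e) (dirs m e') := by
    refine disjoint_left.2 fun a ha ha' => ?_
    rcases e with i | j <;> rcases e' with i' | j'
    · exact he (congrArg _ (m.axis_inj i i' (ha.symm.trans ha')))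
    · obtain ⟨θ, h⟩ := ha'
      exact m.axis_ne i j' θ (ha.symm.trans h.symm)
    · obtain ⟨θ, h⟩ := ha
      exact m.axis_ne i' j θ (ha'.symm.trans h.symm)
    · obtain ⟨θ, h⟩ := ha
      obtain ⟨θ', h'⟩ := ha'
      exact he (congrArg _ (m.link_disj j j' θ θ' (h.trans h'.symm)))
  obtain ⟨r, hr, h3⟩ := Metric.exists_pos_forall_lt_edist (h1 e) (h1 e').isClosed h2
  have h4 : (0 : ℝ) < r / 4 := by positivity
  filter_upwards [mem_nhdsWithin_of_mem_nhds (eventually_lt_nhds h4)] with ε hε a ha a' ha'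
  have h5 := h3 a ha a' ha'
  rw [edist_nndist, ENNReal.coe_lt_coe, ← NNReal.coe_lt_coe, coe_nndist] at h5
  linarith

end Vale.Agent.P218GE
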