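import Vale.Agent.P218GE.Lift

/-! # P218, block GE: the end coordinates; cut-off functions -/

open Set Filter Topology Metric Asymptotics Complex
open scoped RealInnerProductSpace Real

set_option linter.unusedSectionVars false

namespace Vale.Agent.P218GE

open Vale.Agent.P218GA

section Xi

variable {γ n : E3} {w t t' : ℝ}

/-- the divided difference of `xi` -/
noncomputable def gd (y : (E3 × E3) × ℝ × ℝ) : E3 :=
  ((1 + y.2.1 ^ 2) * (1 + y.2.2 ^ 2))⁻¹ •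
    ((-2 * (y.2.1 + y.2.2)) • y.1.1 + (2 * (1 - y.2.1 * y.2.2)) • y.1.2)

lemma contDiff_gd : ContDiff ℝ 2 gd := by
  have h1 : ContDiff ℝ 2 fun y : (E3 × E3) × ℝ × ℝ => ((1 + y.2.1 ^ 2) * (1 + y.2.2 ^ 2))⁻¹ :=
    ContDiff.inv (by fun_prop) fun y => by positivity
  exact h1.smul (by fun_prop)

lemma xi_sub (γ n : E3) (w t t' : ℝ) :
    xi γ n w t = xi γ n w t' + (2 * √w * (t - t')) • gd ((γ, n), t, t') := by
  have h1 : 1 + t ^ 2 ≠ 0 := by positivity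
  have h2 : 1 + t' ^ 2 ≠ 0 := by positivity
  simp only [xi, gd, smul_add, smul_smul]
  rw [add_add_add_comm, ← add_smul, ← add_smul]
  congr 2 <;> field_simp <;> ring

lemma norm_comb (hγ : ‖γ‖ = 1) (hn : ‖n‖ = 1) (ho : ⟪n, γ⟫ = 0) (a b : ℝ) :
    ‖a • γ + b • n‖ ^ 2 = a ^ 2 + b ^ 2 := by
  rw [norm_add_sq_real, norm_smul, norm_smul, hγ, hn, inner_smul_left, inner_smul_right,
    real_inner_comm, ho]
  simp

lemma norm_xi (hγ : ‖γ‖ = 1) (hn : ‖n‖ = 1) (ho : ⟪n, γ⟫ = 0) : ‖xi γ n w t‖ = 2 * √w := by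
  have h1 : ‖(1 - t ^ 2) • γ + (2 * t) • n‖ = 1 + t ^ 2 := by
    refine (pow_left_inj₀ (norm_nonneg _) (by positivity) two_ne_zero).1 ?_
    rw [norm_comb hγ hn ho]; ring
  rw [xi, norm_smul, h1, Real.norm_of_nonneg (by positivity)]
  field_simp

lemma norm_gd_le (hγ : ‖γ‖ = 1) (hn : ‖n‖ = 1) (ho : ⟪n, γ⟫ = 0) : ‖gd ((γ, n), t, t')‖ ≤ 2 := by
  have h0 : 0 < (1 + t ^ 2) * (1 + t' ^ 2) := by positivity
  rw [gd, norm_smul, Real.norm_of_nonneg (by positivity), inv_mul_le_iff₀ h0]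
  refine (pow_le_pow_iff_left₀ (norm_nonneg _) (by positivity) two_ne_zero).1 ?_
  rw [norm_comb hγ hn ho]
  have h1 : 1 ≤ (1 + t ^ 2) * (1 + t' ^ 2) := by
    nlinarith [sq_nonneg t, sq_nonneg t', sq_nonneg (t * t')]
  nlinarith

/-- the direction of a point -/
noncomputable def dir (x : E3) : E3 := ‖x‖⁻¹ • x

lemma dir_xi (hγ : ‖γ‖ = 1) (hn : ‖n‖ = 1) (ho : ⟪n, γ⟫ = 0) (hw : 0 < w) :
    dist (dir (xi γ n w t)) γ ≤ 2 * |t| := by
  have h0 : 0 < 2 * √w := by positivity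
  have h1 : xi γ n w 0 = (2 * √w) • γ := by simp [xi]
  rw [dir, norm_xi hγ hn ho, xi_sub γ n w t 0, h1, smul_add, smul_smul, smul_smul,
    inv_mul_cancel₀ h0.ne', one_smul, dist_eq_norm, add_sub_cancel_left, ← mul_assoc,
    inv_mul_cancel₀ h0.ne', one_mul, sub_zero, norm_smul, Real.norm_eq_abs, mul_comm]
  exact mul_le_mul_of_nonneg_right (norm_gd_le hγ hn ho) (abs_nonneg _)

lemma dir_smul {c : ℝ} (hc : 0 < c) (x : E3) : dir (c • x) = dir x := by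
  rw [dir, dir, norm_smul, Real.norm_of_nonneg hc.le, smul_smul, mul_inv, mul_right_comm,
    inv_mul_cancel₀ hc.ne', one_mul]

lemma norm_dir {x : E3} (hx : x ≠ 0) : ‖dir x‖ = 1 := norm_smul_inv_norm (𝕜 := ℝ) hx

lemma cd_dir {x : E3} (hx : x ≠ 0) : ContDiffAt ℝ 2 dir x :=
  ((contDiffAt_norm ℝ hx).inv (norm_ne_zero_iff.2 hx)).smul contDiffAt_id

lemma dir_iso (Q : E3 ≃ₗᵢ[ℝ] E3) (x : E3) : dir (Q x) = Q (dir x) := by
  rw [dir, dir, Q.norm_map, map_smul]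

lemma norm_e3 : ‖e3‖ = 1 := by simp [e3, EuclideanSpace.norm_eq, Fin.sum_univ_three]

lemma norm_eth (θ : ℝ) : ‖eth θ‖ = 1 := by simp [eth, EuclideanSpace.norm_eq, Fin.sum_univ_three]

lemma eth_e3 (θ : ℝ) : ⟪eth θ, e3⟫ = 0 := by simp [eth, e3, PiLp.inner_apply, Fin.sum_univ_three]

lemma contDiff_eth : ContDiff ℝ 2 eth := by
  rw [show eth = fun θ => Real.cos θ • (!₂[1, 0, 0] : E3) + Real.sin θ • (!₂[0, 1, 0] : E3) by
    ext θ i; fin_cases i <;> simp [eth]]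
  fun_prop

lemma eth_per : Function.Periodic eth (2 * π) := fun θ => by simp [eth]

lemma norm_xiCyl (w θ U : ℝ) : ‖xiCyl w θ U‖ = 2 * √w := norm_xi norm_e3 (norm_eth θ) (eth_e3 θ)

lemma norm_xiCone (L : Link) (w θ t : ℝ) : ‖xiCone L w θ t‖ = 2 * √w :=
  norm_xi (L.γ_unit θ) (L.n_unit θ) (L.orth θ)

lemma lev_eq {x : E3} (hw : 0 ≤ w) (h : ‖x‖ = 2 * √w) : ‖x‖ ^ 2 / 4 = w := by
  rw [h, mul_pow, Real.sq_sqrt hw]; ring

lemma sqrt8 (w : ℝ) : √(8 * w) = √2 * (2 * √w) := by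
  rw [show (8 : ℝ) * w = 2 * (2 ^ 2 * w) by ring, Real.sqrt_mul (by norm_num),
    Real.sqrt_mul (by norm_num), Real.sqrt_sq (by norm_num)]

/-- the complex coordinate adapted to the cylinder with axis `Q e3` -/
noncomputable def zc (Q : E3 ≃ₗᵢ[ℝ] E3) (x : E3) : ℂ :=
  (√2 * ‖x‖ / (‖x‖ + Q.symm x 2)) • ((Q.symm x 0 : ℂ) + Q.symm x 1 * I)

lemma zc_smul (Q : E3 ≃ₗᵢ[ℝ] E3) (c : ℝ) (x : E3) (hc : 0 < c) : zc Q (c • x) = c • zc Q x := by
  simp only [zc, map_smul, PiLp.smul_apply, smul_eq_mul, norm_smul, Real.norm_of_nonneg hc.le,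
    ← mul_add, mul_left_comm √2 c, mul_div_mul_left _ _ hc.ne', real_smul]
  push_cast
  ring

lemma zc_xiCyl (Q : E3 ≃ₗᵢ[ℝ] E3) (hw : 0 < w) (θ U : ℝ) :
    zc Q (Q (xiCyl w θ U)) = U * exp (θ * I) := by
  have h0 : 0 < √w := Real.sqrt_pos.2 hw
  have h1 : 0 < √2 := by positivity
  rw [zc, Q.norm_map, norm_xiCyl, Q.symm_apply_apply, exp_mul_I, ← ofReal_cos, ← ofReal_sin]
  obtain ⟨s, hs⟩ : ∃ s, s = U / √(8 * w) := ⟨_, rfl⟩
  have h2 : U = √2 * (2 * √w) * s := by rw [hs, sqrt8]; field_simp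
  have h3 : 0 < 1 + s ^ 2 := by positivity
  have e0 : xiCyl w θ U 0 = 2 * √w / (1 + s ^ 2) * (2 * s * Real.cos θ) := by
    rw [xiCyl, ← hs]; simp [xi, e3, eth]
  have e1 : xiCyl w θ U 1 = 2 * √w / (1 + s ^ 2) * (2 * s * Real.sin θ) := by
    rw [xiCyl, ← hs]; simp [xi, e3, eth]
  have e2 : 2 * √w + xiCyl w θ U 2 = 2 * √w / (1 + s ^ 2) * 2 := by
    rw [xiCyl, ← hs]; simp [xi, e3, eth]; field_simp; ring
  rw [e0, e1, e2, h2]
  refine Complex.ext ?_ ?_ <;>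
    simp only [smul_re, smul_im, add_re, add_im, mul_re, mul_im, ofReal_re, ofReal_im, I_re, I_im,
      smul_eq_mul] <;> field_simp <;> ring

lemma cd_zc (Q : E3 ≃ₗᵢ[ℝ] E3) {x : E3} (hx : x ≠ 0) (h : dist (dir x) (Q e3) ≤ 1) :
    ContDiffAt ℝ 2 (zc Q) x := by
  have h0 := norm_pos_iff.2 hx
  have h1 : ∀ i, ContDiffAt ℝ 2 (fun x => Q.symm x i) x := fun i =>
    ((EuclideanSpace.proj i : E3 →L[ℝ] ℝ).contDiff.comp Q.symm.contDiff).contDiffAt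
  have h2 : 0 ≤ Q.symm x 2 := by
    rw [← Q.symm.dist_map, ← dir_iso, Q.symm_apply_apply] at h
    have h3 := (PiLp.dist_apply_le (dir (Q.symm x)) e3 2).trans h
    have h4 : 0 ≤ ‖x‖⁻¹ * Q.symm x 2 := by
      simp only [dir, Q.symm.norm_map, PiLp.smul_apply, smul_eq_mul, e3, Real.dist_eq] at h3
      have := (abs_le.1 h3).1
      simpa using this
    exact (mul_nonneg_iff_of_pos_left (inv_pos.2 h0)).1 h4
  exact ((contDiffAt_const.mul (contDiffAt_norm ℝ hx)).div ((contDiffAt_norm ℝ hx).add (h1 2))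
    (by positivity)).smul ((ofRealCLM.contDiff.contDiffAt.comp x (h1 0)).add
      ((ofRealCLM.contDiff.contDiffAt.comp x (h1 1)).mul contDiffAt_const))

lemma sep_le {a b x : E3} {ε : ℝ} (hε : 0 < ε) (h1 : 4 * ε ≤ dist a b) (h2 : dist x b ≤ ε) :
    2 * ε < dist x a := by
  linarith [dist_triangle_left a b x]

lemma lc_eq {F : Type} {g : ℝ × ℝ → F} {ζ : E3 → ℂ} {x : E3} {p : ℝ × ℝ} {U : ℝ} (hp : 0 ≤ p.1)
    (hg : Function.Periodic (fun θ => g (p.1, θ)) (2 * π)) (h1 : ‖x‖ = 2 * √p.1) (hU : 0 < U)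
    (h2 : ζ x = U * exp (p.2 * I)) : g (lc ζ x) = g p := by
  rw [lc, lev_eq hp h1, h2]
  exact per_arg_exp hg hU p.2

lemma two_le_top : (2 : WithTop ℕ∞) ≤ (⊤ : ℕ∞) := WithTop.coe_le_coe.2 le_top

end Xi

section Cut

variable {I : Type} {𝓕 : Filter (I × E3)}

/-- zero on the ball of radius `ρ`, one outside the ball of radius `2 ρ` -/
noncomputable def rad0 (ρ : ℝ) (x : E3) : ℝ := Real.smoothTransition (‖x‖ ^ 2 / ρ ^ 2 - 1)

lemma contDiff_rad0 (ρ : ℝ) : ContDiff ℝ 2 (rad0 ρ) :=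
  Real.smoothTransition.contDiff.comp (((contDiff_norm_sq ℝ).div_const _).sub contDiff_const)

lemma rad0_zero {ρ : ℝ} (hρ : 0 < ρ) {x : E3} (h : ‖x‖ ≤ ρ) : rad0 ρ x = 0 :=
  Real.smoothTransition.zero_of_nonpos (by
    rw [sub_nonpos, div_le_one (by positivity)]; gcongr)

lemma rad0_one {ρ : ℝ} (hρ : 0 < ρ) {x : E3} (h : 2 * ρ ≤ ‖x‖) : rad0 ρ x = 1 :=
  Real.smoothTransition.one_of_one_le (by
    rw [le_sub_iff_add_le, le_div_iff₀ (by positivity)]; nlinarith)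

lemma ev_rad0 {ρ : ℝ} (hρ : 0 < ρ) {x : E3} (h : ‖x‖ < ρ) : ∀ᶠ y in 𝓝 x, rad0 ρ y = 0 :=
  (continuous_norm.continuousAt.eventually (eventually_lt_nhds h)).mono fun _ hy =>
    rad0_zero hρ hy.le

lemma sb_rad0 {ρ : ℝ} (hρ : 0 < ρ) (h : ∀ᶠ z in 𝓕, ρ ≤ ‖z.2‖) :
    SB 𝓕 (fun _ => 1) (fun z => ‖z.2‖⁻¹) fun z => rad0 ρ z.2 := by
  have h1 : SB 𝓕 (fun _ => 1) (fun z => ‖z.2‖⁻¹) fun z => rad0 ρ z.2 - 1 := by
    refine SB.cut (A := Prod.snd ⁻¹' closedBall 0 (2 * ρ)) ?_ (Eventually.of_forall fun z hz => ?_)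
    · refine ((SB.of_compact (isCompact_closedBall 0 (2 * ρ)) fun y _ =>
        ((contDiff_rad0 ρ).sub contDiff_const).contDiffAt).filter inf_le_right).mono
        (isBigO_refl _ _) (IsBigO.of_bound (2 * ρ) (eventually_inf_principal.2 ?_))
      filter_upwards [h] with z h1 h2
      have h3 := hρ.trans_le h1
      rw [norm_one, norm_inv, norm_norm, ← div_eq_mul_inv, le_div_iff₀ h3, one_mul]
      simpa using h2
    · have h2 : 2 * ρ < ‖z.2‖ := by simpa using hz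
      filter_upwards [continuous_norm.continuousAt.eventually (eventually_gt_nhds h2)] with y hy
      rw [sec, rad0_one hρ hy.le, sub_self]
  exact (h1.add (SB.const 1)).congr
    (Eventually.of_forall fun z => Eventually.of_forall fun x => by simp [sec])

/-- one if the direction is within `ε` of `a`, zero if it is not within `2 ε` -/
noncomputable def ang (a : E3) (ε : ℝ) (x : E3) : ℝ :=
  Real.smoothTransition (2 - ‖dir x - a‖ ^ 2 / ε ^ 2)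

lemma cd_ang (a : E3) (ε : ℝ) {x : E3} (hx : x ≠ 0) : ContDiffAt ℝ 2 (ang a ε) x :=
  Real.smoothTransition.contDiff.contDiffAt.comp x (contDiffAt_const.sub
    ((((cd_dir hx).sub contDiffAt_const).norm_sq ℝ).div_const _))

lemma ang_one {a x : E3} {ε : ℝ} (hε : 0 < ε) (h : dist (dir x) a ≤ ε) : ang a ε x = 1 :=
  Real.smoothTransition.one_of_one_le (by
    rw [dist_eq_norm] at h
    have : ‖dir x - a‖ ^ 2 / ε ^ 2 ≤ 1 := by rw [div_le_one (by positivity)]; gcongr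
    linarith)

lemma ang_zero {a x : E3} {ε : ℝ} (hε : 0 < ε) (h : 2 * ε ≤ dist (dir x) a) : ang a ε x = 0 :=
  Real.smoothTransition.zero_of_nonpos (by
    rw [dist_eq_norm] at h
    rw [sub_nonpos, le_div_iff₀ (by positivity)]; nlinarith)

lemma ev_ang {a x : E3} {ε : ℝ} (hε : 0 < ε) (hx : x ≠ 0) (h : 2 * ε < dist (dir x) a) :
    ∀ᶠ y in 𝓝 x, ang a ε y = 0 :=
  (((cd_dir hx).continuousAt.dist continuousAt_const).eventually (eventually_gt_nhds h)).mono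
    fun _ hy => ang_zero hε hy.le

lemma sb_ang (a : E3) (ε : ℝ) (h : ∀ᶠ z in 𝓕, z.2 ≠ 0) :
    SB 𝓕 (fun _ => 1) (fun z => ‖z.2‖⁻¹) fun z => ang a ε z.2 :=
  SB.hom (m := fun _ => 1) (fun c x hc => by rw [ang, dir_smul hc, one_smul, ang])
    (isCompact_sphere 0 1) (fun y hy => cd_ang a ε (ne_zero_of_mem_sphere one_ne_zero ⟨y, hy⟩))
    (h.mono fun z hz => ⟨hz, mem_sphere_zero_iff_norm.2 (norm_dir hz)⟩)

lemma bigO_inv {ρ : ℝ} (hρ : 0 < ρ) (h : ∀ᶠ z in 𝓕, ρ ≤ ‖z.2‖) :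
    (fun z : I × E3 => ‖z.2‖⁻¹) =O[𝓕] fun _ => (1 : ℝ) :=
  IsBigO.of_bound ρ⁻¹ (h.mono fun z hz => by simpa using inv_anti₀ hρ hz)

lemma sb_norm (h : ∀ᶠ z in 𝓕, z.2 ≠ 0) :
    SB 𝓕 (fun z => ‖z.2‖) (fun z => ‖z.2‖⁻¹) fun z => ‖z.2‖ :=
  SB.hom (m := fun c => c) (fun c x hc => by rw [norm_smul, Real.norm_of_nonneg hc.le]; rfl)
    (isCompact_sphere 0 1)
    (fun y hy => contDiffAt_norm ℝ (ne_zero_of_mem_sphere one_ne_zero ⟨y, hy⟩))
    (h.mono fun z hz => ⟨hz, mem_sphere_zero_iff_norm.2 (norm_dir hz)⟩)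

lemma sb_inv (h : ∀ᶠ z in 𝓕, z.2 ≠ 0) :
    SB 𝓕 (fun z => ‖z.2‖⁻¹) (fun z => ‖z.2‖⁻¹) fun z => ‖z.2‖⁻¹ :=
  SB.hom (m := fun c => c⁻¹) (k := fun x => ‖x‖⁻¹)
    (fun c x hc => by rw [norm_smul, Real.norm_of_nonneg hc.le, mul_inv]; rfl)
    (isCompact_sphere 0 1)
    (fun y hy => (contDiffAt_norm ℝ (ne_zero_of_mem_sphere one_ne_zero ⟨y, hy⟩)).inv
      (norm_ne_zero_iff.2 (ne_zero_of_mem_sphere one_ne_zero ⟨y, hy⟩)))
    (h.mono fun z hz => ⟨hz, mem_sphere_zero_iff_norm.2 (norm_dir hz)⟩)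

lemma sb_id (h : ∀ᶠ z in 𝓕, z.2 ≠ 0) : SB 𝓕 (fun z => ‖z.2‖) (fun z => ‖z.2‖⁻¹) fun z => z.2 :=
  SB.hom (m := fun c => c) (k := fun x => x) (fun _ _ _ => rfl) (isCompact_sphere 0 1)
    (fun _ _ => contDiffAt_id) (h.mono fun _ hz => ⟨hz, mem_sphere_zero_iff_norm.2 (norm_dir hz)⟩)

/-- from functions of size `ε r` on the scale `r` to bounds on the unit scale -/
lemma SB.unit {F : Type} [NormedAddCommGroup F] [NormedSpace ℝ F] {f : I × E3 → F}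
    {e : I × E3 → ℝ} {ρ : ℝ} (hρ : 0 < ρ) (h : ∀ᶠ z in 𝓕, ρ ≤ ‖z.2‖)
    (hf : SB 𝓕 (fun z => e z * ‖z.2‖) (fun z => ‖z.2‖⁻¹) f) : S2 𝓕 e (fun _ => 1) f := by
  have h1 : (fun z => e z * ‖z.2‖ * ‖z.2‖⁻¹) =O[𝓕] e :=
    (isBigO_refl e 𝓕).congr' (h.mono fun _ hz =>
      (mul_inv_cancel_right₀ (hρ.trans_le hz).ne' _).symm) EventuallyEq.rfl
  exact hf.toS2.mono h1 (h1.mul (bigO_inv hρ h))

/-- one on the annulus `1/2 ≤ |ζ| ≤ 2`, zero outside `1/4 ≤ |ζ| ≤ 4` -/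
noncomputable def ann (ζ : ℂ) : ℝ :=
  Real.smoothTransition (5 - ‖ζ‖ ^ 2) * Real.smoothTransition (8 * ‖ζ‖ ^ 2 - 1)

lemma contDiff_ann : ContDiff ℝ 2 ann :=
  (Real.smoothTransition.contDiff.comp (contDiff_const.sub (contDiff_norm_sq ℝ))).mul
    (Real.smoothTransition.contDiff.comp
      ((contDiff_const.mul (contDiff_norm_sq ℝ)).sub contDiff_const))

lemma ann_one {ζ : ℂ} (h1 : 1 / 2 ≤ ‖ζ‖) (h2 : ‖ζ‖ ≤ 2) : ann ζ = 1 := by
  rw [ann, Real.smoothTransition.one_of_one_le (by nlinarith),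
    Real.smoothTransition.one_of_one_le (by nlinarith), mul_one]

lemma ev_ann {ζ : ℂ} (h : ‖ζ‖ ∉ Icc (1 / 4 : ℝ) 4) : ∀ᶠ y in 𝓝 ζ, ann y = 0 := by
  filter_upwards [continuous_norm.continuousAt.eventually (isClosed_Icc.isOpen_compl.mem_nhds h)]
    with y hy
  have h0 := norm_nonneg y
  rcases not_and_or.1 hy with h1 | h1
  · rw [ann, Real.smoothTransition.zero_of_nonpos (x := 8 * _ - 1) (by nlinarith), mul_zero]
  · rw [ann, Real.smoothTransition.zero_of_nonpos (by nlinarith), zero_mul]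

/-- one for `s ≤ 1/4`, zero for `s ≥ 1/2` -/
noncomputable def cw (s : ℝ) : ℝ := Real.smoothTransition (2 - 4 * s)

lemma contDiff_cw : ContDiff ℝ 2 cw :=
  Real.smoothTransition.contDiff.comp (contDiff_const.sub (contDiff_const.mul contDiff_id))

lemma cw_one {s : ℝ} (h : s ≤ 1 / 4) : cw s = 1 :=
  Real.smoothTransition.one_of_one_le (by linarith)

lemma cw_zero {s : ℝ} (h : 1 / 2 ≤ s) : cw s = 0 :=
  Real.smoothTransition.zero_of_nonpos (by linarith)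

lemma cw_mem (s : ℝ) : 0 ≤ cw s ∧ cw s ≤ 1 :=
  ⟨Real.smoothTransition.nonneg _, Real.smoothTransition.le_one _⟩

lemma S2.normSq {c a : I × E3 → ℝ} {c' : I → ℝ} (h1 : (fun z => c' z.1 * ‖z.2‖) =O[𝓕] a)
    (h2 : (fun z => c' z.1) =O[𝓕] fun z => a z * c z) :
    S2 𝓕 a c fun z => c' z.1 * ‖z.2‖ ^ 2 := by
  have j1 : S2 𝓕 (fun z => a z * c z) (fun _ => 1)
      fun z => (c' z.1 • (2 • innerSL ℝ : E3 →L[ℝ] E3 →L[ℝ] ℝ)) z.2 + 0 :=
    S2.affine (A := fun i => c' i • (2 • innerSL ℝ : E3 →L[ℝ] E3 →L[ℝ] ℝ)) (c := fun _ => 0)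
      (IsBigO.trans (IsBigO.of_bound ‖(2 • innerSL ℝ : E3 →L[ℝ] E3 →L[ℝ] ℝ)‖
        (Eventually.of_forall fun z => by rw [norm_smul, mul_comm])) h2)
  have j2 : ∀ (i : I) (x : E3), HasFDerivAt (fun x => c' i * ‖x‖ ^ 2)
      ((c' i • (2 • innerSL ℝ : E3 →L[ℝ] E3 →L[ℝ] ℝ)) x + 0) x := fun z x => by
    simpa using (hasStrictFDerivAt_norm_sq x).hasFDerivAt.const_mul _
  have j3 : ∀ i : I, ContDiff ℝ 2 fun x : E3 => c' i * ‖x‖ ^ 2 :=
    fun z => contDiff_const.mul (contDiff_norm_sq ℝ)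
  refine ⟨Eventually.of_forall fun z => (j3 z.1).contDiffAt, S1.congr ⟨j1.cd1, ?_, j1.d1.b0⟩
    (Eventually.of_forall fun z => Eventually.of_forall fun x => (j2 z.1 x).fderiv)⟩
  refine IsBigO.trans (IsBigO.of_bound 2 (Eventually.of_forall fun z => ?_)) h1
  simp only [add_zero, smul_apply, norm_smul, norm_mul, norm_norm, RCLike.norm_nsmul (K := ℝ),
    nsmul_eq_mul]
  rw [show ‖innerSL ℝ z.2‖ = ‖z.2‖ from innerSL_apply_norm ℝ z.2]
  exact le_of_eq (by norm_num; ring)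

end Cut

end Vale.Agent.P218GE
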